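import Mathlib

/-!
Blueprint module Alg (P321 superpolynomial bound): the algebra of finitely supported functions
on words, positivity, mass, `l1` norm, the chi-square cost.
-/

namespace Vale.Agent.P321.Sup

/-- words -/
abbrev Wd : Type := FreeMonoid Bool

/-- finitely supported real functions on words, with convolution -/
abbrev Al : Type := MonoidAlgebra ℝ (FreeMonoid Bool)

/-- pairing with a test function -/
noncomputable def ev (f : Wd → ℝ) (a : Al) : ℝ := a.coeff.sum fun w x => x * f w

/-- total mass -/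
noncomputable def mass (a : Al) : ℝ := ev (fun _ => 1) a

/-- `l1` norm -/
noncomputable def nm (a : Al) : ℝ := a.coeff.sum fun _ x => |x|

/-- nonnegative elements -/
def Pos (a : Al) : Prop := ∀ w, 0 ≤ a.coeff w

/-- pointwise order -/
def Le (a b : Al) : Prop := ∀ w, a.coeff w ≤ b.coeff w

/-- probability elements -/
structure Prb (a : Al) : Prop where
  pos : Pos a
  mass : mass a = 1

/-- `χ²(a ‖ b) ≤ K`: `φ` is the density -/
def Cost (a b : Al) (K : ℝ) : Prop :=
  ∃ φ : Wd → ℝ, (∀ w, a.coeff w = φ w * b.coeff w) ∧ ev (fun w => φ w ^ 2) b ≤ K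

/-! ### pairing -/

section pairing

variable {f g : Wd → ℝ} {a b : Al}

theorem ev_zero (f : Wd → ℝ) : ev f 0 = 0 := by
  simp [ev]

theorem ev_add (f : Wd → ℝ) (a b : Al) : ev f (a + b) = ev f a + ev f b := by
  unfold ev
  rw [MonoidAlgebra.coeff_add]
  exact Finsupp.sum_add_index' (fun _ => by ring) (fun _ _ _ => by ring)

theorem ev_smul (f : Wd → ℝ) (r : ℝ) (a : Al) : ev f (r • a) = r * ev f a := by
  unfold ev
  rw [MonoidAlgebra.coeff_smul, Finsupp.sum_smul_index' (fun _ => by ring), Finsupp.mul_sum]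
  refine Finsupp.sum_congr fun w _ => ?_
  rw [smul_eq_mul]
  ring

theorem ev_neg (f : Wd → ℝ) (a : Al) : ev f (-a) = - ev f a := by
  have h : ev f (-a) + ev f a = 0 := by
    rw [← ev_add, neg_add_cancel, ev_zero]
  linarith

theorem ev_sub (f : Wd → ℝ) (a b : Al) : ev f (a - b) = ev f a - ev f b := by
  rw [sub_eq_add_neg, ev_add, ev_neg, sub_eq_add_neg]

theorem ev_sum {ι : Type*} (f : Wd → ℝ) (s : Finset ι) (a : ι → Al) :
    ev f (∑ i ∈ s, a i) = ∑ i ∈ s, ev f (a i) := by
  classical
  induction s using Finset.induction_on with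
  | empty => simp [ev_zero]
  | insert i s hi ih => rw [Finset.sum_insert hi, Finset.sum_insert hi, ev_add, ih]

/-- linearity in the test function -/
theorem ev_fun_add (f g : Wd → ℝ) (a : Al) : ev (fun w => f w + g w) a = ev f a + ev g a := by
  unfold ev
  rw [← Finsupp.sum_add]
  exact Finsupp.sum_congr fun w _ => by ring

theorem ev_fun_mul (r : ℝ) (f : Wd → ℝ) (a : Al) : ev (fun w => r * f w) a = r * ev f a := by
  unfold ev
  rw [Finsupp.mul_sum]
  exact Finsupp.sum_congr fun w _ => by ring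

theorem ev_single (f : Wd → ℝ) (w : Wd) (r : ℝ) : ev f (MonoidAlgebra.single w r) = r * f w := by
  unfold ev
  rw [MonoidAlgebra.coeff_single]
  exact Finsupp.sum_single_index (by ring)

theorem ev_one (f : Wd → ℝ) : ev f 1 = f 1 := by
  rw [MonoidAlgebra.one_def, ev_single, one_mul]

theorem ev_mul (f : Wd → ℝ) (a b : Al) :
    ev f (a * b) = ev (fun u => ev (fun v => f (u * v)) b) a := by
  induction a using MonoidAlgebra.induction_linear with
  | zero => rw [zero_mul, ev_zero, ev_zero]
  | add a a' ha ha' => rw [add_mul, ev_add, ev_add, ha, ha']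
  | single u r =>
    rw [ev_single]
    induction b using MonoidAlgebra.induction_linear with
    | zero => rw [mul_zero, ev_zero, ev_zero, mul_zero]
    | add b b' hb hb' => rw [mul_add, ev_add, ev_add, hb, hb', mul_add]
    | single v s =>
      rw [MonoidAlgebra.single_mul_single, ev_single, ev_single]
      ring

theorem ev_eq_sum (f : Wd → ℝ) (a : Al) : ev f a = ∑ w ∈ a.coeff.support, a.coeff w * f w := rfl

theorem ev_nonneg (ha : Pos a) (h : ∀ w, 0 ≤ f w) : 0 ≤ ev f a :=
  Finset.sum_nonneg fun w _ => mul_nonneg (ha w) (h w)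

theorem ev_mono (ha : Pos a) (h : ∀ w, f w ≤ g w) : ev f a ≤ ev g a :=
  Finset.sum_le_sum fun w _ => mul_le_mul_of_nonneg_left (h w) (ha w)

theorem ev_le_of_Le (h : Le a b) (hf : ∀ w, 0 ≤ f w) : ev f a ≤ ev f b := by
  have h1 : Pos (b - a) := fun w => by
    have h2 := h w
    rw [MonoidAlgebra.coeff_sub, Finsupp.sub_apply]
    linarith
  have h3 := ev_nonneg h1 hf
  rw [ev_sub] at h3
  linarith

/-- pairing with the indicator of a word gives the coefficient -/
theorem ev_indicator (w : Wd) (a : Al) [DecidableEq Wd] :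
    ev (fun v => if v = w then 1 else 0) a = a.coeff w := by
  rw [ev_eq_sum]
  simp only [mul_ite, mul_one, mul_zero]
  rw [Finset.sum_ite_eq' a.coeff.support w (fun v => a.coeff v)]
  split_ifs with h
  · rfl
  · exact (Finsupp.notMem_support_iff.mp h).symm

/-- two elements agree if all pairings agree -/
theorem ext_ev (h : ∀ f, ev f a = ev f b) : a = b := by
  classical
  refine MonoidAlgebra.coeff_injective (Finsupp.ext fun w => ?_)
  have h1 := h (fun v => if v = w then 1 else 0)
  rwa [ev_indicator, ev_indicator] at h1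

/-- Cauchy-Schwarz -/
theorem ev_cs (hb : Pos b) (f g : Wd → ℝ) :
    (ev (fun w => f w * g w) b) ^ 2 ≤ ev (fun w => f w ^ 2) b * ev (fun w => g w ^ 2) b := by
  refine Finset.sum_sq_le_sum_mul_sum_of_sq_le_mul _ (fun w _ => mul_nonneg (hb w) (sq_nonneg _))
    (fun w _ => mul_nonneg (hb w) (sq_nonneg _)) (fun w _ => le_of_eq ?_)
  ring

end pairing

/-! ### positivity, mass, norm -/

section pos

variable {a b c d : Al}

theorem coeff_zero' (w : Wd) : (0 : Al).coeff w = 0 := rfl

theorem coeff_add' (a b : Al) (w : Wd) : (a + b).coeff w = a.coeff w + b.coeff w := by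
  rw [MonoidAlgebra.coeff_add, Finsupp.add_apply]

theorem coeff_sub' (a b : Al) (w : Wd) : (a - b).coeff w = a.coeff w - b.coeff w := by
  rw [MonoidAlgebra.coeff_sub, Finsupp.sub_apply]

theorem coeff_neg' (a : Al) (w : Wd) : (-a).coeff w = - a.coeff w := by
  rw [MonoidAlgebra.coeff_neg, Finsupp.neg_apply]

theorem coeff_smul' (r : ℝ) (a : Al) (w : Wd) : (r • a).coeff w = r * a.coeff w := by
  rw [MonoidAlgebra.coeff_smul, Finsupp.smul_apply, smul_eq_mul]

theorem Pos.zero : Pos 0 := fun w => (coeff_zero' w).ge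

theorem Pos.one : Pos 1 := fun w => by
  classical
  rw [← ev_indicator w 1, ev_one]
  split_ifs <;> norm_num

theorem Pos.add (ha : Pos a) (hb : Pos b) : Pos (a + b) := fun w => by
  rw [coeff_add']
  exact add_nonneg (ha w) (hb w)

theorem Pos.smul {r : ℝ} (hr : 0 ≤ r) (ha : Pos a) : Pos (r • a) := fun w => by
  rw [coeff_smul']
  exact mul_nonneg hr (ha w)

theorem Pos.mul (ha : Pos a) (hb : Pos b) : Pos (a * b) := fun w => by
  classical
  rw [← ev_indicator w (a * b), ev_mul]
  refine ev_nonneg ha fun u => ev_nonneg hb fun v => ?_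
  split_ifs <;> norm_num

theorem Pos.pow (ha : Pos a) (n : ℕ) : Pos (a ^ n) := by
  induction n with
  | zero => rw [pow_zero]; exact Pos.one
  | succ n ih => rw [pow_succ]; exact ih.mul ha

theorem Pos.sum {ι : Type*} {s : Finset ι} {f : ι → Al} (h : ∀ i ∈ s, Pos (f i)) :
    Pos (∑ i ∈ s, f i) := by
  classical
  induction s using Finset.induction_on with
  | empty => rw [Finset.sum_empty]; exact Pos.zero
  | insert i s hi ih =>
    rw [Finset.sum_insert hi]
    exact (h i (Finset.mem_insert_self i s)).add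
      (ih fun j hj => h j (Finset.mem_insert_of_mem hj))

theorem Le.refl (a : Al) : Le a a := fun _ => le_rfl
theorem Le.trans (h : Le a b) (h' : Le b c) : Le a c := fun w => (h w).trans (h' w)
theorem Le.iff_pos : Le a b ↔ Pos (b - a) := by
  unfold Le Pos
  refine forall_congr' fun w => ?_
  rw [coeff_sub', sub_nonneg]

theorem Le.add (h : Le a b) (h' : Le c d) : Le (a + c) (b + d) := fun w => by
  rw [coeff_add', coeff_add']
  exact add_le_add (h w) (h' w)

theorem Le.smul {r : ℝ} (hr : 0 ≤ r) (h : Le a b) : Le (r • a) (r • b) := fun w => by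
  rw [coeff_smul', coeff_smul']
  exact mul_le_mul_of_nonneg_left (h w) hr

theorem Le.smul_le {r s : ℝ} (hrs : r ≤ s) (ha : Pos a) : Le (r • a) (s • a) := fun w => by
  rw [coeff_smul', coeff_smul']
  exact mul_le_mul_of_nonneg_right hrs (ha w)

theorem Le.pos (ha : Pos a) (h : Le a b) : Pos b := fun w => (ha w).trans (h w)

theorem Le.mul_left (h : Le a b) (hc : Pos c) : Le (c * a) (c * b) := by
  rw [Le.iff_pos, ← mul_sub]
  exact hc.mul (Le.iff_pos.mp h)

theorem Le.mul_right (h : Le a b) (hc : Pos c) : Le (a * c) (b * c) := by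
  rw [Le.iff_pos, ← sub_mul]
  exact (Le.iff_pos.mp h).mul hc

theorem Le.mul (h : Le a b) (h' : Le c d) (ha : Pos a) (hc : Pos c) : Le (a * c) (b * d) :=
  (h'.mul_left ha).trans (h.mul_right (h'.pos hc))

theorem Le.pow (h : Le a b) (ha : Pos a) (n : ℕ) : Le (a ^ n) (b ^ n) := by
  induction n with
  | zero => rw [pow_zero, pow_zero]; exact Le.refl 1
  | succ n ih => rw [pow_succ, pow_succ]; exact ih.mul h (ha.pow n) ha

theorem mass_zero : mass 0 = 0 := ev_zero _

theorem mass_one : mass 1 = 1 := ev_one _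

theorem mass_add (a b : Al) : mass (a + b) = mass a + mass b := ev_add _ _ _

theorem mass_sub (a b : Al) : mass (a - b) = mass a - mass b := ev_sub _ _ _

theorem mass_neg (a : Al) : mass (-a) = - mass a := ev_neg _ _

theorem mass_smul (r : ℝ) (a : Al) : mass (r • a) = r * mass a := ev_smul _ _ _

theorem mass_mul (a b : Al) : mass (a * b) = mass a * mass b := by
  unfold mass
  rw [ev_mul, mul_comm, ← ev_fun_mul]
  simp only [mul_one]

theorem mass_pow (a : Al) (n : ℕ) : mass (a ^ n) = mass a ^ n := by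
  induction n with
  | zero => rw [pow_zero, pow_zero, mass_one]
  | succ n ih => rw [pow_succ, pow_succ, mass_mul, ih]

theorem mass_sum {ι : Type*} (s : Finset ι) (a : ι → Al) :
    mass (∑ i ∈ s, a i) = ∑ i ∈ s, mass (a i) := ev_sum _ _ _

theorem mass_nonneg (ha : Pos a) : 0 ≤ mass a := ev_nonneg ha fun _ => zero_le_one

theorem mass_mono (h : Le a b) : mass a ≤ mass b := ev_le_of_Le h fun _ => zero_le_one

theorem Prb.one : Prb 1 := ⟨Pos.one, mass_one⟩

theorem Prb.mul (ha : Prb a) (hb : Prb b) : Prb (a * b) :=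
  ⟨ha.pos.mul hb.pos, by rw [mass_mul, ha.mass, hb.mass, one_mul]⟩

theorem Prb.pow (ha : Prb a) (n : ℕ) : Prb (a ^ n) :=
  ⟨ha.pos.pow n, by rw [mass_pow, ha.mass, one_pow]⟩

theorem Prb.list_prod {l : List Al} (h : ∀ a ∈ l, Prb a) : Prb l.prod := by
  induction l with
  | nil => rw [List.prod_nil]; exact Prb.one
  | cons x l ih =>
    rw [List.prod_cons]
    exact (h x List.mem_cons_self).mul (ih fun y hy => h y (List.mem_cons_of_mem x hy))

theorem nm_eq_sum (a : Al) : nm a = ∑ w ∈ a.coeff.support, |a.coeff w| := rfl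

theorem abs_ev_le {f : Wd → ℝ} {C : ℝ} (hf : ∀ w, |f w| ≤ C) (a : Al) : |ev f a| ≤ C * nm a := by
  rw [ev_eq_sum, nm_eq_sum, Finset.mul_sum]
  refine (Finset.abs_sum_le_sum_abs _ _).trans (Finset.sum_le_sum fun w _ => ?_)
  rw [abs_mul, mul_comm]
  exact mul_le_mul_of_nonneg_right (hf w) (abs_nonneg _)

theorem nm_le_of_ev {K : ℝ} (h : ∀ f : Wd → ℝ, (∀ w, |f w| ≤ 1) → ev f a ≤ K) : nm a ≤ K := by
  refine (le_of_eq ?_).trans (h (fun w => if 0 ≤ a.coeff w then 1 else -1) fun w => ?_)
  · rw [ev_eq_sum, nm_eq_sum]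
    refine Finset.sum_congr rfl fun w _ => ?_
    split_ifs with h0
    · rw [abs_of_nonneg h0, mul_one]
    · rw [abs_of_neg (not_le.mp h0)]
      ring
  · split_ifs
    · rw [abs_one]
    · rw [abs_neg, abs_one]

theorem ev_le_nm {f : Wd → ℝ} (hf : ∀ w, |f w| ≤ 1) (a : Al) : ev f a ≤ nm a :=
  (le_abs_self _).trans ((abs_ev_le hf a).trans (one_mul _).le)

theorem nm_zero : nm 0 = 0 := rfl

theorem nm_nonneg (a : Al) : 0 ≤ nm a := Finset.sum_nonneg fun _ _ => abs_nonneg _

theorem nm_add (a b : Al) : nm (a + b) ≤ nm a + nm b := by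
  refine nm_le_of_ev fun f hf => ?_
  rw [ev_add]
  exact add_le_add (ev_le_nm hf a) (ev_le_nm hf b)

theorem nm_smul_le (r : ℝ) (a : Al) : nm (r • a) ≤ |r| * nm a := by
  refine nm_le_of_ev fun f hf => ?_
  rw [ev_smul]
  refine (le_abs_self _).trans ?_
  rw [abs_mul]
  exact mul_le_mul_of_nonneg_left ((abs_ev_le hf a).trans (one_mul _).le) (abs_nonneg _)

theorem nm_smul (r : ℝ) (a : Al) : nm (r • a) = |r| * nm a := by
  refine le_antisymm (nm_smul_le r a) ?_
  rcases eq_or_ne r 0 with rfl | hr
  · rw [abs_zero, zero_mul]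
    exact nm_nonneg _
  · have h := nm_smul_le r⁻¹ (r • a)
    rw [smul_smul, inv_mul_cancel₀ hr, one_smul, abs_inv] at h
    have h1 : 0 < |r| := abs_pos.mpr hr
    calc |r| * nm a ≤ |r| * (|r|⁻¹ * nm (r • a)) := mul_le_mul_of_nonneg_left h h1.le
      _ = nm (r • a) := by rw [← mul_assoc, mul_inv_cancel₀ h1.ne', one_mul]

theorem nm_neg (a : Al) : nm (-a) = nm a := by
  rw [← neg_one_smul ℝ a, nm_smul, abs_neg, abs_one, one_mul]

theorem nm_sub (a b : Al) : nm (a - b) ≤ nm a + nm b := by
  rw [sub_eq_add_neg, ← nm_neg b]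
  exact nm_add _ _

theorem nm_sub_comm (a b : Al) : nm (a - b) = nm (b - a) := by
  rw [← nm_neg, neg_sub]

theorem nm_triangle (a b c : Al) : nm (a - c) ≤ nm (a - b) + nm (b - c) := by
  rw [← sub_add_sub_cancel a b c]
  exact nm_add _ _

theorem nm_mul (a b : Al) : nm (a * b) ≤ nm a * nm b := by
  refine nm_le_of_ev fun f hf => ?_
  rw [ev_mul]
  refine (le_abs_self _).trans ((abs_ev_le (C := nm b) (fun u => ?_) a).trans (mul_comm _ _).le)
  exact (abs_ev_le (fun v => hf (u * v)) b).trans (one_mul _).le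

theorem nm_of_pos (ha : Pos a) : nm a = mass a := by
  unfold mass
  rw [ev_eq_sum, nm_eq_sum]
  refine Finset.sum_congr rfl fun w _ => ?_
  rw [abs_of_nonneg (ha w), mul_one]

theorem nm_pow (a : Al) (n : ℕ) : nm (a ^ n) ≤ nm a ^ n := by
  induction n with
  | zero => rw [pow_zero, pow_zero, nm_of_pos Pos.one, mass_one]
  | succ n ih =>
    rw [pow_succ, pow_succ]
    exact (nm_mul _ _).trans (mul_le_mul_of_nonneg_right ih (nm_nonneg _))

theorem nm_sum {ι : Type*} (s : Finset ι) (a : ι → Al) :
    nm (∑ i ∈ s, a i) ≤ ∑ i ∈ s, nm (a i) := by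
  classical
  induction s using Finset.induction_on with
  | empty => rw [Finset.sum_empty, Finset.sum_empty, nm_zero]
  | insert i s hi ih =>
    rw [Finset.sum_insert hi, Finset.sum_insert hi]
    exact (nm_add _ _).trans (add_le_add le_rfl ih)

theorem Prb.nm (ha : Prb a) : nm a = 1 := by
  rw [nm_of_pos ha.pos, ha.mass]

theorem abs_mass_le (a : Al) : |mass a| ≤ nm a :=
  (abs_ev_le (f := fun _ => 1) (fun _ => abs_one.le) a).trans (one_mul _).le

/-- pointwise minimum -/
theorem exists_min (ha : Pos a) (hb : Pos b) : ∃ U : Al, Pos U ∧ Le U a ∧ Le U b ∧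
    2 * mass U = mass a + mass b - nm (a - b) := by
  classical
  set U : Al := MonoidAlgebra.ofCoeff (Finsupp.zipWith min (min_self 0) a.coeff b.coeff) with hU
  have hc : ∀ w, U.coeff w = min (a.coeff w) (b.coeff w) := fun w => by
    rw [hU, MonoidAlgebra.coeff_ofCoeff, Finsupp.zipWith_apply]
  refine ⟨U, fun w => ?_, fun w => ?_, fun w => ?_, ?_⟩
  · rw [hc]; exact le_min (ha w) (hb w)
  · rw [hc]; exact min_le_left _ _
  · rw [hc]; exact min_le_right _ _
  · have hext : ∀ (f : Wd → ℝ) (x : Al), x.coeff.support ⊆ a.coeff.support ∪ b.coeff.support →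
        ev f x = ∑ w ∈ a.coeff.support ∪ b.coeff.support, x.coeff w * f w := by
      intro f x hx
      rw [ev_eq_sum]
      refine Finset.sum_subset hx fun w _ hw => ?_
      rw [Finsupp.notMem_support_iff.mp hw, zero_mul]
    have hs : ∀ x : Al, (∀ w, a.coeff w = 0 → b.coeff w = 0 → x.coeff w = 0) →
        x.coeff.support ⊆ a.coeff.support ∪ b.coeff.support := by
      intro x hx w hw
      rw [Finset.mem_union, Finsupp.mem_support_iff, Finsupp.mem_support_iff]
      by_contra hcon
      rw [not_or, not_not, not_not] at hcon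
      exact Finsupp.mem_support_iff.mp hw (hx w hcon.1 hcon.2)
    have hn : nm (a - b) = ∑ w ∈ a.coeff.support ∪ b.coeff.support,
        |a.coeff w - b.coeff w| := by
      rw [nm_eq_sum]
      simp only [coeff_sub']
      refine Finset.sum_subset (hs _ fun w h1 h2 => ?_) fun w _ hw => ?_
      · rw [coeff_sub', h1, h2, sub_zero]
      · rw [← coeff_sub', Finsupp.notMem_support_iff.mp hw, abs_zero]
    unfold mass
    rw [hext _ U (hs U fun w h1 h2 => by rw [hc, h1, h2, min_self]),
      hext _ a Finset.subset_union_left, hext _ b Finset.subset_union_right, hn, Finset.mul_sum,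
      ← Finset.sum_add_distrib, ← Finset.sum_sub_distrib]
    refine Finset.sum_congr rfl fun w _ => ?_
    rw [hc, mul_one, mul_one, mul_one]
    rcases le_total (a.coeff w) (b.coeff w) with h | h
    · rw [min_eq_left h, abs_of_nonpos (sub_nonpos.mpr h)]
      ring
    · rw [min_eq_right h, abs_of_nonneg (sub_nonneg.mpr h)]
      ring

/-- restriction to a set of words -/
noncomputable def res (S : Set Wd) (a : Al) : Al :=
  MonoidAlgebra.ofCoeff (by classical exact a.coeff.filter (· ∈ S))

theorem res_coeff_mem {S : Set Wd} {w : Wd} (h : w ∈ S) (a : Al) :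
    (res S a).coeff w = a.coeff w := by
  classical
  unfold res
  rw [MonoidAlgebra.coeff_ofCoeff]
  exact Finsupp.filter_apply_pos _ _ h

theorem res_coeff_not_mem {S : Set Wd} {w : Wd} (h : w ∉ S) (a : Al) :
    (res S a).coeff w = 0 := by
  classical
  unfold res
  rw [MonoidAlgebra.coeff_ofCoeff]
  exact Finsupp.filter_apply_neg _ _ h

theorem ext_coeff (h : ∀ w, a.coeff w = b.coeff w) : a = b :=
  MonoidAlgebra.coeff_injective (Finsupp.ext h)

theorem res_add_compl (S : Set Wd) (a : Al) : res S a + res Sᶜ a = a := by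
  refine ext_coeff fun w => ?_
  rw [coeff_add']
  by_cases h : w ∈ S
  · rw [res_coeff_mem h, res_coeff_not_mem (S := Sᶜ) (fun hc => hc h), add_zero]
  · rw [res_coeff_not_mem h, res_coeff_mem (S := Sᶜ) h, zero_add]

theorem res_add (S : Set Wd) (a b : Al) : res S (a + b) = res S a + res S b := by
  refine ext_coeff fun w => ?_
  rw [coeff_add']
  by_cases h : w ∈ S
  · rw [res_coeff_mem h, res_coeff_mem h, res_coeff_mem h, coeff_add']
  · rw [res_coeff_not_mem h, res_coeff_not_mem h, res_coeff_not_mem h, add_zero]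

theorem res_sub (S : Set Wd) (a b : Al) : res S (a - b) = res S a - res S b := by
  refine ext_coeff fun w => ?_
  rw [coeff_sub']
  by_cases h : w ∈ S
  · rw [res_coeff_mem h, res_coeff_mem h, res_coeff_mem h, coeff_sub']
  · rw [res_coeff_not_mem h, res_coeff_not_mem h, res_coeff_not_mem h, sub_zero]

theorem res_smul (S : Set Wd) (r : ℝ) (a : Al) : res S (r • a) = r • res S a := by
  refine ext_coeff fun w => ?_
  rw [coeff_smul']
  by_cases h : w ∈ S
  · rw [res_coeff_mem h, res_coeff_mem h, coeff_smul']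
  · rw [res_coeff_not_mem h, res_coeff_not_mem h, mul_zero]

theorem Pos.res (S : Set Wd) (ha : Pos a) : Pos (res S a) := fun w => by
  by_cases h : w ∈ S
  · rw [res_coeff_mem h]; exact ha w
  · rw [res_coeff_not_mem h]

theorem res_le (S : Set Wd) (ha : Pos a) : Le (res S a) a := fun w => by
  by_cases h : w ∈ S
  · rw [res_coeff_mem h]
  · rw [res_coeff_not_mem h]; exact ha w

theorem ev_res (S : Set Wd) [DecidablePred (· ∈ S)] (f : Wd → ℝ) (a : Al) :
    ev f (res S a) = ev (fun w => if w ∈ S then f w else 0) a := by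
  classical
  have hsub : (Sup.res S a).coeff.support ⊆ a.coeff.support := by
    intro w hw
    rw [Finsupp.mem_support_iff] at hw ⊢
    by_cases h : w ∈ S
    · rwa [res_coeff_mem h] at hw
    · exact absurd (res_coeff_not_mem h a) hw
  rw [ev_eq_sum, ev_eq_sum, Finset.sum_subset hsub fun w _ hw => by
    rw [Finsupp.notMem_support_iff.mp hw, zero_mul]]
  refine Finset.sum_congr rfl fun w _ => ?_
  by_cases h : w ∈ S
  · rw [res_coeff_mem h, if_pos h]
  · rw [res_coeff_not_mem h, if_neg h, zero_mul, mul_zero]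

theorem nm_res_le (S : Set Wd) (a : Al) : nm (res S a) ≤ nm a := by
  classical
  refine nm_le_of_ev fun f hf => ?_
  rw [ev_res]
  refine ev_le_nm (fun w => ?_) a
  split_ifs
  · exact hf w
  · rw [abs_zero]; exact zero_le_one

end pos

end Vale.Agent.P321.Sup
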