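import Vale.Agent.P321.Sup.Cst

/-!
Blueprint module Renyi: Renyi moments (dual form), tails, truncation.
-/

namespace Vale.Agent.P321.Sup

/-- dual form of `∑ b^(1+th) / a^th ≤ K` -/
def Rn (th : ℕ) (b a : Al) (K : ℝ) : Prop :=
  ∀ g : Wd → ℝ, (∀ w, 0 ≤ g w) →
    (ev (fun w => g w ^ th) b) ^ (th + 1) ≤ K * (ev (fun w => g w ^ (th + 1)) a) ^ th

section rn

variable {a a' b b' : Al} {K K' : ℝ} {th : ℕ}

theorem ev_sum_of_subset_rny (f : Wd → ℝ) (a : Al) {T : Finset Wd} (hT : a.coeff.support ⊆ T) :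
    ev f a = ∑ w ∈ T, a.coeff w * f w := by
  unfold ev
  rw [Finsupp.sum_of_support_subset _ hT]
  intro w _
  rw [zero_mul]

theorem ev_congr_rny {f g : Wd → ℝ} {a : Al} (h : ∀ w, a.coeff w ≠ 0 → f w = g w) :
    ev f a = ev g a := by
  unfold ev
  refine Finset.sum_congr rfl fun w hw => ?_
  change a.coeff w * f w = a.coeff w * g w
  rw [h w (Finsupp.mem_support_iff.1 hw)]

theorem ev_density_rny {a b : Al} {r : Wd → ℝ} (h : ∀ w, a.coeff w = r w * b.coeff w)
    (f : Wd → ℝ) : ev f a = ev (fun w => f w * r w) b := by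
  classical
  rw [ev_sum_of_subset_rny f a (T := a.coeff.support ∪ b.coeff.support)
      Finset.subset_union_left,
    ev_sum_of_subset_rny (fun w => f w * r w) b (T := a.coeff.support ∪ b.coeff.support)
      Finset.subset_union_right]
  refine Finset.sum_congr rfl fun w _ => ?_
  rw [h w]; ring

/-- Hölder -/
theorem holder_rny (hb : Pos b) (f h : Wd → ℝ) (hf : ∀ w, 0 ≤ f w) (hh : ∀ w, 0 ≤ h w) (th : ℕ) :
    (ev (fun w => f w ^ th * h w) b) ^ (th + 1) ≤
      (ev (fun w => f w ^ (th + 1)) b) ^ th * ev (fun w => h w ^ (th + 1)) b := by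
  rcases Nat.eq_zero_or_pos th with rfl | hth
  · simp
  have hp : (1 : ℝ) ≤ ((th + 1 : ℕ) : ℝ) := by exact_mod_cast Nat.succ_le_succ (Nat.zero_le th)
  have hp0 : ((th + 1 : ℕ) : ℝ) ≠ 0 := by positivity
  have key := Real.inner_le_weight_mul_Lp_of_nonneg b.coeff.support hp
    (fun w => b.coeff w * f w ^ (th + 1)) (fun w => h w / f w)
    (fun w => mul_nonneg (hb w) (pow_nonneg (hf w) _)) (fun w => div_nonneg (hh w) (hf w))
  have e1 : ev (fun w => f w ^ th * h w) b =
      ∑ w ∈ b.coeff.support, b.coeff w * f w ^ (th + 1) * (h w / f w) := by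
    unfold ev
    refine Finset.sum_congr rfl fun w _ => ?_
    change b.coeff w * (f w ^ th * h w) = _
    by_cases hfw : f w = 0
    · rw [hfw, zero_pow hth.ne', zero_pow (Nat.succ_ne_zero th)]; ring
    · field_simp
      ring
  have e2 : (∑ w ∈ b.coeff.support, b.coeff w * f w ^ (th + 1)) =
      ev (fun w => f w ^ (th + 1)) b := rfl
  have e3 : (∑ w ∈ b.coeff.support, b.coeff w * f w ^ (th + 1) * (h w / f w) ^ ((th + 1 : ℕ) : ℝ))
      ≤ ev (fun w => h w ^ (th + 1)) b := by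
    unfold ev
    refine Finset.sum_le_sum fun w _ => ?_
    rw [Real.rpow_natCast]
    by_cases hfw : f w = 0
    · rw [hfw, div_zero, zero_pow (Nat.succ_ne_zero th)]
      have := mul_nonneg (hb w) (pow_nonneg (hh w) (th + 1))
      simpa using this
    · rw [div_pow]
      have : f w ^ (th + 1) ≠ 0 := pow_ne_zero _ hfw
      apply le_of_eq
      field_simp
  have n2 : 0 ≤ ev (fun w => f w ^ (th + 1)) b := ev_nonneg hb fun w => pow_nonneg (hf w) _
  have n3 : 0 ≤ ev (fun w => h w ^ (th + 1)) b := ev_nonneg hb fun w => pow_nonneg (hh w) _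
  have n1 : 0 ≤ ev (fun w => f w ^ th * h w) b :=
    ev_nonneg hb fun w => mul_nonneg (pow_nonneg (hf w) _) (hh w)
  have s3 : 0 ≤ ∑ w ∈ b.coeff.support,
      b.coeff w * f w ^ (th + 1) * (h w / f w) ^ ((th + 1 : ℕ) : ℝ) :=
    Finset.sum_nonneg fun w _ => mul_nonneg (mul_nonneg (hb w) (pow_nonneg (hf w) _))
      (Real.rpow_nonneg (div_nonneg (hh w) (hf w)) _)
  have key2 : ev (fun w => f w ^ th * h w) b ≤
      (ev (fun w => f w ^ (th + 1)) b) ^ (1 - ((th + 1 : ℕ) : ℝ)⁻¹) *
        (ev (fun w => h w ^ (th + 1)) b) ^ (((th + 1 : ℕ) : ℝ)⁻¹) := by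
    rw [e1]
    refine key.trans ?_
    rw [e2]
    exact mul_le_mul_of_nonneg_left
      (Real.rpow_le_rpow s3 e3 (inv_nonneg.2 (by positivity))) (Real.rpow_nonneg n2 _)
  calc (ev (fun w => f w ^ th * h w) b) ^ (th + 1)
      ≤ ((ev (fun w => f w ^ (th + 1)) b) ^ (1 - ((th + 1 : ℕ) : ℝ)⁻¹) *
        (ev (fun w => h w ^ (th + 1)) b) ^ (((th + 1 : ℕ) : ℝ)⁻¹)) ^ (th + 1) :=
        pow_le_pow_left₀ n1 key2 _
    _ = (ev (fun w => f w ^ (th + 1)) b) ^ th * ev (fun w => h w ^ (th + 1)) b := by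
        rw [mul_pow]
        congr 1
        · rw [← Real.rpow_natCast, ← Real.rpow_mul n2, sub_mul, inv_mul_cancel₀ hp0, one_mul]
          have : ((th + 1 : ℕ) : ℝ) - 1 = (th : ℝ) := by push_cast; ring
          rw [this, Real.rpow_natCast]
        · rw [← Real.rpow_natCast, ← Real.rpow_mul n3, inv_mul_cancel₀ hp0, Real.rpow_one]

theorem Rn.one (th : ℕ) : Rn th 1 1 1 := by
  intro g hg
  rw [ev_one, ev_one, one_mul, ← pow_mul, ← pow_mul, mul_comm]

theorem Rn.mono (ha : Pos a) (h : Rn th b a K) (hK : K ≤ K') : Rn th b a K' := by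
  intro g hg
  exact (h g hg).trans (mul_le_mul_of_nonneg_right hK
    (pow_nonneg (ev_nonneg ha fun w => pow_nonneg (hg w) _) _))

theorem Rn.mul (ha : Pos a) (ha' : Pos a') (hb : Pos b) (hb' : Pos b') (hK : 0 ≤ K) (hK' : 0 ≤ K')
    (h : Rn th b a K) (h' : Rn th b' a' K') : Rn th (b * b') (a * a') (K * K') := by
  intro g hg
  have hn : th + 1 ≠ 0 := Nat.succ_ne_zero th
  set G : Wd → ℝ := fun u =>
    (ev (fun v => g (u * v) ^ (th + 1)) a') ^ (((th + 1 : ℕ) : ℝ)⁻¹) with hG
  have nG : ∀ u, 0 ≤ ev (fun v => g (u * v) ^ (th + 1)) a' := fun u =>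
    ev_nonneg ha' fun v => pow_nonneg (hg _) _
  have hG0 : ∀ u, 0 ≤ G u := fun u => Real.rpow_nonneg (nG u) _
  have hGp : ∀ u, G u ^ (th + 1) = ev (fun v => g (u * v) ^ (th + 1)) a' := fun u =>
    Real.rpow_inv_natCast_pow (nG u) hn
  set κ : ℝ := K' ^ (((th + 1 : ℕ) : ℝ)⁻¹) with hκ
  have hκ0 : 0 ≤ κ := Real.rpow_nonneg hK' _
  have hκp : κ ^ (th + 1) = K' := Real.rpow_inv_natCast_pow hK' hn
  have hin : ∀ u, ev (fun v => g (u * v) ^ th) b' ≤ κ * G u ^ th := by
    intro u
    have h1 := h' (fun v => g (u * v)) (fun v => hg _)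
    have h2 : (ev (fun v => g (u * v) ^ th) b') ^ (th + 1) ≤ (κ * G u ^ th) ^ (th + 1) := by
      refine h1.trans (le_of_eq ?_)
      rw [mul_pow, hκp, ← pow_mul, mul_comm th (th + 1), pow_mul, hGp]
    exact le_of_pow_le_pow_left₀ hn (mul_nonneg hκ0 (pow_nonneg (hG0 u) _)) h2
  have h1 : ev (fun w => g w ^ th) (b * b') ≤ κ * ev (fun u => G u ^ th) b := by
    rw [ev_mul, ← ev_fun_mul]
    exact ev_mono hb hin
  have h0 : 0 ≤ ev (fun w => g w ^ th) (b * b') :=
    ev_nonneg (hb.mul hb') fun w => pow_nonneg (hg w) _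
  have h2 := h G hG0
  have h3 : ev (fun u => G u ^ (th + 1)) a = ev (fun w => g w ^ (th + 1)) (a * a') := by
    rw [ev_mul]
    congr 1
    funext u
    exact hGp u
  calc (ev (fun w => g w ^ th) (b * b')) ^ (th + 1)
      ≤ (κ * ev (fun u => G u ^ th) b) ^ (th + 1) := pow_le_pow_left₀ h0 h1 _
    _ = K' * (ev (fun u => G u ^ th) b) ^ (th + 1) := by rw [mul_pow, hκp]
    _ ≤ K' * (K * (ev (fun u => G u ^ (th + 1)) a) ^ th) := mul_le_mul_of_nonneg_left h2 hK'
    _ = K * K' * (ev (fun w => g w ^ (th + 1)) (a * a')) ^ th := by rw [h3]; ring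

theorem Rn.pow (ha : Pos a) (hb : Pos b) (hK : 0 ≤ K) (h : Rn th b a K) (n : ℕ) :
    Rn th (b ^ n) (a ^ n) (K ^ n) := by
  induction n with
  | zero => simpa using Rn.one th
  | succ n ih =>
    rw [pow_succ, pow_succ, pow_succ]
    exact Rn.mul (ha.pow n) ha (hb.pow n) hb (pow_nonneg hK n) hK ih h

theorem inv_pow_le_rny {r lam : ℝ} (hlam : 1 ≤ lam) (hr : 1 / lam ≤ r) (th : ℕ) :
    (r⁻¹) ^ th ≤ 1 - th * (r - 1) + (th : ℝ) ^ 2 * lam ^ th * (r - 1) ^ 2 := by
  have hlam0 : 0 < lam := by linarith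
  have hr0 : 0 < r := lt_of_lt_of_le (by positivity) hr
  have hinv : r⁻¹ ≤ lam := by
    rw [one_div] at hr
    exact (inv_le_comm₀ hlam0 hr0).1 hr
  have key : ∀ k : ℕ, (r⁻¹) ^ k - 1 + k * (r - 1) ≤
      ((k : ℝ) * (k + 1) / 2) * lam ^ k * (r - 1) ^ 2 := by
    intro k
    induction k with
    | zero => simp
    | succ k ih =>
      have hr1 : r⁻¹ * r = 1 := inv_mul_cancel₀ hr0.ne'
      have e1 : (r⁻¹) ^ (k + 1) - 1 + ((k + 1 : ℕ) : ℝ) * (r - 1) =
          ((r⁻¹) ^ k - 1 + k * (r - 1) + ((k : ℝ) + 1) * (r - 1) ^ 2) * r⁻¹ := by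
        push_cast
        rw [pow_succ]
        linear_combination (-(((k : ℝ) + 1) * r - ((k : ℝ) + 2))) * hr1
      rw [e1]
      have h1 : (r⁻¹) ^ k - 1 + k * (r - 1) + ((k : ℝ) + 1) * (r - 1) ^ 2 ≤
          (((k : ℝ) * (k + 1) / 2) * lam ^ k + (k + 1)) * (r - 1) ^ 2 := by linarith
      have h2 : 0 ≤ (((k : ℝ) * (k + 1) / 2) * lam ^ k + (k + 1)) * (r - 1) ^ 2 := by positivity
      have h3 : ((r⁻¹) ^ k - 1 + k * (r - 1) + ((k : ℝ) + 1) * (r - 1) ^ 2) * r⁻¹ ≤
          (((k : ℝ) * (k + 1) / 2) * lam ^ k + (k + 1)) * (r - 1) ^ 2 * lam :=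
        (mul_le_mul_of_nonneg_right h1 (inv_nonneg.2 hr0.le)).trans
          (mul_le_mul_of_nonneg_left hinv h2)
      refine h3.trans ?_
      have h4 : (1 : ℝ) ≤ lam ^ k := one_le_pow₀ hlam
      have h5 : (((k : ℝ) * (k + 1) / 2) * lam ^ k + (k + 1)) * lam ≤
          (((k + 1 : ℕ) : ℝ) * (((k + 1 : ℕ) : ℝ) + 1) / 2) * lam ^ (k + 1) := by
        push_cast
        rw [pow_succ]
        have hk : (0 : ℝ) ≤ (k : ℝ) + 1 := by positivity
        have h6 : ((k : ℝ) + 1) * lam ≤ ((k : ℝ) + 1) * (lam ^ k * lam) := by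
          apply mul_le_mul_of_nonneg_left _ hk
          nlinarith
        nlinarith
      calc (((k : ℝ) * (k + 1) / 2) * lam ^ k + (k + 1)) * (r - 1) ^ 2 * lam
          = ((((k : ℝ) * (k + 1) / 2) * lam ^ k + (k + 1)) * lam) * (r - 1) ^ 2 := by ring
        _ ≤ _ := mul_le_mul_of_nonneg_right h5 (sq_nonneg _)
  have h1 := key th
  have h2 : ((th : ℝ) * (th + 1) / 2) * lam ^ th * (r - 1) ^ 2 ≤
      (th : ℝ) ^ 2 * lam ^ th * (r - 1) ^ 2 := by
    apply mul_le_mul_of_nonneg_right _ (sq_nonneg _)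
    apply mul_le_mul_of_nonneg_right _ (by positivity)
    rcases Nat.eq_zero_or_pos th with rfl | hth
    · simp
    · have : (1 : ℝ) ≤ th := by exact_mod_cast hth
      nlinarith
  linarith

/-- from the pointwise comparison and the chi-square distance -/
theorem Rn.of_cost {lam e : ℝ} (hb : Prb b) (ha : Prb a) (hlam : 1 ≤ lam) (hle : Le b (lam • a))
    (he : Cost (a - b) b e) (th : ℕ) : Rn th b a (1 + (th : ℝ) ^ 2 * lam ^ th * e) := by
  classical
  obtain ⟨φ, hφ, hφe⟩ := he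
  have hlam0 : 0 < lam := by linarith
  set r : Wd → ℝ := fun w => if b.coeff w = 0 then 1 else 1 + φ w with hr
  have har : ∀ w, a.coeff w = r w * b.coeff w := by
    intro w
    have h1 := hφ w
    rw [coeff_sub'] at h1
    by_cases h0 : b.coeff w = 0
    · rw [hr]; simp only [h0, if_true]
      rw [h0] at h1; linarith
    · rw [hr]; simp only [h0, if_false]; linarith
  have hrl : ∀ w, 1 / lam ≤ r w := by
    intro w
    by_cases h0 : b.coeff w = 0
    · rw [hr]; simp only [h0, if_true]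
      rw [div_le_one hlam0]; exact hlam
    · have hbw : 0 < b.coeff w := lt_of_le_of_ne (hb.pos w) (Ne.symm h0)
      have h1 := hle w
      rw [coeff_smul', har w] at h1
      rw [div_le_iff₀ hlam0]
      have h2 : b.coeff w * 1 ≤ b.coeff w * (r w * lam) := by linarith
      exact le_of_mul_le_mul_left h2 hbw
  have hr0 : ∀ w, 0 < r w := fun w => lt_of_lt_of_le (by positivity) (hrl w)
  have hsq : ev (fun w => (r w - 1) ^ 2) b ≤ e := by
    refine le_trans (le_of_eq ?_) hφe
    refine ev_congr_rny fun w hw => ?_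
    rw [hr]; simp only [hw, if_false]; ring
  have hm : ev (fun w => r w - 1) b = 0 := by
    have h1 : ev (fun w => r w) b = 1 := by
      have := ev_density_rny har (fun _ => 1)
      simp only [one_mul] at this
      rw [← this]; exact ha.mass
    have h2 : ev (fun w => r w - 1) b = ev (fun w => r w) b + ev (fun _ => -1) b := by
      rw [← ev_fun_add]; rfl
    have h3 : ev (fun _ => (-1 : ℝ)) b = -1 := by
      have h4 : ev (fun _ : Wd => (-1 : ℝ)) b = ev (fun w => (-1 : ℝ) * (fun _ : Wd => 1) w) b := by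
        congr 1; funext w; simp
      rw [h4, ev_fun_mul]
      have : ev (fun _ => (1 : ℝ)) b = 1 := hb.mass
      rw [this]; norm_num
    rw [h2, h1, h3]; norm_num
  have hmom : ev (fun w => ((r w)⁻¹) ^ th) b ≤ 1 + (th : ℝ) ^ 2 * lam ^ th * e := by
    have h1 : ev (fun w => ((r w)⁻¹) ^ th) b ≤
        ev (fun w => (1 + (-(th : ℝ)) * (r w - 1)) +
          ((th : ℝ) ^ 2 * lam ^ th) * (r w - 1) ^ 2) b := by
      refine ev_mono hb.pos fun w => ?_
      have := inv_pow_le_rny hlam (hrl w) th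
      linarith
    refine h1.trans ?_
    rw [ev_fun_add, ev_fun_add, ev_fun_mul, ev_fun_mul, hm]
    have h5 : ev (fun _ => (1 : ℝ)) b = 1 := hb.mass
    rw [h5, mul_zero, add_zero]
    have h6 : 0 ≤ (th : ℝ) ^ 2 * lam ^ th := by positivity
    have h7 := mul_le_mul_of_nonneg_left hsq h6
    linarith
  intro g hg
  have hn : th + 1 ≠ 0 := Nat.succ_ne_zero th
  set ρ : Wd → ℝ := fun w => (r w) ^ (((th + 1 : ℕ) : ℝ)⁻¹) with hρ
  have hρ0 : ∀ w, 0 < ρ w := fun w => Real.rpow_pos_of_pos (hr0 w) _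
  have hρp : ∀ w, ρ w ^ (th + 1) = r w := fun w => Real.rpow_inv_natCast_pow (hr0 w).le hn
  have h1 := holder_rny hb.pos (fun w => g w * ρ w) (fun w => ((ρ w)⁻¹) ^ th)
    (fun w => mul_nonneg (hg w) (hρ0 w).le)
    (fun w => pow_nonneg (inv_nonneg.2 (hρ0 w).le) _) th
  have e1 : (fun w => (g w * ρ w) ^ th * ((ρ w)⁻¹) ^ th) = fun w => g w ^ th := by
    funext w
    rw [← mul_pow, mul_assoc, mul_inv_cancel₀ (hρ0 w).ne', mul_one]
  have e2 : ev (fun w => (g w * ρ w) ^ (th + 1)) b = ev (fun w => g w ^ (th + 1)) a := by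
    rw [ev_density_rny har]
    congr 1
    funext w
    rw [mul_pow, hρp]
  have e3 : ev (fun w => (((ρ w)⁻¹) ^ th) ^ (th + 1)) b = ev (fun w => ((r w)⁻¹) ^ th) b := by
    congr 1
    funext w
    rw [← pow_mul, mul_comm, pow_mul, inv_pow, hρp]
  rw [e1, e2, e3] at h1
  refine h1.trans ?_
  rw [mul_comm]
  exact mul_le_mul_of_nonneg_right hmom
    (pow_nonneg (ev_nonneg ha.pos fun w => pow_nonneg (hg w) _) _)

theorem ev_ind_rny (S : Set Wd) (a : Al) [DecidablePred (· ∈ S)] :
    ev (fun w => if w ∈ S then 1 else 0) a = mass (res S a) := by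
  classical
  unfold mass
  rw [ev_sum_of_subset_rny _ a (T := a.coeff.support ∪ (res S a).coeff.support)
      Finset.subset_union_left,
    ev_sum_of_subset_rny _ (res S a) (T := a.coeff.support ∪ (res S a).coeff.support)
      Finset.subset_union_right]
  refine Finset.sum_congr rfl fun w _ => ?_
  by_cases hw : w ∈ S
  · rw [res_coeff_mem hw, if_pos hw]
  · rw [res_coeff_not_mem hw, if_neg hw, mul_zero, zero_mul]

theorem Rn.tail {Lam : ℝ} (ha : Pos a) (hb : Pos b) (hK : 0 ≤ K) (hL : 0 < Lam)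
    (h : Rn th b a K) :
    mass (res {w | Lam * a.coeff w < b.coeff w} b) ≤ K / Lam ^ th ∧
    mass (res {w | Lam * a.coeff w < b.coeff w} a) ≤ K / Lam ^ (th + 1) := by
  classical
  set S : Set Wd := {w | Lam * a.coeff w < b.coeff w} with hS
  have hbS : 0 ≤ mass (res S b) := mass_nonneg (hb.res S)
  have haS : 0 ≤ mass (res S a) := mass_nonneg (ha.res S)
  have hab : Lam * mass (res S a) ≤ mass (res S b) := by
    rw [← mass_smul]
    refine mass_mono fun w => ?_
    rw [coeff_smul']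
    by_cases hw : w ∈ S
    · rw [res_coeff_mem hw, res_coeff_mem hw]
      exact le_of_lt hw
    · rw [res_coeff_not_mem hw, res_coeff_not_mem hw, mul_zero]
  have h1 : mass (res S b) ≤ K / Lam ^ th := by
    have h2 := h (fun w => if w ∈ S then 1 else 0) (fun w => by split_ifs <;> norm_num)
    have e1 : ev (fun w => (if w ∈ S then (1 : ℝ) else 0) ^ (th + 1)) a = mass (res S a) := by
      rw [← ev_ind_rny]
      congr 1
      funext w
      by_cases hw : w ∈ S
      · rw [if_pos hw, one_pow]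
      · rw [if_neg hw, zero_pow (Nat.succ_ne_zero th)]
    have e2 : mass (res S b) ≤ ev (fun w => (if w ∈ S then (1 : ℝ) else 0) ^ th) b := by
      rw [← ev_ind_rny]
      refine ev_mono hb fun w => ?_
      by_cases hw : w ∈ S
      · rw [if_pos hw, one_pow]
      · rw [if_neg hw]; positivity
    rw [e1] at h2
    have h3 : mass (res S b) ^ (th + 1) ≤ K * mass (res S a) ^ th :=
      (pow_le_pow_left₀ hbS e2 _).trans h2
    have h4 : mass (res S a) ≤ mass (res S b) / Lam := by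
      rw [le_div_iff₀ hL]; linarith
    have h5 : K * mass (res S a) ^ th ≤ K * (mass (res S b) / Lam) ^ th :=
      mul_le_mul_of_nonneg_left (pow_le_pow_left₀ haS h4 _) hK
    rcases hbS.eq_or_lt with h0 | h0
    · rw [← h0]; positivity
    · have h6 : mass (res S b) ^ th * mass (res S b) ≤
          mass (res S b) ^ th * (K / Lam ^ th) := by
        calc mass (res S b) ^ th * mass (res S b) = mass (res S b) ^ (th + 1) := by rw [pow_succ]
          _ ≤ K * (mass (res S b) / Lam) ^ th := h3.trans h5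
          _ = mass (res S b) ^ th * (K / Lam ^ th) := by rw [div_pow]; ring
      exact le_of_mul_le_mul_left h6 (by positivity)
  refine ⟨h1, ?_⟩
  rw [pow_succ, ← div_div, le_div_iff₀ hL]
  linarith

end rn

/-- truncated and recentred version of `c` relative to `v` -/
noncomputable def trc (S : Set Wd) (v c : Al) : Al :=
  v + (res S (c - v) - mass (res S (c - v)) • v)

section trunc

variable {v c B x y : Al} {lam Lam eta Kx Ky : ℝ} {S : Set Wd}

theorem trc_prb (hv : Prb v) (hc : Prb c) (hlam : 1 ≤ lam) (hcv : Le c (lam • v))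
    (hvc : ∀ w ∈ S, v.coeff w ≤ lam * c.coeff w) (hbad : mass (res Sᶜ v) ≤ eta)
    (heta : 4 * lam ^ 2 * eta ≤ 1) :
    Prb (trc S v c) ∧ Le (trc S v c) ((2 * lam) • v) ∧ Le v ((2 * lam) • trc S v c) ∧
      nm (c - trc S v c) ≤ 4 * lam * eta := by
  have hlam0 : 0 < lam := by linarith
  set μ : ℝ := mass (res S (c - v)) with hμ
  have hv0 : 0 ≤ mass (res Sᶜ v) := mass_nonneg (hv.pos.res _)
  have hc0 : 0 ≤ mass (res Sᶜ c) := mass_nonneg (hc.pos.res _)
  have heta0 : 0 ≤ eta := hv0.trans hbad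
  have hcS : mass (res Sᶜ c) ≤ lam * eta := by
    have h1 : Le (res Sᶜ c) (lam • res Sᶜ v) := by
      intro w
      rw [coeff_smul']
      by_cases hw : w ∈ Sᶜ
      · rw [res_coeff_mem hw, res_coeff_mem hw]
        have := hcv w
        rwa [coeff_smul'] at this
      · rw [res_coeff_not_mem hw, res_coeff_not_mem hw, mul_zero]
    have h2 := mass_mono h1
    rw [mass_smul] at h2
    exact h2.trans (mul_le_mul_of_nonneg_left hbad hlam0.le)
  have hμe : μ = mass (res Sᶜ v) - mass (res Sᶜ c) := by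
    have h1 : mass (res S (c - v)) + mass (res Sᶜ (c - v)) = 0 := by
      rw [← mass_add, res_add_compl, mass_sub, hc.mass, hv.mass, sub_self]
    rw [res_sub Sᶜ, mass_sub] at h1
    linarith
  have hel : eta ≤ lam * eta := by nlinarith
  have hμ1 : μ ≤ lam * eta := by linarith
  have hμ2 : -(lam * eta) ≤ μ := by linarith
  have hle4 : 4 * lam * (lam * eta) ≤ 1 := by nlinarith
  have hsmall : lam * eta ≤ 1 / 4 := by nlinarith [mul_nonneg hlam0.le heta0]
  have hon : ∀ w ∈ S, (trc S v c).coeff w = c.coeff w - μ * v.coeff w := by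
    intro w hw
    unfold trc
    rw [coeff_add', coeff_sub', coeff_smul', res_coeff_mem hw, coeff_sub']
    ring
  have hoff : ∀ w ∉ S, (trc S v c).coeff w = v.coeff w - μ * v.coeff w := by
    intro w hw
    unfold trc
    rw [coeff_add', coeff_sub', coeff_smul', res_coeff_not_mem hw]
    ring
  have hvle : Le v ((2 * lam) • trc S v c) := by
    intro w
    rw [coeff_smul']
    have hvw := hv.pos w
    by_cases hw : w ∈ S
    · rw [hon w hw]
      have h1 := hvc w hw
      have h2 : μ * v.coeff w ≤ lam * eta * v.coeff w := mul_le_mul_of_nonneg_right hμ1 hvw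
      have h3 : lam * (lam * eta * v.coeff w) ≤ 1 / 4 * v.coeff w := by nlinarith
      nlinarith
    · rw [hoff w hw]
      have h2 : μ * v.coeff w ≤ 1 / 4 * v.coeff w :=
        mul_le_mul_of_nonneg_right (hμ1.trans hsmall) hvw
      nlinarith
  have hpos : Pos (trc S v c) := by
    intro w
    have h1 := hvle w
    rw [coeff_smul'] at h1
    have h2 := hv.pos w
    have h3 : 0 ≤ (2 * lam) * (trc S v c).coeff w := h2.trans h1
    have h4 : 0 < 2 * lam := by linarith
    nlinarith [le_of_mul_le_mul_left (by simpa using h3 : (2 * lam) * 0 ≤ (2 * lam) *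
      (trc S v c).coeff w) h4]
  refine ⟨⟨hpos, ?_⟩, ?_, hvle, ?_⟩
  · unfold trc
    rw [mass_add, mass_sub, mass_smul, hv.mass]
    ring
  · intro w
    rw [coeff_smul']
    have hvw := hv.pos w
    have h2 : -(lam * eta) * v.coeff w ≤ μ * v.coeff w := mul_le_mul_of_nonneg_right hμ2 hvw
    have h3 : lam * eta * v.coeff w ≤ 1 / 4 * v.coeff w :=
      mul_le_mul_of_nonneg_right hsmall hvw
    by_cases hw : w ∈ S
    · rw [hon w hw]
      have h1 := hcv w
      rw [coeff_smul'] at h1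
      nlinarith
    · rw [hoff w hw]
      nlinarith
  · have h1 : c - trc S v c = (res Sᶜ c - res Sᶜ v) + μ • v := by
      have h2 : c - v = res S (c - v) + res Sᶜ (c - v) := (res_add_compl S (c - v)).symm
      unfold trc
      rw [← hμ]
      have h3 : c - (v + (res S (c - v) - μ • v)) = (c - v) - res S (c - v) + μ • v := by abel
      rw [h3]
      have h4 : c - v - res S (c - v) = res Sᶜ (c - v) := by
        rw [sub_eq_iff_eq_add, add_comm]; exact h2
      rw [h4, res_sub]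
    rw [h1]
    refine (nm_add _ _).trans ?_
    have h2 := nm_sub (res Sᶜ c) (res Sᶜ v)
    rw [nm_of_pos (hc.pos.res _), nm_of_pos (hv.pos.res _)] at h2
    have h3 : nm (μ • v) ≤ lam * eta := by
      rw [nm_smul, hv.nm, mul_one]
      exact abs_le.2 ⟨hμ2, hμ1⟩
    linarith

theorem trc_sub (S : Set Wd) (v c c' : Al) :
    trc S v c - trc S v c' = res S (c - c') - mass (res S (c - c')) • v := by
  unfold trc
  have h1 : c - c' = (c - v) - (c' - v) := by abel
  rw [h1, res_sub S (c - v) (c' - v), mass_sub, sub_smul]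
  abel

/-- cost of a restricted and recentred difference -/
theorem res_center_cost (hv : Prb v) (hB : Pos B) (hLam : 0 ≤ Lam)
    (hBv : ∀ w ∈ S, B.coeff w ≤ Lam * v.coeff w) (hx : Cost x B Kx) :
    Cost (res S x - mass (res S x) • v) v (Lam * Kx) :=
  Cost.center hv (Cost.res hB hv.pos hLam hBv hx)

theorem trc_cost (hv : Prb v) (hB : Pos B) (hLam : 0 ≤ Lam)
    (hBv : ∀ w ∈ S, B.coeff w ≤ Lam * v.coeff w) (hxy : c - v = x + y) (hx : Cost x B Kx)
    (hy : Cost y v Ky) : Cost (trc S v c - v) v (2 * (Lam * Kx) + 2 * Ky) := by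
  have h1 : trc S v c - v = (res S x - mass (res S x) • v) + (res S y - mass (res S y) • v) := by
    unfold trc
    rw [hxy, res_add, mass_add, add_smul]
    abel
  rw [h1]
  have h2 := res_center_cost (S := S) hv hv.pos zero_le_one
    (fun w _ => by rw [one_mul]) hy
  rw [one_mul] at h2
  exact Cost.add hv.pos (res_center_cost hv hB hLam hBv hx) h2

end trunc

end Vale.Agent.P321.Sup
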