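import Vale.Agent.P321.Sup.BaseSlip
import Vale.Agent.P321.Sup.Renyi

/-!
Blueprint module BaseCost: costs and domination at the base.
-/

namespace Vale.Agent.P321.Sup

open Polynomial

/-- law of the trace of one letter -/
noncomputable def lt_45 (q : ℝ) (b : Bool) : Al :=
  q • (1 : Al) + (1 - q) • MonoidAlgebra.single (FreeMonoid.of b) (1 : ℝ)

theorem Fl_cons_45 (q : ℝ) (b : Bool) (l : List Bool) : Fl q (b :: l) = lt_45 q b * Fl q l := by
  simp [Fl, lt_45]

theorem Fl_01_45 (q : ℝ) : Fl q [false, true] = lt_45 q false * lt_45 q true := by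
  rw [Fl_cons_45, Fl_cons_45, Fl_nil, mul_one]

theorem Fl_0_45 (q : ℝ) : Fl q [false] = lt_45 q false := by
  rw [Fl_cons_45, Fl_nil, mul_one]

theorem str_replicate_append_45 (a : ℕ) (l : List Bool) (q : ℝ) :
    Fl q (str (List.replicate a false ++ l)) = Fl q [false, true] ^ a * Fl q (str l) := by
  induction a with
  | zero => simp
  | succ a ih =>
    rw [List.replicate_succ, List.cons_append, str, Fl_cons_45, Fl_cons_45, ih, Fl_01_45, pow_succ']
    simp only [mul_assoc]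

theorem Fl_dst (q : ℝ) (a b : ℕ) :
    Fl q (dst a b) = Fl q [false, true] ^ a * Fl q [false] * Fl q [false, true] ^ b := by
  have h := str_replicate_append_45 b [] q
  rw [List.append_nil, str, Fl_nil, mul_one] at h
  unfold dst
  rw [str_replicate_append_45, str, Fl_cons_45 q false (str _), h, Fl_0_45, mul_assoc]

theorem pos_single_45 (w : Wd) {r : ℝ} (hr : 0 ≤ r) : Pos (MonoidAlgebra.single w r) := by
  classical
  intro v
  rw [MonoidAlgebra.coeff_single, Finsupp.single_apply]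
  split_ifs
  · exact hr
  · exact le_rfl

/-- the one letter word `1` -/
noncomputable def l1_45 : Al := MonoidAlgebra.single (FreeMonoid.of true) (1 : ℝ)

theorem pos_l1_45 : Pos l1_45 := pos_single_45 _ zero_le_one

theorem mass_single_45 (w : Wd) (r : ℝ) : mass (MonoidAlgebra.single w r) = r := by
  unfold mass
  rw [ev_single, mul_one]

theorem prb_l1_45 : Prb l1_45 := ⟨pos_l1_45, by unfold l1_45; rw [mass_single_45]⟩

theorem lt_true_45 (q : ℝ) : lt_45 q true = q • (1 : Al) + (1 - q) • l1_45 := rfl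

theorem lt_prb_45 {q : ℝ} (hq0 : 0 < q) (hq1 : q < 1) (b : Bool) : Prb (lt_45 q b) := by
  refine ⟨?_, ?_⟩
  · exact (Pos.one.smul hq0.le).add ((pos_single_45 _ zero_le_one).smul (by linarith))
  · unfold lt_45
    rw [mass_add, mass_smul, mass_smul, mass_one, mass_single_45]
    ring

theorem one_le_lt_45 {q : ℝ} (hq1 : q < 1) (b : Bool) : Le (q • (1 : Al)) (lt_45 q b) := by
  rw [Le.iff_pos]
  have : lt_45 q b - q • (1 : Al) = (1 - q) • MonoidAlgebra.single (FreeMonoid.of b) (1 : ℝ) := by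
    unfold lt_45
    abel
  rw [this]
  exact (pos_single_45 _ zero_le_one).smul (by linarith)

theorem l1_le_lt_45 {q : ℝ} (hq0 : 0 < q) : Le ((1 - q) • l1_45) (lt_45 q true) := by
  rw [Le.iff_pos]
  have : lt_45 q true - (1 - q) • l1_45 = q • (1 : Al) := by
    rw [lt_true_45]
    abel
  rw [this]
  exact Pos.one.smul hq0.le

theorem base_slip0 {q : ℝ} (hq0 : 0 < q) (hq1 : q < 1) :
    Slip (Fl q [false, true]) 0 (q ^ 2) := by
  refine ⟨(q ^ 2) • (1 : Al), Pos.one.smul (by positivity), ?_, ?_, ?_⟩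
  · rw [pow_zero]
    have := Le.smul_le (r := q ^ 2) (s := 1) (by nlinarith) Pos.one
    rwa [one_smul] at this
  · rw [zero_add, pow_one, Fl_01_45]
    have := Le.mul (one_le_lt_45 hq1 false) (one_le_lt_45 hq1 true) (Pos.one.smul hq0.le)
      (Pos.one.smul hq0.le)
    rw [smul_mul_smul_comm, one_mul, ← pow_two] at this
    exact this
  · rw [mass_smul, mass_one, mul_one]

/-- `Y ≤ V0 / q` -/
theorem Y_le_45 {q : ℝ} (hq0 : 0 < q) (hq1 : q < 1) :
    Le (Fl q [false]) ((1 / q) • Fl q [false, true]) := by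
  have h := Le.mul_left (one_le_lt_45 hq1 true) (lt_prb_45 hq0 hq1 false).pos
  rw [mul_smul_comm, mul_one] at h
  have h2 := Le.smul (r := 1 / q) (by positivity) h
  rw [smul_smul, one_div_mul_cancel hq0.ne', one_smul] at h2
  rw [Fl_0_45, Fl_01_45]
  exact h2

theorem costD_45 {q : ℝ} (hq0 : 0 < q) (hq1 : q < 1) :
    Cost (Fl q [false] - Fl q [false, true]) (Fl q [false, true]) ((1 / q + 1) ^ 2) := by
  have hV : Prb (Fl q [false, true]) := Fl_prb hq0 hq1 _
  have hY : Prb (Fl q [false]) := Fl_prb hq0 hq1 _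
  apply Cost.of_le hV (by positivity)
  intro w
  rw [coeff_sub']
  have h := Y_le_45 hq0 hq1 w
  rw [coeff_smul'] at h
  have h1 := hV.pos w
  have h2 := hY.pos w
  rw [abs_le]
  constructor
  · nlinarith [mul_nonneg (show (0 : ℝ) ≤ 1 / q by positivity) h1]
  · nlinarith

theorem massD_45 {q : ℝ} (hq0 : 0 < q) (hq1 : q < 1) :
    mass (Fl q [false] - Fl q [false, true]) = 0 := by
  rw [mass_sub, (Fl_prb hq0 hq1 _).mass, (Fl_prb hq0 hq1 _).mass, sub_self]

/-- costs of the first and second difference, relative to the plain element -/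
theorem base_cost {q : ℝ} (hq0 : 0 < q) (hq1 : q < 1) : ∃ C : ℝ, 1 ≤ C ∧ ∀ h : ℕ, 2 ≤ h →
    Cost ((1 / 2 : ℝ) • (Fl q (dst (h + 1) (h - 1)) - Fl q (dst (h - 1) (h + 1))))
      (Fl q [false, true] ^ (2 * h + 1)) (C / ((h : ℝ) * √h)) ∧
    Cost ((1 / 2 : ℝ) • (Fl q (dst (h + 1) (h - 1)) + Fl q (dst (h - 1) (h + 1)))
        - Fl q (dst h h))
      (Fl q [false, true] ^ (2 * h + 1)) (C / ((h : ℝ) ^ 2 * √h)) := by
  obtain ⟨C1, hC1, k1⟩ := kill 1 (C (-1 / 2) * (1 + Polynomial.X))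
  obtain ⟨C2, hC2, k2⟩ := kill 2 (C (1 / 2))
  set V : Al := Fl q [false, true] with hVdef
  set Y : Al := Fl q [false] with hYdef
  have hV : Prb V := Fl_prb hq0 hq1 _
  set b : ℝ := (1 / q + 1) ^ 2 with hb
  have hb0 : 0 ≤ b := by positivity
  have hO : Orth V (Y - V) 1 b := Orth.base hV (massD_45 hq0 hq1) (costD_45 hq0 hq1)
  set A : ℝ := 2 / (q ^ 2) ^ 2 with hA
  have hA0 : 0 < A := by positivity
  have hA1 : 1 ≤ A := by
    rw [hA, le_div_iff₀ (by positivity)]
    have : (q ^ 2) ^ 2 ≤ 1 := pow_le_one₀ (by positivity) (by nlinarith)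
    linarith
  refine ⟨1 + b * C1 * (A * A) + b * C2 * (A ^ 2 * A), ?_, ?_⟩
  · have : 0 ≤ b * C1 * (A * A) := by positivity
    have : 0 ≤ b * C2 * (A ^ 2 * A) := by positivity
    linarith
  intro h hh
  have hK1 : 1 ≤ h - 1 := by omega
  have hhr : (2 : ℝ) ≤ h := by exact_mod_cast hh
  have hh0 : (0 : ℝ) < h := by linarith
  have hKr : ((h - 1 : ℕ) : ℝ) = (h : ℝ) - 1 := by
    rw [Nat.cast_sub (by omega)]
    simp
  set z : ℝ := (q ^ 2) ^ 2 * ((h - 1 : ℕ) : ℝ) with hz
  have hzh : (h : ℝ) ≤ A * z := by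
    rw [hz, hKr, hA]
    have : 2 / (q ^ 2) ^ 2 * ((q ^ 2) ^ 2 * ((h : ℝ) - 1)) = 2 * ((h : ℝ) - 1) := by
      field_simp
    rw [this]
    linarith
  have hz0 : 0 < z := by
    by_contra hcon
    push Not at hcon
    nlinarith
  have hsz : √h ≤ A * √z := by
    have h1 : √h ≤ √(A * z) := Real.sqrt_le_sqrt hzh
    refine h1.trans ?_
    rw [Real.sqrt_mul hA0.le]
    apply mul_le_mul_of_nonneg_right _ (Real.sqrt_nonneg _)
    rw [Real.sqrt_le_left hA0.le]
    nlinarith
  have hsh : 0 < √(h : ℝ) := Real.sqrt_pos.mpr hh0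
  have hszp : 0 < √z := Real.sqrt_pos.mpr hz0
  have hom0 : 0 < q ^ 2 := by positivity
  have hom1 : q ^ 2 ≤ 1 := by nlinarith
  have e0 : ∀ n, V ^ (n * (0 + 1)) = V ^ n := by intro n; rw [zero_add, mul_one]
  have hlen : 2 * ((h - 1) * (0 + 1)) + (2 + 1) = 2 * h + 1 := by omega
  have hp1 : V ^ (h + 1) = V ^ (h - 1) * V ^ 2 := by
    rw [← pow_add]
    congr 1
    omega
  have hp1' : V ^ (h + 1) = V ^ 2 * V ^ (h - 1) := by
    rw [← pow_add]
    congr 1
    omega
  have hp2 : V ^ h = V ^ (h - 1) * V := by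
    rw [← pow_succ]
    congr 1
    omega
  have hp2' : V ^ h = V * V ^ (h - 1) := by
    rw [← pow_succ']
    congr 1
    omega
  have hYV : Y = (Y - V) + V := by abel
  have cpow : V ^ (h + 1) * V * V ^ (h - 1) = V ^ (h - 1) * V * V ^ (h + 1) := by
    rw [← pow_succ, ← pow_succ, ← pow_add, ← pow_add]
    congr 1
    omega
  have cpow2 : V ^ (h + 1) * V * V ^ (h - 1) = V ^ h * V * V ^ h := by
    rw [← pow_succ, ← pow_succ, ← pow_add, ← pow_add]
    congr 1
    omega
  have eA : Fl q (dst (h + 1) (h - 1)) = V ^ (h - 1) * (V ^ 2 * (Y - V)) * V ^ (h - 1) +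
      V ^ (h + 1) * V * V ^ (h - 1) := by
    rw [Fl_dst, ← hVdef, ← hYdef]
    conv_lhs => rw [hYV]
    rw [mul_add, add_mul, hp1]
    simp only [mul_assoc]
  have eB : Fl q (dst (h - 1) (h + 1)) = V ^ (h - 1) * ((Y - V) * V ^ 2) * V ^ (h - 1) +
      V ^ (h + 1) * V * V ^ (h - 1) := by
    rw [Fl_dst, ← hVdef, ← hYdef]
    conv_lhs => rw [hYV]
    rw [mul_add, add_mul, cpow, hp1']
    simp only [mul_assoc]
  have eC : Fl q (dst h h) = V ^ (h - 1) * (V * (Y - V) * V) * V ^ (h - 1) +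
      V ^ (h + 1) * V * V ^ (h - 1) := by
    rw [Fl_dst, ← hVdef, ← hYdef]
    conv_lhs => rw [hYV]
    rw [mul_add, add_mul, cpow2]
    congr 1
    conv_lhs => rw [hp2]
    have : V ^ (h - 1) * V * (Y - V) * (V ^ (h - 1) * V) =
      V ^ (h - 1) * V * (Y - V) * (V * V ^ (h - 1)) := by rw [← hp2, ← hp2']
    rw [this]
    simp only [mul_assoc]
  have hl1 : lin V (Y - V) 2 ((1 - Polynomial.X) ^ 1 * (C (-1 / 2) * (1 + Polynomial.X))) =
      (1 / 2 : ℝ) • (V ^ 2 * (Y - V) - (Y - V) * V ^ 2) := by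
    have hpoly : ((1 - Polynomial.X) ^ 1 * (C (-1 / 2) * (1 + Polynomial.X)) : ℝ[X]) =
        C (-1 / 2) + C 0 * X + C (1 / 2) * X ^ 2 := by
      have : (C (-1 / 2) : ℝ[X]) = - C (1 / 2) := by rw [← C_neg]; norm_num
      rw [this, C_0]
      ring
    rw [hpoly]
    unfold lin
    rw [Finset.sum_range_succ, Finset.sum_range_succ, Finset.sum_range_succ, Finset.sum_range_zero]
    simp only [coeff_add, coeff_C_mul, coeff_X_pow, coeff_X, coeff_C]
    norm_num
    rw [smul_sub, ← sub_eq_zero]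
    module
  have hl2 : lin V (Y - V) 2 ((1 - Polynomial.X) ^ 2 * C (1 / 2)) =
      (1 / 2 : ℝ) • (V ^ 2 * (Y - V) + (Y - V) * V ^ 2) - V * (Y - V) * V := by
    have hpoly : ((1 - Polynomial.X) ^ 2 * C (1 / 2) : ℝ[X]) =
        C (1 / 2) + C (-1) * X + C (1 / 2) * X ^ 2 := by
      have : (C (1 / 2) : ℝ[X]) + C (1 / 2) = 1 := by
        rw [← C_add, ← C_1]
        norm_num
      have h2 : (C (-1) : ℝ[X]) = - (C (1 / 2) + C (1 / 2)) := by
        rw [this, C_neg, C_1]
      rw [h2]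
      ring
    rw [hpoly]
    unfold lin
    rw [Finset.sum_range_succ, Finset.sum_range_succ, Finset.sum_range_succ, Finset.sum_range_zero]
    simp only [coeff_add, coeff_C_mul, coeff_X_pow, coeff_X, coeff_C]
    norm_num
    rw [← sub_eq_zero]
    module
  have c1 := k1 V (Y - V) 0 1 2 (h - 1) (q ^ 2) b hV (base_slip0 hq0 hq1) hom0 hom1 hO
    (by compute_degree) hK1
  have c2 := k2 V (Y - V) 0 1 2 (h - 1) (q ^ 2) b hV (base_slip0 hq0 hq1) hom0 hom1 hO
    (by compute_degree) hK1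
  rw [hl1, e0, hlen, ← hz, pow_one] at c1
  rw [hl2, e0, hlen, ← hz] at c2
  have hden1 : (h : ℝ) * √h ≤ (A * A) * (z * √z) := by
    calc (h : ℝ) * √h ≤ (A * z) * (A * √z) := mul_le_mul hzh hsz hsh.le (by positivity)
      _ = (A * A) * (z * √z) := by ring
  have hden2 : (h : ℝ) ^ 2 * √h ≤ (A ^ 2 * A) * (z ^ 2 * √z) := by
    have : (h : ℝ) ^ 2 ≤ (A * z) ^ 2 := pow_le_pow_left₀ hh0.le hzh 2
    calc (h : ℝ) ^ 2 * √h ≤ (A * z) ^ 2 * (A * √z) := mul_le_mul this hsz hsh.le (by positivity)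
      _ = (A ^ 2 * A) * (z ^ 2 * √z) := by ring
  refine ⟨?_, ?_⟩
  · have e1 : (1 / 2 : ℝ) • (Fl q (dst (h + 1) (h - 1)) - Fl q (dst (h - 1) (h + 1))) =
        V ^ (h - 1) * ((1 / 2 : ℝ) • (V ^ 2 * (Y - V) - (Y - V) * V ^ 2)) * V ^ (h - 1) := by
      rw [eA, eB, mul_smul_comm, smul_mul_assoc]
      congr 1
      noncomm_ring
    rw [e1]
    refine c1.mono ?_
    rw [← mul_div_assoc, div_le_div_iff₀ (by positivity) (by positivity)]
    have t1 : 0 ≤ b * C2 * (A ^ 2 * A) := by positivity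
    have t2 : 0 ≤ z * √z := by positivity
    calc b * C1 * (h * √h) ≤ b * C1 * ((A * A) * (z * √z)) :=
          mul_le_mul_of_nonneg_left hden1 (by positivity)
      _ ≤ (1 + b * C1 * (A * A) + b * C2 * (A ^ 2 * A)) * (z * √z) := by nlinarith
  · have e1 : (1 / 2 : ℝ) • (Fl q (dst (h + 1) (h - 1)) + Fl q (dst (h - 1) (h + 1))) -
        Fl q (dst h h) =
        V ^ (h - 1) * ((1 / 2 : ℝ) • (V ^ 2 * (Y - V) + (Y - V) * V ^ 2) - V * (Y - V) * V) *
          V ^ (h - 1) := by
      rw [eA, eB, eC]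
      generalize V ^ 2 * (Y - V) = P
      generalize (Y - V) * V ^ 2 = Q
      generalize V * (Y - V) * V = S
      generalize V ^ (h + 1) * V * V ^ (h - 1) = T
      rw [mul_sub, sub_mul, mul_smul_comm, smul_mul_assoc, mul_add, add_mul]
      module
    rw [e1]
    refine c2.mono ?_
    rw [← mul_div_assoc, div_le_div_iff₀ (by positivity) (by positivity)]
    have t1 : 0 ≤ b * C1 * (A * A) := by positivity
    have t2 : 0 ≤ z ^ 2 * √z := by positivity
    calc b * C2 * (h ^ 2 * √h) ≤ b * C2 * ((A ^ 2 * A) * (z ^ 2 * √z)) :=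
          mul_le_mul_of_nonneg_left hden2 (by positivity)
      _ ≤ (1 + b * C1 * (A * A) + b * C2 * (A ^ 2 * A)) * (z ^ 2 * √z) := by nlinarith

theorem Le_sum_45 {ι : Type*} {t : Finset ι} {f g : ι → Al} (h : ∀ i ∈ t, Le (f i) (g i)) :
    Le (∑ i ∈ t, f i) (∑ i ∈ t, g i) := by
  rw [Le.iff_pos, ← Finset.sum_sub_distrib]
  apply Pos.sum
  intro i hi
  rw [← Le.iff_pos]
  exact h i hi

/-- law of the output of a surviving plain block -/
noncomputable def Xh_45 (q : ℝ) : Al :=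
  (1 / (1 - q ^ 2)) • (Fl q [false, true] - (q ^ 2) • (1 : Al))

theorem V0_sub_45 (q : ℝ) : Fl q [false, true] - (q ^ 2) • (1 : Al) =
    (q * (1 - q)) • l1_45 +
      ((1 - q) • MonoidAlgebra.single (FreeMonoid.of false) (1 : ℝ)) * lt_45 q true := by
  rw [Fl_01_45]
  have : lt_45 q false * lt_45 q true = q • lt_45 q true +
      ((1 - q) • MonoidAlgebra.single (FreeMonoid.of false) (1 : ℝ)) * lt_45 q true := by
    conv_lhs => rw [lt_45]
    rw [add_mul, smul_mul_assoc, one_mul]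
  rw [this, lt_true_45, smul_add, smul_smul, smul_smul, ← pow_two]
  abel

theorem l1_le_V0_45 {q : ℝ} (hq0 : 0 < q) (hq1 : q < 1) :
    Le ((q * (1 - q)) • l1_45) (Fl q [false, true] - (q ^ 2) • (1 : Al)) := by
  rw [V0_sub_45, Le.iff_pos, add_sub_cancel_left]
  exact ((pos_single_45 _ zero_le_one).smul (by linarith)).mul (lt_prb_45 hq0 hq1 true).pos

theorem Xh_prb_45 {q : ℝ} (hq0 : 0 < q) (hq1 : q < 1) : Prb (Xh_45 q) := by
  have hs : 0 < 1 - q ^ 2 := by nlinarith
  refine ⟨?_, ?_⟩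
  · apply Pos.smul (by positivity)
    refine Le.pos ?_ (l1_le_V0_45 hq0 hq1)
    exact pos_l1_45.smul (mul_nonneg hq0.le (by linarith))
  · unfold Xh_45
    rw [mass_smul, mass_sub, (Fl_prb hq0 hq1 _).mass, mass_smul, mass_one, mul_one]
    field_simp

theorem V0_eq_45 {q : ℝ} (hq0 : 0 < q) (hq1 : q < 1) :
    aeval (Xh_45 q) (w (1 - q ^ 2)) = Fl q [false, true] := by
  have hs : 0 < 1 - q ^ 2 := by nlinarith
  unfold w Xh_45
  rw [map_add, map_mul, aeval_C, aeval_C, aeval_X, Algebra.algebraMap_eq_smul_one,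
    Algebra.algebraMap_eq_smul_one, smul_mul_assoc, one_mul, smul_smul,
    mul_one_div_cancel hs.ne', one_smul]
  have : (1 : ℝ) - (1 - q ^ 2) = q ^ 2 := by ring
  rw [this]
  abel

theorem l1_le_Xh_45 {q : ℝ} (hq0 : 0 < q) (hq1 : q < 1) :
    Le l1_45 (((1 - q ^ 2) / (q * (1 - q))) • Xh_45 q) := by
  have hs : 0 < 1 - q ^ 2 := by nlinarith
  have hq : 0 < q * (1 - q) := mul_pos hq0 (by linarith)
  have h := Le.smul (r := 1 / (q * (1 - q))) (by positivity) (l1_le_V0_45 hq0 hq1)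
  rw [smul_smul, one_div_mul_cancel hq.ne', one_smul] at h
  have e : ((1 - q ^ 2) / (q * (1 - q))) • Xh_45 q =
      (1 / (q * (1 - q))) • (Fl q [false, true] - (q ^ 2) • (1 : Al)) := by
    unfold Xh_45
    rw [smul_smul]
    congr 1
    field_simp
  rw [e]
  exact h

theorem natDegree_w_pow_lt_45 (p : ℝ) (K : ℕ) : (w p ^ K).natDegree < K + 1 := by
  have h1 : (w p).natDegree ≤ 1 := by
    unfold w
    refine (natDegree_add_le _ _).trans ?_
    rw [natDegree_C]
    apply max_le (Nat.zero_le _)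
    refine natDegree_mul_le.trans ?_
    rw [natDegree_C, natDegree_X]
  have h2 : (w p ^ K).natDegree ≤ K * (w p).natDegree := natDegree_pow_le
  nlinarith

theorem V0_pow_45 {q : ℝ} (hq0 : 0 < q) (hq1 : q < 1) (b : ℕ) :
    Fl q [false, true] ^ b =
      ∑ j ∈ Finset.range (b + 1), (w (1 - q ^ 2) ^ b).coeff j • Xh_45 q ^ j := by
  rw [← V0_eq_45 hq0 hq1, ← map_pow, aeval_eq_sum_range' (natDegree_w_pow_lt_45 _ _)]

/-- a letter in front of a power of `V0` is dominated up to an exponentially small error -/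
theorem l1_V0_45 {q : ℝ} (hq0 : 0 < q) (hq1 : q < 1) : ∃ C c : ℝ, 0 ≤ C ∧ 0 < c ∧
    ∀ b : ℕ, 1 ≤ b → ∃ E : Al, Pos E ∧ mass E ≤ Real.exp (-c * b) / c ∧
      Le (l1_45 * Fl q [false, true] ^ b) (C • Fl q [false, true] ^ b + E) := by
  classical
  set s : ℝ := 1 - q ^ 2 with hs
  have hs0 : 0 < s := by nlinarith
  have hs1 : s < 1 := by nlinarith
  have hqq : 0 < q * (1 - q) := mul_pos hq0 (by linarith)
  obtain ⟨δ, c, hδ0, hδ1, hc, ht⟩ := tail hs0 hs1
  set D : ℝ := 2 * (1 - s) / (δ * s) with hD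
  have h1s : 0 < 1 - s := by linarith
  have hD0 : 0 < D := by positivity
  set A : ℝ := s / (q * (1 - q)) with hA
  have hA0 : 0 < A := by positivity
  set c' : ℝ := min 1 (c / 2) with hc'
  have hc'0 : 0 < c' := lt_min one_pos (by positivity)
  have hc'1 : c' ≤ 1 := min_le_left _ _
  have hc'2 : 2 * c' ≤ c := by
    have : c' ≤ c / 2 := min_le_right _ _
    linarith
  refine ⟨D * A, c', by positivity, hc'0, ?_⟩
  intro b hb
  have hX := Xh_prb_45 hq0 hq1
  set X := Xh_45 q with hXdef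
  have hco : ∀ j, 0 ≤ (w s ^ b).coeff j :=
    coeff_pow_nonneg _ (w_coeff_nonneg hs0.le hs1.le) b
  have hb0 : (0 : ℝ) < b := by
    have : 0 < b := by omega
    exact_mod_cast this
  set S : Finset ℕ := (Finset.range (b + 1)).filter (fun j => (1 - δ) * b < (j : ℝ)) with hS
  have hpj : ∀ j, Pos (l1_45 * X ^ j) := fun j => pos_l1_45.mul (hX.pow j).pos
  refine ⟨∑ j ∈ S, (w s ^ b).coeff j • (l1_45 * X ^ j), ?_, ?_, ?_⟩
  · apply Pos.sum
    intro j _
    exact (hpj j).smul (hco j)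
  · rw [mass_sum]
    have h1 : ∀ j ∈ S, mass ((w s ^ b).coeff j • (l1_45 * X ^ j)) ≤ Real.exp (-c * b) := by
      intro j hj
      rw [hS, Finset.mem_filter, Finset.mem_range] at hj
      rw [mass_smul, mass_mul, (hX.pow j).mass, prb_l1_45.mass, mul_one, mul_one]
      have := ht b 0 j 0 le_rfl zero_le_one (Nat.zero_le _) (by omega)
        (Or.inr (by simpa using hj.2))
      simpa using this
    refine (Finset.sum_le_sum h1).trans ?_
    rw [Finset.sum_const, nsmul_eq_mul]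
    have h2 : (S.card : ℝ) ≤ b + 1 := by
      have : S.card ≤ b + 1 := by
        have := Finset.card_filter_le (Finset.range (b + 1)) (fun j => (1 - δ) * b < (j : ℝ))
        rwa [Finset.card_range] at this
      exact_mod_cast this
    have h3 : (b : ℝ) + 1 ≤ (1 / c') * Real.exp (c' * b) := by
      have h4 := Real.add_one_le_exp (c' * b)
      rw [one_div, ← div_eq_inv_mul, le_div_iff₀ hc'0]
      nlinarith
    calc (S.card : ℝ) * Real.exp (-c * b) ≤ ((1 / c') * Real.exp (c' * b)) * Real.exp (-c * b) :=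
          mul_le_mul_of_nonneg_right (h2.trans h3) (Real.exp_pos _).le
      _ = (1 / c') * Real.exp (c' * b + -c * b) := by rw [Real.exp_add, mul_assoc]
      _ ≤ (1 / c') * Real.exp (-c' * b) := by
          apply mul_le_mul_of_nonneg_left _ (by positivity)
          apply Real.exp_le_exp.mpr
          nlinarith
      _ = Real.exp (-c' * b) / c' := by ring
  · set T : Finset ℕ := (Finset.range (b + 1)).filter (fun j => ¬ ((1 - δ) * b < (j : ℝ))) with hT
    have e1 : l1_45 * Fl q [false, true] ^ b =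
        ∑ j ∈ T, (w s ^ b).coeff j • (l1_45 * X ^ j) + ∑ j ∈ S, (w s ^ b).coeff j • (l1_45 * X ^ j) := by
      have e0 : ∑ j ∈ T, (w s ^ b).coeff j • (l1_45 * X ^ j) +
          ∑ j ∈ S, (w s ^ b).coeff j • (l1_45 * X ^ j) =
          ∑ j ∈ Finset.range (b + 1), (w s ^ b).coeff j • (l1_45 * X ^ j) := by
        rw [add_comm, hS, hT, Finset.sum_filter_add_sum_filter_not]
      rw [e0, V0_pow_45 hq0 hq1 b, ← hs, ← hXdef, Finset.mul_sum]
      apply Finset.sum_congr rfl
      intro j _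
      rw [mul_smul_comm]
    rw [e1]
    apply Le.add _ (Le.refl _)
    have h1 : ∀ j ∈ T, Le ((w s ^ b).coeff j • (l1_45 * X ^ j))
        ((D * A) • ((w s ^ b).coeff (j + 1) • X ^ (j + 1))) := by
      intro j hj
      rw [hT, Finset.mem_filter, Finset.mem_range] at hj
      have hj1 : (j : ℝ) ≤ (1 - δ) * b := not_lt.mp hj.2
      have hr := binom_ratio s b j
      have hjb : (j : ℝ) ≤ b := by
        have : j ≤ b := by omega
        exact_mod_cast this
      have hb1 : (1 : ℝ) ≤ b := by exact_mod_cast hb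
      have hcj : (w s ^ b).coeff j ≤ D * (w s ^ b).coeff (j + 1) := by
        have a1 : δ * b * s * (w s ^ b).coeff j ≤ ((b : ℝ) - j) * s * (w s ^ b).coeff j := by
          apply mul_le_mul_of_nonneg_right _ (hco j)
          apply mul_le_mul_of_nonneg_right _ hs0.le
          linarith
        have a2 : ((j : ℝ) + 1) * (1 - s) * (w s ^ b).coeff (j + 1) ≤
            2 * b * (1 - s) * (w s ^ b).coeff (j + 1) := by
          apply mul_le_mul_of_nonneg_right _ (hco _)
          apply mul_le_mul_of_nonneg_right _ h1s.le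
          linarith
        have a3 : δ * b * s * (w s ^ b).coeff j ≤ 2 * b * (1 - s) * (w s ^ b).coeff (j + 1) := by
          linarith
        rw [hD, div_mul_eq_mul_div, le_div_iff₀ (by positivity)]
        have a4 : b * (δ * s * (w s ^ b).coeff j) ≤ b * (2 * (1 - s) * (w s ^ b).coeff (j + 1)) := by
          linarith
        have a5 := le_of_mul_le_mul_left a4 hb0
        linarith
      have a1 : Le ((w s ^ b).coeff j • (l1_45 * X ^ j))
          ((D * (w s ^ b).coeff (j + 1)) • (l1_45 * X ^ j)) := Le.smul_le hcj (hpj j)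
      have a2 : Le (l1_45 * X ^ j) (A • X ^ (j + 1)) := by
        have := Le.mul_right (c := X ^ j) (l1_le_Xh_45 hq0 hq1) (hX.pow j).pos
        rw [smul_mul_assoc, ← hXdef, ← pow_succ'] at this
        exact this
      have a3 := Le.smul (r := D * (w s ^ b).coeff (j + 1)) (mul_nonneg hD0.le (hco _)) a2
      refine a1.trans ?_
      have e : (D * A) • ((w s ^ b).coeff (j + 1) • X ^ (j + 1)) =
          (D * (w s ^ b).coeff (j + 1)) • (A • X ^ (j + 1)) := by
        rw [smul_smul, smul_smul]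
        congr 1
        ring
      rw [e]
      exact a3
    refine (Le_sum_45 h1).trans ?_
    rw [← Finset.smul_sum]
    apply Le.smul (by positivity)
    rw [V0_pow_45 hq0 hq1 b, ← hs, ← hXdef]
    have h0 : (w s ^ b).coeff (b + 1) = 0 :=
      coeff_eq_zero_of_natDegree_lt (natDegree_w_pow_lt_45 _ _)
    have e2 : ∑ j ∈ Finset.range (b + 1), (w s ^ b).coeff j • X ^ j =
        ∑ j ∈ Finset.range (b + 1), (w s ^ b).coeff (j + 1) • X ^ (j + 1) +
          (w s ^ b).coeff 0 • X ^ 0 := by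
      have b1 := Finset.sum_range_succ' (fun j => (w s ^ b).coeff j • X ^ j) (b + 1)
      have b2 := Finset.sum_range_succ (fun j => (w s ^ b).coeff j • X ^ j) (b + 1)
      rw [← b1, b2, h0, zero_smul, add_zero]
    rw [e2]
    have hpos : ∀ j, Pos ((w s ^ b).coeff (j + 1) • X ^ (j + 1)) :=
      fun j => (hX.pow _).pos.smul (hco _)
    have e3 : ∑ j ∈ Finset.range (b + 1), (w s ^ b).coeff (j + 1) • X ^ (j + 1) =
        ∑ j ∈ S, (w s ^ b).coeff (j + 1) • X ^ (j + 1) +
          ∑ j ∈ T, (w s ^ b).coeff (j + 1) • X ^ (j + 1) := by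
      rw [hS, hT, Finset.sum_filter_add_sum_filter_not]
    rw [e3, Le.iff_pos]
    have e4 : ∑ j ∈ S, (w s ^ b).coeff (j + 1) • X ^ (j + 1) +
        ∑ j ∈ T, (w s ^ b).coeff (j + 1) • X ^ (j + 1) + (w s ^ b).coeff 0 • X ^ 0 -
        ∑ j ∈ T, (w s ^ b).coeff (j + 1) • X ^ (j + 1) =
        ∑ j ∈ S, (w s ^ b).coeff (j + 1) • X ^ (j + 1) + (w s ^ b).coeff 0 • X ^ 0 := by abel
    rw [e4]
    exact (Pos.sum (fun j _ => hpos j)).add ((hX.pow 0).pos.smul (hco 0))

/-- domination up to an exponentially small error -/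
theorem base_dom {q : ℝ} (hq0 : 0 < q) (hq1 : q < 1) : ∃ C c : ℝ, 1 ≤ C ∧ 0 < c ∧
    ∀ a b : ℕ, 1 ≤ a → 1 ≤ b →
    Le (Fl q (dst a b)) (C • Fl q [false, true] ^ (a + b + 1)) ∧
    ∃ E : Al, Pos E ∧ mass E ≤ Real.exp (-c * b) / c ∧
      Le (Fl q [false, true] ^ (a + b + 1)) (C • Fl q (dst a b) + E) := by
  obtain ⟨C', c, hC', hc, h⟩ := l1_V0_45 hq0 hq1
  have hq1' : 1 ≤ 1 / q := by
    rw [le_div_iff₀ hq0]
    linarith
  have hp : 0 < 1 - q := by linarith
  refine ⟨1 / q + (q + (1 - q) * C'), c, ?_, hc, ?_⟩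
  · have : 0 ≤ (1 - q) * C' := by positivity
    linarith
  intro a b ha hb
  have hV : Prb (Fl q [false, true]) := Fl_prb hq0 hq1 _
  have hY : Prb (Fl q [false]) := Fl_prb hq0 hq1 _
  have hVV : Fl q [false, true] = Fl q [false] * (q • (1 : Al) + (1 - q) • l1_45) := by
    rw [← lt_true_45, Fl_0_45, Fl_01_45]
  have hpw : Fl q [false, true] ^ (a + b + 1) =
      Fl q [false, true] ^ a * Fl q [false, true] * Fl q [false, true] ^ b := by
    rw [← pow_succ, ← pow_add]
    congr 1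
    ring
  obtain ⟨E, hE, hEm, hEl⟩ := h b hb
  refine ⟨?_, (1 - q) • (Fl q [false, true] ^ a * Fl q [false] * E), ?_, ?_, ?_⟩
  · rw [Fl_dst, hpw]
    have h1 : Le (Fl q [false, true] ^ a * Fl q [false] * Fl q [false, true] ^ b)
        ((1 / q) • (Fl q [false, true] ^ a * Fl q [false, true] * Fl q [false, true] ^ b)) := by
      have := Le.mul_right (c := Fl q [false, true] ^ b)
        (Le.mul_left (c := Fl q [false, true] ^ a) (Y_le_45 hq0 hq1) (hV.pow a).pos) (hV.pow b).pos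
      rwa [mul_smul_comm, smul_mul_assoc] at this
    refine h1.trans (Le.smul_le ?_ (((hV.pow a).mul hV).mul (hV.pow b)).pos)
    have : 0 ≤ (1 - q) * C' := by positivity
    linarith
  · exact (((hV.pow a).mul hY).pos.mul hE).smul hp.le
  · rw [mass_smul, mass_mul, mass_mul, (hV.pow a).mass, hY.mass, one_mul, one_mul]
    have : 0 ≤ mass E := mass_nonneg hE
    nlinarith
  · rw [Fl_dst, hpw]
    have e1 : Fl q [false, true] ^ a * Fl q [false, true] * Fl q [false, true] ^ b =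
        q • (Fl q [false, true] ^ a * Fl q [false] * Fl q [false, true] ^ b) +
        (1 - q) • (Fl q [false, true] ^ a * Fl q [false] * (l1_45 * Fl q [false, true] ^ b)) := by
      generalize hG : Fl q [false, true] ^ a = G
      generalize hH : Fl q [false, true] ^ b = H
      rw [hVV, mul_add, mul_smul_comm, mul_smul_comm, mul_one, mul_add, add_mul, mul_smul_comm,
        mul_smul_comm, smul_mul_assoc, smul_mul_assoc]
      simp only [mul_assoc]
    rw [e1]
    have h2 := Le.mul_left (c := Fl q [false, true] ^ a * Fl q [false]) hEl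
      ((hV.pow a).mul hY).pos
    rw [mul_add, mul_smul_comm] at h2
    have h3 := Le.smul (r := 1 - q) hp.le h2
    have hW : Pos (Fl q [false, true] ^ a * Fl q [false] * Fl q [false, true] ^ b) :=
      (((hV.pow a).mul hY).mul (hV.pow b)).pos
    have h4 := Le.add (Le.refl (q • (Fl q [false, true] ^ a * Fl q [false] *
      Fl q [false, true] ^ b))) h3
    refine h4.trans ?_
    rw [Le.iff_pos]
    have e2 : (1 / q + (q + (1 - q) * C')) • (Fl q [false, true] ^ a * Fl q [false] *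
        Fl q [false, true] ^ b) + (1 - q) • (Fl q [false, true] ^ a * Fl q [false] * E) -
        (q • (Fl q [false, true] ^ a * Fl q [false] * Fl q [false, true] ^ b) +
        (1 - q) • (C' • (Fl q [false, true] ^ a * Fl q [false] * Fl q [false, true] ^ b) +
          Fl q [false, true] ^ a * Fl q [false] * E)) =
        (1 / q) • (Fl q [false, true] ^ a * Fl q [false] * Fl q [false, true] ^ b) := by
      module
    rw [e2]
    exact hW.smul (by positivity)

end Vale.Agent.P321.Sup
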