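import Vale.Agent.P321.Slice
import Vale.Agent.P321.Model

/-!
Slice bound for a product of two block strings (`slice_two` of the blueprint module BaseFock).
-/

namespace Vale.Agent.P321.Sup

open scoped RealInnerProductSpace
open Polynomial

/-- split convolution at the word `u` -/
def stw_cv (a b : List Bool → ℝ) (u : List Bool) : ℝ :=
  ∑ k ∈ Finset.range (u.length + 1), a (u.take k) * b (u.drop k)

theorem stw_cv_nil (a b : List Bool → ℝ) : stw_cv a b [] = a [] * b [] := by
  simp [stw_cv]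

theorem stw_cv_cons (a b : List Bool → ℝ) (x : Bool) (u : List Bool) :
    stw_cv a b (x :: u) = a [] * b (x :: u) + stw_cv (fun v => a (x :: v)) b u := by
  unfold stw_cv
  rw [List.length_cons, Finset.sum_range_succ']
  simp only [List.take_succ_cons, List.drop_succ_cons, List.take_zero, List.drop_zero]
  ring

theorem stw_coef_append (s sY : ℝ) (B B' : List Bool) : ∀ u : List Bool,
    coef s sY (B ++ B') u = stw_cv (coef s sY B) (coef s sY B') u := by
  induction B with
  | nil =>
    intro u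
    rcases u with _ | ⟨x, u⟩
    · rw [stw_cv_nil, md_coef_nil_nil, one_mul, List.nil_append]
    · rw [stw_cv_cons, md_coef_nil_nil, one_mul, List.nil_append]
      have h0 : stw_cv (fun v => coef s sY [] (x :: v)) (coef s sY B') u = 0 :=
        Finset.sum_eq_zero fun k _ => by simp only [md_coef_nil_cons, zero_mul]
      rw [h0, add_zero]
  | cons b B ih =>
    intro u
    rcases u with _ | ⟨x, u⟩
    · rw [stw_cv_nil, List.cons_append, md_coef_cons_nil, md_coef_cons_nil, ih, stw_cv_nil]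
      ring
    · rw [stw_cv_cons, List.cons_append, md_coef_cons_cons, md_coef_cons_nil, ih, ih, stw_cv_cons]
      have h : stw_cv (fun v => coef s sY (b :: B) (x :: v)) (coef s sY B') u =
          (1 - (if b then sY else s)) * stw_cv (fun v => coef s sY B (x :: v)) (coef s sY B') u +
          (if b then sY else if x then 0 else s) * stw_cv (coef s sY B) (coef s sY B') u := by
        unfold stw_cv
        rw [Finset.mul_sum, Finset.mul_sum, ← Finset.sum_add_distrib]
        refine Finset.sum_congr rfl fun k _ => ?_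
        simp only [md_coef_cons_cons]
        ring
      rw [h]
      ring

theorem stw_nsq_smul (κ r : ℝ) (M : ℕ) : ∀ c : List Bool → ℝ,
    nsq κ M (fun u => r * c u) = r ^ 2 * nsq κ M c := by
  induction M with
  | zero => intro c; simp only [nsq]; ring
  | succ M ih =>
    intro c
    simp only [nsq]
    rw [ih, ih]
    ring

theorem stw_nsq_split (κ : ℝ) (k : ℕ) : ∀ (M : ℕ) (a b : List Bool → ℝ), k ≤ M →
    nsq κ M (fun u => a (u.take k) * b (u.drop k)) = nsq κ k a * nsq κ (M - k) b := by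
  induction k with
  | zero =>
    intro M a b _
    simp only [List.take_zero, List.drop_zero, nsq, Nat.sub_zero]
    exact stw_nsq_smul κ _ M b
  | succ k ih =>
    intro M a b hk
    obtain ⟨M, rfl⟩ : ∃ M', M = M' + 1 := ⟨M - 1, by omega⟩
    simp only [nsq, List.take_succ_cons, List.drop_succ_cons]
    rw [ih M (fun v => a (false :: v)) b (by omega), ih M (fun v => a (true :: v)) b (by omega),
      Nat.add_sub_add_right]
    ring

theorem stw_minkowski {ι τ : Type} (t : Finset ι) (r : Finset τ) (F : τ → ι → ℝ) :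
    ∑ u ∈ t, (∑ k ∈ r, F k u) ^ 2 ≤ (∑ k ∈ r, √(∑ u ∈ t, F k u ^ 2)) ^ 2 := by
  calc ∑ u ∈ t, (∑ k ∈ r, F k u) ^ 2
      = ∑ k ∈ r, ∑ l ∈ r, ∑ u ∈ t, F k u * F l u := by
        have h1 : ∀ u ∈ t, (∑ k ∈ r, F k u) ^ 2 = ∑ k ∈ r, ∑ l ∈ r, F k u * F l u := by
          intro u _
          rw [sq, Finset.sum_mul_sum]
        rw [Finset.sum_congr rfl h1, Finset.sum_comm]
        refine Finset.sum_congr rfl fun k _ => ?_
        rw [Finset.sum_comm]
    _ ≤ ∑ k ∈ r, ∑ l ∈ r, √(∑ u ∈ t, F k u ^ 2) * √(∑ u ∈ t, F l u ^ 2) :=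
        Finset.sum_le_sum fun k _ => Finset.sum_le_sum fun l _ =>
          Real.sum_mul_le_sqrt_mul_sqrt t (F k) (F l)
    _ = _ := by rw [sq, Finset.sum_mul_sum]

theorem stw_nsq_cv {κ : ℝ} (hκ : 0 ≤ κ) (M : ℕ) (a b : List Bool → ℝ) :
    nsq κ M (stw_cv a b) ≤
      (∑ k ∈ Finset.range (M + 1), nsq κ k a) * ∑ k ∈ Finset.range (M + 1), nsq κ k b := by
  have hk : ∀ (j : ℕ), (√κ ^ j) ^ 2 = κ ^ j := by
    intro j
    rw [← pow_mul, mul_comm, pow_mul, Real.sq_sqrt hκ]
  obtain ⟨F, hF⟩ : ∃ F : ℕ → List Bool → ℝ, F = fun k u =>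
      √κ ^ (u.count true) * (a (u.take k) * b (u.drop k)) := ⟨_, rfl⟩
  have h1 : nsq κ M (stw_cv a b) =
      ∑ u ∈ sl_words M, (∑ k ∈ Finset.range (M + 1), F k u) ^ 2 := by
    rw [sl_nsq_words]
    refine Finset.sum_congr rfl fun u hu => ?_
    rw [sl_mem_words] at hu
    have h3 : ∑ k ∈ Finset.range (M + 1), F k u = √κ ^ (u.count true) * stw_cv a b u := by
      unfold stw_cv
      rw [Finset.mul_sum, hu, hF]
    rw [h3, mul_pow, hk]
  have h2 : ∀ k ∈ Finset.range (M + 1), √(∑ u ∈ sl_words M, F k u ^ 2) =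
      √(nsq κ k a) * √(nsq κ (M - k) b) := by
    intro k hkM
    rw [← Real.sqrt_mul (sl_nsq_nonneg hκ k a)]
    congr 1
    rw [← stw_nsq_split κ k M a b (by rw [Finset.mem_range] at hkM; omega), sl_nsq_words]
    refine Finset.sum_congr rfl fun u _ => ?_
    rw [hF]
    simp only [mul_pow, hk]
  rw [h1]
  refine (stw_minkowski _ _ F).trans ?_
  rw [Finset.sum_congr rfl h2]
  refine (Finset.sum_mul_sq_le_sq_mul_sq (Finset.range (M + 1)) (fun k => √(nsq κ k a))
    (fun k => √(nsq κ (M - k) b))).trans (le_of_eq ?_)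
  have h4 : ∑ k ∈ Finset.range (M + 1), √(nsq κ k a) ^ 2 =
      ∑ k ∈ Finset.range (M + 1), nsq κ k a :=
    Finset.sum_congr rfl fun k _ => Real.sq_sqrt (sl_nsq_nonneg hκ k a)
  have h5 : ∑ k ∈ Finset.range (M + 1), √(nsq κ (M - k) b) ^ 2 =
      ∑ k ∈ Finset.range (M + 1), nsq κ k b := by
    rw [← Finset.sum_range_reflect (fun k => nsq κ k b)]
    refine Finset.sum_congr rfl fun k hkM => ?_
    rw [Real.sq_sqrt (sl_nsq_nonneg hκ _ b)]
    congr 1
  rw [h4, h5]

theorem stw_nsq_add {κ : ℝ} (hκ : 0 ≤ κ) (M : ℕ) (a b : List Bool → ℝ) :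
    nsq κ M (fun u => a u + b u) ≤ 2 * nsq κ M a + 2 * nsq κ M b := by
  rw [sl_nsq_words, sl_nsq_words, sl_nsq_words, Finset.mul_sum, Finset.mul_sum,
    ← Finset.sum_add_distrib]
  refine Finset.sum_le_sum fun u _ => ?_
  have h1 : 0 ≤ κ ^ (u.count true) := pow_nonneg hκ _
  have h2 : (a u + b u) ^ 2 ≤ 2 * a u ^ 2 + 2 * b u ^ 2 := by nlinarith [sq_nonneg (a u - b u)]
  calc κ ^ (u.count true) * (a u + b u) ^ 2
      ≤ κ ^ (u.count true) * (2 * a u ^ 2 + 2 * b u ^ 2) := mul_le_mul_of_nonneg_left h2 h1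
    _ = _ := by ring

/-- the unmarked part -/
noncomputable def stw_um (c : List Bool → ℝ) : List Bool → ℝ := fun u => c u - sl_mk c u

theorem stw_mk_cv (a b : List Bool → ℝ) (u : List Bool) :
    sl_mk (stw_cv a b) u = stw_cv (sl_mk a) b u + stw_cv (stw_um a) (sl_mk b) u := by
  have hsplit : ∀ k, (true ∈ u ↔ true ∈ u.take k ∨ true ∈ u.drop k) := by
    intro k
    rw [← List.mem_append, List.take_append_drop]
  unfold stw_cv
  rw [← Finset.sum_add_distrib]
  by_cases hu : true ∈ u
  · have h1 : sl_mk (fun u => ∑ k ∈ Finset.range (u.length + 1), a (u.take k) * b (u.drop k)) u =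
        ∑ k ∈ Finset.range (u.length + 1), a (u.take k) * b (u.drop k) := by
      unfold sl_mk
      rw [if_pos hu]
    refine h1.trans (Finset.sum_congr rfl fun k _ => ?_)
    by_cases h2 : true ∈ u.take k
    · have h3 : sl_mk a (u.take k) = a (u.take k) := by unfold sl_mk; rw [if_pos h2]
      unfold stw_um
      rw [h3, sub_self, zero_mul, add_zero]
    · have h3 : sl_mk a (u.take k) = 0 := by unfold sl_mk; rw [if_neg h2]
      have h4 : true ∈ u.drop k := ((hsplit k).mp hu).resolve_left h2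
      have h5 : sl_mk b (u.drop k) = b (u.drop k) := by unfold sl_mk; rw [if_pos h4]
      unfold stw_um
      rw [h3, h5, sub_zero, zero_mul, zero_add]
  · have h1 : sl_mk (fun u => ∑ k ∈ Finset.range (u.length + 1), a (u.take k) * b (u.drop k)) u =
        0 := by
      unfold sl_mk
      rw [if_neg hu]
    refine h1.trans (Finset.sum_eq_zero fun k _ => ?_).symm
    have h2 : true ∉ u.take k := fun h => hu ((hsplit k).mpr (Or.inl h))
    have h3 : true ∉ u.drop k := fun h => hu ((hsplit k).mpr (Or.inr h))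
    have h4 : sl_mk a (u.take k) = 0 := by unfold sl_mk; rw [if_neg h2]
    have h5 : sl_mk b (u.drop k) = 0 := by unfold sl_mk; rw [if_neg h3]
    rw [h4, h5, zero_mul, mul_zero, add_zero]

theorem stw_eq_replicate : ∀ u : List Bool, true ∉ u → u = List.replicate u.length false := by
  intro u
  induction u with
  | nil => intro _; rfl
  | cons x u ih =>
    intro h
    have h1 : true ∉ u := fun hu => h (List.mem_cons_of_mem x hu)
    have h2 : x = false := by
      cases x
      · rfl
      · exact absurd List.mem_cons_self h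
    rw [List.length_cons, List.replicate_succ, ← ih h1, h2]

theorem stw_Z_pow {κ : ℝ} (hκ : 0 ≤ κ) (sY : ℝ) (n : ℕ) : ∀ k : ℕ,
    sl_app (((sl_F hκ sY).Z ^ n) sl_Om) (List.replicate k false) = if n = k then 1 else 0 := by
  induction n with
  | zero =>
    intro k
    show sl_app sl_Om _ = _
    rw [sl_Om_app]
    cases k <;> simp
  | succ n ih =>
    intro k
    rw [pow_succ', Module.End.mul_apply]
    cases k with
    | zero => exact (sl_cons_nil false _).trans (by simp)
    | succ k =>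
      rw [List.replicate_succ]
      refine (sl_cons_app false _ _).trans ((ih k).trans ?_)
      simp

theorem stw_op_plain {κ : ℝ} (hκ : 0 ≤ κ) (sY : ℝ) (P : ℝ[X]) (k : ℕ) :
    sl_app ((sl_F hκ sY).op P (sl_F hκ sY).Ω) (List.replicate k false) = P.coeff k := by
  show sl_app ((aeval (sl_F hκ sY).Z P) sl_Om) _ = _
  rw [aeval_eq_sum_range, LinearMap.sum_apply]
  have hlin : ∀ (t : Finset ℕ) (f : ℕ → sl_V) (u : List Bool),
      sl_app (∑ i ∈ t, f i) u = ∑ i ∈ t, sl_app (f i) u := by
    intro t f u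
    exact Finsupp.finsetSum_apply t f u
  rw [hlin]
  have h1 : ∀ i ∈ Finset.range (P.natDegree + 1),
      sl_app ((P.coeff i • (sl_F hκ sY).Z ^ i) sl_Om) (List.replicate k false) =
        if i = k then P.coeff i else 0 := by
    intro i _
    rw [LinearMap.smul_apply, sl_app_smul, stw_Z_pow]
    split_ifs <;> simp
  rw [Finset.sum_congr rfl h1, Finset.sum_ite_eq']
  split_ifs with h
  · rfl
  · rw [Finset.mem_range, not_lt] at h
    exact (Polynomial.coeff_eq_zero_of_natDegree_lt (by omega)).symm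

/-- slices of a product of two block strings -/
theorem slice_two_pf {κ sY : ℝ} (hκ : 0 ≤ κ) (hY : 0 ≤ sY) :
    ∃ (V : Type) (_ : NormedAddCommGroup V) (_ : InnerProductSpace ℝ V)
      (F : Fock (κ * sY ^ 2) V),
      ∀ (s : ℝ) (B B' : List Bool) (M : ℕ),
        nsq κ M (coef s sY (B ++ B')) - (coef s sY (B ++ B') (List.replicate M false)) ^ 2 ≤
          2 * (‖F.blks s sY B F.Ω - F.op (w s ^ B.count false * w sY ^ B.count true) F.Ω‖ ^ 2 *
            ‖F.blks s sY B' F.Ω‖ ^ 2) +
          2 * (‖F.op (w s ^ B.count false * w sY ^ B.count true) F.Ω‖ ^ 2 *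
            ‖F.blks s sY B' F.Ω - F.op (w s ^ B'.count false * w sY ^ B'.count true) F.Ω‖ ^ 2) := by
  have hk : ∀ (j : ℕ), (√κ ^ j) ^ 2 = κ ^ j := by
    intro j
    rw [← pow_mul, mul_comm, pow_mul, Real.sq_sqrt hκ]
  refine ⟨sl_V, sl_instN, sl_instI, sl_F hκ sY, ?_⟩
  intro s B B' M
  have hmark : ∀ (D : List Bool) (n : ℕ), ∑ k ∈ Finset.range (n + 1),
      nsq κ k (sl_mk (coef s sY D)) ≤ ‖(sl_F hκ sY).blks s sY D (sl_F hκ sY).Ω -
        (sl_F hκ sY).op (w s ^ D.count false * w sY ^ D.count true) (sl_F hκ sY).Ω‖ ^ 2 := by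
    intro D n
    apply sl_sum_nsq
    intro u
    by_cases hu : true ∈ u
    · rw [sl_app_sub, sl_blks, sl_op_mark hκ sY _ u hu, sub_zero, mul_pow, hk, mul_comm]
      simp [sl_mk, hu]
    · have : sl_mk (coef s sY D) u = 0 := by simp [sl_mk, hu]
      rw [this]
      simp only [ne_eq, OfNat.ofNat_ne_zero, not_false_eq_true, zero_pow, mul_zero]
      exact sq_nonneg _
  have hall : ∀ (D : List Bool) (n : ℕ), ∑ k ∈ Finset.range (n + 1),
      nsq κ k (coef s sY D) ≤ ‖(sl_F hκ sY).blks s sY D (sl_F hκ sY).Ω‖ ^ 2 := by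
    intro D n
    apply sl_sum_nsq
    intro u
    rw [sl_blks, mul_pow, hk, mul_comm]
  have hplain : ∀ (D : List Bool) (n : ℕ), ∑ k ∈ Finset.range (n + 1),
      nsq κ k (stw_um (coef s sY D)) ≤ ‖(sl_F hκ sY).op
        (w s ^ D.count false * w sY ^ D.count true) (sl_F hκ sY).Ω‖ ^ 2 := by
    intro D n
    apply sl_sum_nsq
    intro u
    by_cases hu : true ∈ u
    · have : stw_um (coef s sY D) u = 0 := by simp [stw_um, sl_mk, hu]
      rw [this]
      simp only [ne_eq, OfNat.ofNat_ne_zero, not_false_eq_true, zero_pow, mul_zero]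
      exact sq_nonneg _
    · have h1 : stw_um (coef s sY D) u = coef s sY D u := by simp [stw_um, sl_mk, hu]
      have h2 : u.count true = 0 := List.count_eq_zero.mpr hu
      rw [h1, h2, pow_zero, one_mul, stw_eq_replicate u hu, coef_plain, stw_op_plain]
  rw [sl_nsq_mk, add_sub_cancel_right]
  have h1 : sl_mk (coef s sY (B ++ B')) = fun u =>
      stw_cv (sl_mk (coef s sY B)) (coef s sY B') u +
        stw_cv (stw_um (coef s sY B)) (sl_mk (coef s sY B')) u := by
    funext u
    rw [← stw_mk_cv]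
    have h2 : coef s sY (B ++ B') = stw_cv (coef s sY B) (coef s sY B') :=
      funext (stw_coef_append s sY B B')
    rw [h2]
  rw [h1]
  refine (stw_nsq_add hκ M _ _).trans ?_
  refine add_le_add ?_ ?_
  · refine mul_le_mul_of_nonneg_left ((stw_nsq_cv hκ M _ _).trans ?_) (by norm_num)
    exact mul_le_mul (hmark B M) (hall B' M)
      (Finset.sum_nonneg fun k _ => sl_nsq_nonneg hκ k _) (sq_nonneg _)
  · refine mul_le_mul_of_nonneg_left ((stw_nsq_cv hκ M _ _).trans ?_) (by norm_num)
    exact mul_le_mul (hplain B M) (hmark B' M)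
      (Finset.sum_nonneg fun k _ => sl_nsq_nonneg hκ k _) (sq_nonneg _)

end Vale.Agent.P321.Sup
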