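import Vale.Agent.P321.Sup.BaseFockVac
import Vale.Agent.P321.Sup.BaseSliceTwo

/-!
Blueprint module BaseFock: vacuum decay, and the slice bound for a product of two block strings.
-/

namespace Vale.Agent.P321.Sup

open scoped RealInnerProductSpace
open Polynomial

/-- vacuum decay and closeness to the unmarked term, for `1 ≤ n ≤ L` periods -/
theorem vac {κ : ℝ} {V : Type} [NormedAddCommGroup V] [InnerProductSpace ℝ V] (F : Fock κ V)
    {s sY C : ℝ} {h L : ℕ} (hκ : 0 ≤ κ) (hs0 : 0 ≤ s) (hs1 : s ≤ 1) (hY0 : 0 ≤ sY) (hY1 : sY ≤ 1)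
    (hh : 1 ≤ h) (hC : 1 ≤ C) (hK : KBound s sY h L 1 (fun i => C * aa h i))
    (hsm : 64 * (κ * C) * √(((L : ℝ) + 1) / h) ≤ 1) (n : ℕ) (hn : 1 ≤ n) (hnL : n ≤ L) :
    ‖F.op (W0 s sY h ^ n) F.Ω‖ ^ 2 ≤ 4 * C * aa h n ∧
    ‖F.TT s sY h (List.replicate n false) F.Ω‖ ^ 2 ≤ 32 * C * aa h n ∧
    ‖F.TT s sY h (List.replicate n false) F.Ω - F.op (W0 s sY h ^ n) F.Ω‖ ^ 2 ≤
      256 * (κ * C ^ 2) * √(((L : ℝ) + 1) / h) * aa h n :=
  vac_pf F hκ hs0 hs1 hY0 hY1 hh hC hK hsm n hn hnL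

/-- slices of a product of two block strings -/
theorem slice_two {κ sY : ℝ} (hκ : 0 ≤ κ) (hY : 0 ≤ sY) :
    ∃ (V : Type) (_ : NormedAddCommGroup V) (_ : InnerProductSpace ℝ V)
      (F : Fock (κ * sY ^ 2) V),
      ∀ (s : ℝ) (B B' : List Bool) (M : ℕ),
        nsq κ M (coef s sY (B ++ B')) - (coef s sY (B ++ B') (List.replicate M false)) ^ 2 ≤
          2 * (‖F.blks s sY B F.Ω - F.op (w s ^ B.count false * w sY ^ B.count true) F.Ω‖ ^ 2 *
            ‖F.blks s sY B' F.Ω‖ ^ 2) +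
          2 * (‖F.op (w s ^ B.count false * w sY ^ B.count true) F.Ω‖ ^ 2 *
            ‖F.blks s sY B' F.Ω - F.op (w s ^ B'.count false * w sY ^ B'.count true) F.Ω‖ ^ 2) :=
  slice_two_pf hκ hY

end Vale.Agent.P321.Sup
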