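import Vale.Agent.P321.Est

/-!
Module BaseFockVac: vacuum decay.
-/

namespace Vale.Agent.P321.Sup

open scoped RealInnerProductSpace
open Polynomial

section

variable {κ : ℝ} {V : Type} [NormedAddCommGroup V] [InnerProductSpace ℝ V] (F : Fock κ V)
  {s sY C : ℝ} {h L : ℕ}

theorem vac_expand (hh : 1 ≤ h) (n : ℕ) (v : V) :
    F.TT s sY h (List.replicate n false) v = F.op (W0 s sY h ^ n) v +
      ∑ i ∈ Finset.range n,
        F.op (W0 s sY h ^ i * w s ^ h)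
          (F.ζ (F.op (w s ^ h) (F.TT s sY h (List.replicate (n - 1 - i) false) v))) := by
  have h1 := F.TT_expand s sY h hh (List.replicate n false) v
  rw [List.length_replicate] at h1
  rw [h1]
  congr 1
  refine Finset.sum_congr rfl fun i hi => ?_
  rw [Finset.mem_range] at hi
  have h2 : (List.replicate n false).getD i false = false := by
    simp [List.getD, hi]
  have h3 : (List.replicate n false).drop (i + 1) = List.replicate (n - 1 - i) false := by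
    rw [List.drop_replicate]
    congr 1
    omega
  have h4 : eb false = 0 := rfl
  rw [h2, h3, h4, add_zero, Nat.sub_zero]

theorem vac_ip_mul_le (P Q : ℝ[X]) (hQ : l1 Q ≤ 1) (F : Fock κ V) : ip (P * Q) (P * Q) ≤ ip P P := by
  rw [← F.norm_op_Ω, ← F.norm_op_Ω, mul_comm P Q, F.op_mul_apply]
  have h1 := F.norm_op_le Q (F.op P F.Ω)
  have h2 : ‖F.op Q (F.op P F.Ω)‖ ≤ ‖F.op P F.Ω‖ :=
    h1.trans (mul_le_of_le_one_left (norm_nonneg _) hQ)
  gcongr

theorem vac_aa_pred (hh : 1 ≤ h) (n : ℕ) (hn : 1 ≤ n) : aa h (n - 1) ≤ 2 * aa h n := by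
  obtain ⟨m, rfl⟩ : ∃ m, n = m + 1 := ⟨n - 1, by omega⟩
  rw [Nat.add_sub_cancel]
  unfold aa
  have h0 : (0 : ℝ) < h := by exact_mod_cast hh
  have h1 : √((((m + 1 : ℕ) : ℝ) + 1) * h) ≤ 2 * √(((m : ℝ) + 1) * h) := by
    have e : 2 * √(((m : ℝ) + 1) * h) = √(4 * (((m : ℝ) + 1) * h)) := by
      rw [Real.sqrt_mul (by norm_num : (0 : ℝ) ≤ 4)]
      congr 1
      rw [show (4 : ℝ) = 2 ^ 2 by norm_num, Real.sqrt_sq (by norm_num)]
    rw [e]
    apply Real.sqrt_le_sqrt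
    push_cast
    nlinarith [mul_nonneg (Nat.cast_nonneg (α := ℝ) m) h0.le]
  have h2 : 0 < √((((m + 1 : ℕ) : ℝ) + 1) * h) := Real.sqrt_pos.2 (by positivity)
  have h3 : 0 < √(((m : ℝ) + 1) * h) := Real.sqrt_pos.2 (by positivity)
  rw [mul_one_div, div_le_div_iff₀ h3 h2]
  linarith

theorem vac_plain (F : Fock κ V) (hs0 : 0 ≤ s) (hs1 : s ≤ 1) (hY0 : 0 ≤ sY) (hY1 : sY ≤ 1)
    (hh : 1 ≤ h) (hC : 1 ≤ C) (hK : KBound s sY h L 1 (fun i => C * aa h i)) (n : ℕ)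
    (hn : 1 ≤ n) (hnL : n ≤ L) : ip (W0 s sY h ^ n) (W0 s sY h ^ n) ≤ 2 * C * aa h n := by
  obtain ⟨m, rfl⟩ : ∃ m, n = m + 1 := ⟨n - 1, by omega⟩
  have h1 := KBound.diag hK (r := m) (by omega) (e := 0) (by omega)
  rw [one_mul, add_zero] at h1
  have h2 : W0 s sY h ^ (m + 1) = W0 s sY h ^ m * w s ^ h * (w s ^ h * w sY) := by
    rw [pow_succ]
    have : W0 s sY h = w s ^ h * (w s ^ h * w sY) := by
      unfold W0
      rw [two_mul, pow_add]; ring
    calc W0 s sY h ^ m * W0 s sY h = W0 s sY h ^ m * (w s ^ h * (w s ^ h * w sY)) := by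
          rw [← this]
      _ = _ := by ring
  have h3 : l1 (w s ^ h * w sY) ≤ 1 := by
    refine (l1_mul_le _ _).trans ?_
    have := l1_w_pow hY0 hY1 1
    rw [pow_one] at this
    rw [l1_w_pow hs0 hs1, this, one_mul]
  have h4 := vac_ip_mul_le (W0 s sY h ^ m * w s ^ h) (w s ^ h * w sY) h3 F
  rw [← h2] at h4
  have h5 := vac_aa_pred hh (m + 1) (by omega)
  rw [Nat.add_sub_cancel] at h5
  have h6 : C * aa h m ≤ C * (2 * aa h (m + 1)) := mul_le_mul_of_nonneg_left h5 (by linarith)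
  linarith

theorem vac_pow (F : Fock κ V) (hs0 : 0 ≤ s) (hs1 : s ≤ 1)
    (hK : KBound s sY h L 1 (fun i => C * aa h i)) : ip (w s ^ h) (w s ^ h) ≤ C * aa h 0 := by
  have h1 := KBound.diag hK (r := 0) (by omega) (e := 0) (by omega)
  rw [one_mul, add_zero, pow_zero, one_mul] at h1
  exact h1

theorem vac_diff (hκ : 0 ≤ κ) (hs0 : 0 ≤ s) (hs1 : s ≤ 1) (hh : 1 ≤ h) (hC : 1 ≤ C)
    (hK : KBound s sY h L 1 (fun i => C * aa h i)) (n : ℕ) (hnL : n ≤ L)
    (ih : ∀ m, 1 ≤ m → m < n →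
      ‖F.TT s sY h (List.replicate m false) F.Ω‖ ^ 2 ≤ 32 * C * aa h m) :
    ‖F.TT s sY h (List.replicate n false) F.Ω - F.op (W0 s sY h ^ n) F.Ω‖ ^ 2 ≤
      128 * (κ * C ^ 2) * √(((L : ℝ) + 1) / h) * aa h n := by
  rw [vac_expand F hh n F.Ω, add_sub_cancel_left]
  have h1 := F.norm_sum_sq_le hκ n (fun i => W0 s sY h ^ i * w s ^ h)
    (fun i => F.op (w s ^ h) (F.TT s sY h (List.replicate (n - 1 - i) false) F.Ω))
    (fun i => C * aa h i) (by
      intro i hi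
      refine le_trans ?_ (hK (fun _ => 0) (fun _ => by omega) i (by omega))
      simp only [one_mul, add_zero]
      apply Finset.sum_le_sum_of_subset_of_nonneg
      · intro j hj
        simp only [Finset.mem_range] at hj ⊢
        omega
      · intro _ _ _; exact abs_nonneg _)
  refine h1.trans ?_
  have h2 : ∀ i ∈ Finset.range n, C * aa h i *
      ‖F.op (w s ^ h) (F.TT s sY h (List.replicate (n - 1 - i) false) F.Ω)‖ ^ 2 ≤
      32 * C ^ 2 * (aa h i * aa h (n - 1 - i)) := by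
    intro i hi
    rw [Finset.mem_range] at hi
    have h3 : ‖F.op (w s ^ h) (F.TT s sY h (List.replicate (n - 1 - i) false) F.Ω)‖ ^ 2 ≤
        32 * C * aa h (n - 1 - i) := by
      rcases Nat.eq_zero_or_pos (n - 1 - i) with h0 | h0
      · rw [h0, List.replicate_zero, F.TT_nil, Module.End.one_apply, F.norm_op_Ω]
        have := vac_pow F hs0 hs1 hK
        have h5 : 0 ≤ C * aa h 0 := mul_nonneg (by linarith) (aa_nonneg _ _)
        linarith
      · have h4 := ih (n - 1 - i) h0 (by omega)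
        refine le_trans ?_ h4
        have h5 := F.norm_op_le (w s ^ h) (F.TT s sY h (List.replicate (n - 1 - i) false) F.Ω)
        rw [l1_w_pow hs0 hs1, one_mul] at h5
        gcongr
    have h6 : 0 ≤ C * aa h i := mul_nonneg (by linarith) (aa_nonneg _ _)
    refine (mul_le_mul_of_nonneg_left h3 h6).trans (le_of_eq (by ring))
  have h7 := Finset.sum_le_sum h2
  rw [← Finset.mul_sum] at h7
  have h8 := conv_aa' hh hnL
  have h9 : κ * ∑ i ∈ Finset.range n, C * aa h i *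
      ‖F.op (w s ^ h) (F.TT s sY h (List.replicate (n - 1 - i) false) F.Ω)‖ ^ 2 ≤
      κ * (32 * C ^ 2 * (4 * (√(((L : ℝ) + 1) / h) * aa h n))) := by
    refine mul_le_mul_of_nonneg_left (h7.trans ?_) hκ
    exact mul_le_mul_of_nonneg_left h8 (by positivity)
  refine h9.trans (le_of_eq (by ring))

theorem vac_main (hκ : 0 ≤ κ) (hs0 : 0 ≤ s) (hs1 : s ≤ 1) (hY0 : 0 ≤ sY) (hY1 : sY ≤ 1)
    (hh : 1 ≤ h) (hC : 1 ≤ C) (hK : KBound s sY h L 1 (fun i => C * aa h i))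
    (hsm : 64 * (κ * C) * √(((L : ℝ) + 1) / h) ≤ 1) (n : ℕ) : 1 ≤ n → n ≤ L →
    ‖F.TT s sY h (List.replicate n false) F.Ω‖ ^ 2 ≤ 32 * C * aa h n := by
  induction n using Nat.strong_induction_on with
  | _ n ih =>
    intro hn hnL
    have h1 := vac_diff F hκ hs0 hs1 hh hC hK n hnL
      (fun m hm hmn => ih m hmn hm (by omega))
    have h2 := vac_plain F hs0 hs1 hY0 hY1 hh hC hK n hn hnL
    rw [← F.norm_op_Ω] at h2
    have h3 := norm_add_sq_le_two (F.TT s sY h (List.replicate n false) F.Ω -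
      F.op (W0 s sY h ^ n) F.Ω) (F.op (W0 s sY h ^ n) F.Ω)
    rw [sub_add_cancel] at h3
    have h4 : 0 ≤ C * aa h n := mul_nonneg (by linarith) (aa_nonneg _ _)
    have h5 : 128 * (κ * C ^ 2) * √(((L : ℝ) + 1) / h) * aa h n =
        2 * ((64 * (κ * C) * √(((L : ℝ) + 1) / h)) * (C * aa h n)) := by ring
    have h6 : (64 * (κ * C) * √(((L : ℝ) + 1) / h)) * (C * aa h n) ≤ C * aa h n :=
      mul_le_of_le_one_left h4 hsm
    linarith

/-- vacuum decay and closeness to the unmarked term, for `1 ≤ n ≤ L` periods -/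
theorem vac_pf {κ : ℝ} {V : Type} [NormedAddCommGroup V] [InnerProductSpace ℝ V] (F : Fock κ V)
    {s sY C : ℝ} {h L : ℕ} (hκ : 0 ≤ κ) (hs0 : 0 ≤ s) (hs1 : s ≤ 1) (hY0 : 0 ≤ sY) (hY1 : sY ≤ 1)
    (hh : 1 ≤ h) (hC : 1 ≤ C) (hK : KBound s sY h L 1 (fun i => C * aa h i))
    (hsm : 64 * (κ * C) * √(((L : ℝ) + 1) / h) ≤ 1) (n : ℕ) (hn : 1 ≤ n) (hnL : n ≤ L) :
    ‖F.op (W0 s sY h ^ n) F.Ω‖ ^ 2 ≤ 4 * C * aa h n ∧
    ‖F.TT s sY h (List.replicate n false) F.Ω‖ ^ 2 ≤ 32 * C * aa h n ∧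
    ‖F.TT s sY h (List.replicate n false) F.Ω - F.op (W0 s sY h ^ n) F.Ω‖ ^ 2 ≤
      256 * (κ * C ^ 2) * √(((L : ℝ) + 1) / h) * aa h n := by
  have h4 : 0 ≤ C * aa h n := mul_nonneg (by linarith) (aa_nonneg _ _)
  refine ⟨?_, vac_main F hκ hs0 hs1 hY0 hY1 hh hC hK hsm n hn hnL, ?_⟩
  · rw [F.norm_op_Ω]
    have := vac_plain F hs0 hs1 hY0 hY1 hh hC hK n hn hnL
    linarith
  · have h1 := vac_diff F hκ hs0 hs1 hh hC hK n hnL
      (fun m hm hmn => vac_main F hκ hs0 hs1 hY0 hY1 hh hC hK hsm m hm (by omega))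
    refine h1.trans ?_
    have h5 : 0 ≤ (κ * C ^ 2) * √(((L : ℝ) + 1) / h) * aa h n :=
      mul_nonneg (by positivity) (aa_nonneg _ _)
    linarith

end

end Vale.Agent.P321.Sup
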