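import Vale.Agent.P321.KernBounds

/-!
Blueprint module BaseKern: kernel bound `k0` for `L ≤ h`.
-/

namespace Vale.Agent.P321.Sup

open Polynomial

/-- exponential tilt of a binomial law -/
theorem w_tilt {s x : ℝ} (hs0 : 0 ≤ s) (hs1 : s < 1) (hx : 0 < x) (g k : ℕ) :
    (w s ^ g).coeff k * x ^ k = (w s ^ g).eval x * (w (s * x / (1 - s + s * x)) ^ g).coeff k := by
  have hE : 0 < 1 - s + s * x := by
    have : 0 ≤ s * x := by positivity
    linarith
  have h1 : (w s).comp (C x * X) = C (1 - s + s * x) * w (s * x / (1 - s + s * x)) := by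
    unfold w
    simp only [add_comp, mul_comp, C_comp, X_comp]
    rw [mul_add, ← C_mul, ← mul_assoc, ← mul_assoc, ← C_mul, ← C_mul]
    congr 2
    · field_simp
      ring
    · field_simp
  have h2 : (w s ^ g).comp (C x * X) =
      C ((1 - s + s * x) ^ g) * w (s * x / (1 - s + s * x)) ^ g := by
    rw [pow_comp, h1, mul_pow, C_pow]
  rw [← comp_C_mul_X_coeff, h2, coeff_C_mul, eval_pow, w_eval]

/-- Chernoff bound with the local prefactor -/
theorem ip_le_eval_sup {s x : ℝ} (hs0 : 0 < s) (hs1 : s < 1) (hx : 0 < x) (g : ℕ) (P Q : ℝ[X])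
    (hP : ∀ i, 0 ≤ P.coeff i) (hQ : ∀ i, 0 ≤ Q.coeff i) (S : ℝ)
    (hS : ∀ k, (w (s * x / (1 - s + s * x)) ^ g).coeff k ≤ S) :
    ip (w s ^ g * P) Q ≤ S * ((w s ^ g * P).eval x * Q.eval x⁻¹) := by
  have hE : 0 < 1 - s + s * x := by
    have : 0 ≤ s * x := by positivity
    linarith
  set s' := s * x / (1 - s + s * x) with hs'
  have hs'0 : 0 ≤ s' := by rw [hs']; positivity
  have hs'1 : s' ≤ 1 := by
    rw [hs', div_le_one hE]; linarith
  have hS0 : 0 ≤ S := (coeff_pow_nonneg _ (w_coeff_nonneg hs'0 hs'1) g 0).trans (hS 0)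
  have hWx : 0 ≤ (w s ^ g).eval x := by
    rw [eval_pow, w_eval]; positivity
  have hPx : 0 ≤ P.eval x := by
    rw [eval_eq_sum_range' (n := P.natDegree + 1) (by omega)]
    exact Finset.sum_nonneg fun i _ => mul_nonneg (hP i) (by positivity)
  have hcoef : ∀ a, (w s ^ g).coeff a ≤ (w s ^ g).eval x * S * (x⁻¹) ^ a := by
    intro a
    have h1 := w_tilt hs0.le hs1 hx g a
    rw [← hs'] at h1
    have hxa : 0 < x ^ a := by positivity
    have h2 : (w s ^ g).coeff a = (w s ^ g).eval x * (w s' ^ g).coeff a * (x⁻¹) ^ a := by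
      rw [← h1, inv_pow]; field_simp
    rw [h2]
    refine mul_le_mul_of_nonneg_right (mul_le_mul_of_nonneg_left (hS a) hWx) (by positivity)
  have hk : ∀ k, (w s ^ g * P).coeff k ≤ (w s ^ g).eval x * S * P.eval x * (x⁻¹) ^ k := by
    intro k
    rw [mul_comm (w s ^ g) P, coeff_mul,
      Finset.Nat.sum_antidiagonal_eq_sum_range_succ (fun a b => P.coeff a * (w s ^ g).coeff b)]
    have h3 : ∀ i ∈ Finset.range k.succ, P.coeff i * (w s ^ g).coeff (k - i) ≤
        (w s ^ g).eval x * S * (x⁻¹) ^ k * (P.coeff i * x ^ i) := by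
      intro i hi
      have hik : i ≤ k := by rw [Finset.mem_range] at hi; omega
      have h4 := mul_le_mul_of_nonneg_left (hcoef (k - i)) (hP i)
      refine h4.trans (le_of_eq ?_)
      have h5 : (x⁻¹) ^ (k - i) = (x⁻¹) ^ k * x ^ i := by
        have h6 : (x⁻¹) ^ k = (x⁻¹) ^ (k - i) * (x⁻¹) ^ i := by
          rw [← pow_add, Nat.sub_add_cancel hik]
        rw [h6, mul_assoc, ← mul_pow, inv_mul_cancel₀ hx.ne', one_pow, mul_one]
      rw [h5]; ring
    refine (Finset.sum_le_sum h3).trans ?_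
    rw [← Finset.mul_sum]
    have h7 : ∑ i ∈ Finset.range k.succ, P.coeff i * x ^ i ≤ P.eval x := by
      rw [eval_eq_sum_range' (n := P.natDegree + k + 1) (by omega)]
      refine Finset.sum_le_sum_of_subset_of_nonneg ?_ ?_
      · intro i hi
        rw [Finset.mem_range] at hi ⊢
        omega
      · intro i _ _
        exact mul_nonneg (hP i) (by positivity)
    have h8 : 0 ≤ (w s ^ g).eval x * S * (x⁻¹) ^ k := by positivity
    refine (mul_le_mul_of_nonneg_left h7 h8).trans (le_of_eq (by ring))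
  set n := (w s ^ g * P).natDegree + Q.natDegree + 1 with hn
  rw [ip_eq_sum (w s ^ g * P) Q n (by omega)]
  have h9 : ∀ k ∈ Finset.range n, (w s ^ g * P).coeff k * Q.coeff k ≤
      (w s ^ g).eval x * S * P.eval x * (Q.coeff k * (x⁻¹) ^ k) := by
    intro k _
    refine (mul_le_mul_of_nonneg_right (hk k) (hQ k)).trans (le_of_eq (by ring))
  refine (Finset.sum_le_sum h9).trans ?_
  rw [← Finset.mul_sum, ← eval_eq_sum_range' (n := n) (p := Q) (by omega), eval_mul]
  exact le_of_eq (by ring)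

theorem geo_bound {ρ : ℝ} (h0 : 0 ≤ ρ) (h1 : ρ < 1) (n : ℕ) :
    ∑ m ∈ Finset.range n, ρ ^ m ≤ 1 / (1 - ρ) := by
  rw [geom_sum_eq h1.ne, ← neg_div_neg_eq]
  have : 0 < 1 - ρ := by linarith
  have h2 : -(ρ - 1) = 1 - ρ := by ring
  rw [h2]
  apply div_le_div_of_nonneg_right _ this.le
  have : 0 ≤ ρ ^ n := by positivity
  linarith

theorem two_sided_geo {ρ : ℝ} (h0 : 0 ≤ ρ) (h1 : ρ < 1) (i n : ℕ) :
    ∑ j ∈ Finset.range n, ρ ^ ((i - j) + (j - i)) ≤ 2 / (1 - ρ) := by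
  have h2 : ∑ j ∈ Finset.range n, ρ ^ ((i - j) + (j - i)) ≤
      ∑ j ∈ Finset.range (i + n), ρ ^ ((i - j) + (j - i)) := by
    refine Finset.sum_le_sum_of_subset_of_nonneg ?_ (fun _ _ _ => by positivity)
    intro j hj
    rw [Finset.mem_range] at hj ⊢
    omega
  refine h2.trans ?_
  rw [Finset.sum_range_add]
  have h3 : ∑ j ∈ Finset.range i, ρ ^ ((i - j) + (j - i)) ≤ 1 / (1 - ρ) := by
    rw [← Finset.sum_range_reflect]
    refine le_trans (Finset.sum_le_sum fun j hj => ?_) (geo_bound h0 h1 i)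
    rw [Finset.mem_range] at hj
    exact pow_le_pow_of_le_one h0 h1.le (by omega)
  have h4 : ∑ m ∈ Finset.range n, ρ ^ ((i - (i + m)) + ((i + m) - i)) ≤ 1 / (1 - ρ) := by
    refine le_trans (Finset.sum_le_sum fun j hj => ?_) (geo_bound h0 h1 n)
    exact pow_le_pow_of_le_one h0 h1.le (by omega)
  have h5 : 2 / (1 - ρ) = 1 / (1 - ρ) + 1 / (1 - ρ) := by ring
  rw [h5]
  exact add_le_add h3 h4

theorem exp_half_bounds {u : ℝ} (hu : |u| ≤ 1 / 2) :
    1 / 2 ≤ Real.exp u ∧ Real.exp u ≤ 2 := by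
  rw [abs_le] at hu
  constructor
  · have := Real.add_one_le_exp u
    linarith
  · have h1 := Real.add_one_le_exp (-u)
    have h2 : Real.exp u * Real.exp (-u) = 1 := by rw [← Real.exp_add]; simp
    have h3 := Real.exp_pos u
    nlinarith

/-- local Chernoff bound for the overlap of two kernels -/
theorem off_local {δ s sY : ℝ} (hδ : 0 < δ) (hs0 : δ ≤ s) (hs1 : s ≤ 1 - δ) (hY0 : 0 ≤ sY)
    (hY1 : sY ≤ 1) (g i g' i' : ℕ) (D S : ℝ) (hD : 0 ≤ D)
    (hDle : D ≤ |(s * g + sY * i) - (s * g' + sY * i')|)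
    (hS : (s * g + sY * i) + (s * g' + sY * i') ≤ S) (hS0 : 0 < S) :
    |ip (ker s sY g i) (ker s sY g' i')| ≤
      2 / δ * (1 / √((g : ℝ) + 1)) * Real.exp (-(D ^ 2 / (4 * S))) := by
  have h0 : 0 ≤ s := by linarith
  have h1 : s ≤ 1 := by linarith
  obtain ⟨u, hu, hx⟩ := eval_pair h0 h1 hY0 hY1 g i g' i' D S hD hDle hS hS0
  have h2 : |ip (ker s sY g i) (ker s sY g' i')| ≤ ip (ker s sY g i) (ker s sY g' i') :=
    ip_abs_le _ _ _ _ (fun j => by rw [abs_of_nonneg (ker_coeff_nonneg h0 h1 hY0 hY1 _ _ _)])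
      (fun j => by rw [abs_of_nonneg (ker_coeff_nonneg h0 h1 hY0 hY1 _ _ _)])
  refine h2.trans ?_
  obtain ⟨hb1, hb2⟩ := exp_half_bounds hu
  set x := Real.exp u with hxdef
  have hx0 : 0 < x := Real.exp_pos u
  have hspos : 0 < s := by linarith
  have hslt : s < 1 := by linarith
  have hE : 0 < 1 - s + s * x := by
    have : 0 ≤ s * x := by positivity
    linarith
  have hE2 : 1 - s + s * x ≤ 2 := by nlinarith
  have hl : δ / 4 ≤ s * x / (1 - s + s * x) := by
    rw [le_div_iff₀ hE]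
    nlinarith
  have hr : s * x / (1 - s + s * x) ≤ 1 - δ / 4 := by
    rw [div_le_iff₀ hE]
    nlinarith
  have hsup : ∀ k, (w (s * x / (1 - s + s * x)) ^ g).coeff k ≤ AA (δ / 4) g / 2 := by
    intro k
    exact (le_abs_self _).trans (sup_pow (by positivity) hl hr g k)
  have h3 := ip_le_eval_sup hspos hslt hx0 g (w sY ^ i) (ker s sY g' i')
    (coeff_pow_nonneg _ (w_coeff_nonneg hY0 hY1) i) (ker_coeff_nonneg h0 h1 hY0 hY1 _ _)
    (AA (δ / 4) g / 2) hsup
  have h4 : w s ^ g * w sY ^ i = ker s sY g i := rfl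
  rw [h4] at h3
  refine h3.trans ?_
  have h5 : AA (δ / 4) g / 2 = 2 / δ * (1 / √((g : ℝ) + 1)) := by
    unfold AA
    field_simp
    norm_num
  rw [h5]
  exact mul_le_mul_of_nonneg_left hx (by positivity)

theorem kbound0 {δ : ℝ} (hδ : 0 < δ) : ∃ C : ℝ, 1 ≤ C ∧ ∀ (s sY : ℝ) (h L : ℕ), δ ≤ s →
    s ≤ 1 - δ → 0 ≤ sY → sY ≤ s → 1 ≤ h → L ≤ h →
    KBound s sY h L 1 (fun i => C * aa h i) := by
  set ρ := Real.exp (-(δ ^ 2 / 48)) with hρ
  have hρ0 : 0 ≤ ρ := (Real.exp_pos _).le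
  have hρ1 : ρ < 1 := by
    rw [hρ, Real.exp_lt_one_iff]
    have : 0 < δ ^ 2 / 48 := by positivity
    linarith
  have hρ2 : 0 < 1 - ρ := by linarith
  refine ⟨2 / δ * (2 / (1 - ρ)) + 1, by
    have : 0 ≤ 2 / δ * (2 / (1 - ρ)) := by positivity
    linarith, ?_⟩
  intro s sY h L hs0 hs1 hY0 hY1 hh hL ε hε i hi
  have e : ∀ j, 1 * W0 s sY h ^ j * w s ^ (h + ε j) = ker s sY (gx 0 h ε j) j := by
    intro j
    rw [← fam0, pow_zero]
  simp_rw [e]
  have hsle : s ≤ 1 := by linarith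
  have hYle : sY ≤ 1 := hY1.trans hsle
  have hhr : (1 : ℝ) ≤ h := by exact_mod_cast hh
  have haa : 0 ≤ aa h i := by unfold aa; positivity
  have hterm : ∀ j ∈ Finset.range (L + 1),
      |ip (ker s sY (gx 0 h ε i) i) (ker s sY (gx 0 h ε j) j)| ≤
        2 / δ * aa h i * ρ ^ ((i - j) + (j - i)) := by
    intro j hj
    have hjL : j ≤ L := by rw [Finset.mem_range] at hj; omega
    have hgap := gap_le hδ hs0 hY0 0 h hh ε hε i j
    have hsum := sum_le hsle hYle 0 h h hh ε hε i j (hi.trans hL) (hjL.trans hL)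
    have hS12 : 2 * ((0 : ℕ) : ℝ) + 6 * (h * ((h : ℝ) + 1)) ≤ 12 * (h : ℝ) ^ 2 := by
      push_cast; nlinarith
    have h1 := off_local hδ hs0 hs1 hY0 hYle (gx 0 h ε i) i (gx 0 h ε j) j
      (δ * h * |(i : ℝ) - j|) (12 * (h : ℝ) ^ 2) (by positivity) hgap (hsum.trans hS12)
      (by positivity)
    refine h1.trans ?_
    have h2 : 1 / √(((gx 0 h ε i : ℕ) : ℝ) + 1) ≤ aa h i := by
      unfold aa
      refine one_div_le_one_div_of_le (by positivity) (Real.sqrt_le_sqrt ?_)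
      have h3 : (i + 1) * h ≤ gx 0 h ε i + 1 := by
        unfold gx; nlinarith
      exact_mod_cast h3
    have h4 : Real.exp (-((δ * h * |(i : ℝ) - j|) ^ 2 / (4 * (12 * (h : ℝ) ^ 2)))) ≤
        ρ ^ ((i - j) + (j - i)) := by
      rw [hρ, ← Real.exp_nat_mul, Real.exp_le_exp]
      have h5 : (((i - j) + (j - i) : ℕ) : ℝ) = |(i : ℝ) - j| := by
        rcases le_total i j with hij | hij
        · have h6 : (i - j) + (j - i) = j - i := by omega
          have h7 : (i : ℝ) ≤ j := by exact_mod_cast hij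
          rw [h6, Nat.cast_sub hij, abs_of_nonpos (by linarith)]; ring
        · have h6 : (i - j) + (j - i) = i - j := by omega
          have h7 : (j : ℝ) ≤ i := by exact_mod_cast hij
          rw [h6, Nat.cast_sub hij, abs_of_nonneg (by linarith)]
      have h8 : |(i : ℝ) - j| ≤ |(i : ℝ) - j| ^ 2 := by
        rw [← h5]
        exact_mod_cast Nat.le_self_pow (by norm_num) _
      have h9 : (δ * h * |(i : ℝ) - j|) ^ 2 / (4 * (12 * (h : ℝ) ^ 2)) =
          δ ^ 2 / 48 * |(i : ℝ) - j| ^ 2 := by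
        have : (h : ℝ) ≠ 0 := by positivity
        field_simp
        ring
      rw [h5, h9]
      have h10 : 0 ≤ δ ^ 2 / 48 := by positivity
      nlinarith [mul_le_mul_of_nonneg_left h8 h10]
    exact mul_le_mul (mul_le_mul_of_nonneg_left h2 (by positivity)) h4
      (Real.exp_pos _).le (by positivity)
  refine (Finset.sum_le_sum hterm).trans ?_
  rw [← Finset.mul_sum]
  have hgeo := two_sided_geo hρ0 hρ1 i (L + 1)
  have h11 : 0 ≤ 2 / δ * aa h i := by positivity
  have h12 := mul_le_mul_of_nonneg_left hgeo h11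
  refine h12.trans ?_
  have h13 : 2 / δ * aa h i * (2 / (1 - ρ)) = 2 / δ * (2 / (1 - ρ)) * aa h i := by ring
  rw [h13]
  nlinarith

end Vale.Agent.P321.Sup
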