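import Vale.Agent.P321.Sup.DoubleStep

/-!
Definitions of the level predicate.
-/

namespace Vale.Agent.P321.Sup

open Filter

/-- data of one level at scale `h` -/
def Dat (q : ℝ) (h : ℕ) (a0 a b1 b2 lam om B : ℝ) : Prop :=
  ∃ (sv sp sr : List Bool) (V Ap Am : Al) (J : ℕ),
    sv.length = sp.length ∧ sp.length = sr.length ∧ sp ≠ sr ∧
    (sv.length : ℝ) ≤ (h : ℝ) ^ a ∧ (h : ℝ) ^ a0 ≤ (J : ℝ) + 1 ∧ (J : ℝ) + 1 ≤ (h : ℝ) ^ a ∧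
    Prb V ∧ Prb Ap ∧ Prb Am ∧ Le Ap (lam • V) ∧ Le V (lam • Ap) ∧ Le Am (lam • V) ∧
    Le V (lam • Am) ∧ Slip V J om ∧
    Cost ((1 / 2 : ℝ) • (Ap - Am)) V ((h : ℝ) ^ (-b1)) ∧
    Cost ((1 / 2 : ℝ) • (Ap + Am) - V) V ((h : ℝ) ^ (-b2)) ∧
    nm (Fl q sv - V) ≤ (h : ℝ) ^ (-B) ∧ nm (Fl q sp - Ap) ≤ (h : ℝ) ^ (-B) ∧
    nm (Fl q sr - Am) ≤ (h : ℝ) ^ (-B)

/-- level predicate -/
def Lev (q a b1 b2 : ℝ) : Prop :=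
  ∀ d B : ℝ, 0 < d → ∃ lam om : ℝ, 1 ≤ lam ∧ 0 < om ∧ om ≤ 1 ∧
    ∀ᶠ h : ℕ in atTop, Dat q h (a - d) (a + d) (b1 - d) (b2 - d) lam om B

theorem Slip.succ {V : Al} {J : ℕ} {om : ℝ} (hV : Prb V) (h : Slip V J om) :
    Slip V (J + 1) om := by
  obtain ⟨U, hU, h1, h2, h3⟩ := h
  refine ⟨U * V, hU.mul hV.pos, ?_, ?_, ?_⟩
  · rw [pow_succ]
    exact Le.mul_right h1 hV.pos
  · rw [pow_succ V (J + 1)]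
    exact Le.mul_right h2 hV.pos
  · rw [mass_mul, hV.mass, mul_one, h3]

end Vale.Agent.P321.Sup
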