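import Vale.Agent.P321.Sup.BaseCost
import Vale.Agent.P321.Sup.LevDef

/-!
Blueprint module BaseLev.
-/

namespace Vale.Agent.P321.Sup

open Filter

section trc2

variable {v c : Al} {lam eta : ℝ} {S : Set Wd}

theorem bl_mass_res (S : Set Wd) (a : Al) : mass (res S a) + mass (res Sᶜ a) = mass a := by
  rw [← mass_add, res_add_compl]

/-- truncation with comparison on the good set only -/
theorem bl_trc (hv : Prb v) (hc : Prb c) (hlam : 1 ≤ lam)
    (hcv : ∀ w ∈ S, c.coeff w ≤ lam * v.coeff w)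
    (hvc : ∀ w ∈ S, v.coeff w ≤ lam * c.coeff w) (hbad : mass (res Sᶜ v) ≤ eta)
    (hbadc : mass (res Sᶜ c) ≤ eta) (heta : 2 * lam * eta ≤ 1) :
    Prb (trc S v c) ∧ Le (trc S v c) ((2 * lam) • v) ∧ Le v ((2 * lam) • trc S v c) ∧
      nm (c - trc S v c) ≤ 3 * eta := by
  set m : ℝ := mass (res S (c - v)) with hm
  have hmv0 : 0 ≤ mass (res Sᶜ v) := mass_nonneg (hv.pos.res _)
  have hmc0 : 0 ≤ mass (res Sᶜ c) := mass_nonneg (hc.pos.res _)
  have hmeq : m = mass (res Sᶜ v) - mass (res Sᶜ c) := by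
    have h1 := bl_mass_res S v
    have h2 := bl_mass_res S c
    rw [hv.mass] at h1
    rw [hc.mass] at h2
    rw [hm, res_sub, mass_sub]
    linarith
  have heta0 : 0 ≤ eta := hmv0.trans hbad
  have hm1 : m ≤ eta := by rw [hmeq]; linarith
  have hm2 : -eta ≤ m := by rw [hmeq]; linarith
  have hle : eta * lam ≤ 1 / 2 := by linarith
  have heta2 : eta ≤ 1 / 2 := by nlinarith
  have hS : ∀ w ∈ S, (trc S v c).coeff w = c.coeff w - m * v.coeff w := by
    intro w hw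
    unfold trc
    rw [coeff_add', coeff_sub', res_coeff_mem hw, coeff_sub', coeff_smul']
    ring
  have hSc : ∀ w, w ∉ S → (trc S v c).coeff w = (1 - m) * v.coeff w := by
    intro w hw
    unfold trc
    rw [coeff_add', coeff_sub', res_coeff_not_mem hw, coeff_smul']
    ring
  have hvp := hv.pos
  have hcp := hc.pos
  have hlow : ∀ w ∈ S, c.coeff w / 2 ≤ (trc S v c).coeff w := by
    intro w hw
    rw [hS w hw]
    have h1 : m * v.coeff w ≤ eta * (lam * c.coeff w) := by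
      have h2 : m * v.coeff w ≤ eta * v.coeff w := mul_le_mul_of_nonneg_right hm1 (hvp w)
      have h3 : eta * v.coeff w ≤ eta * (lam * c.coeff w) :=
        mul_le_mul_of_nonneg_left (hvc w hw) heta0
      linarith
    have h4 : eta * lam * c.coeff w ≤ 1 / 2 * c.coeff w :=
      mul_le_mul_of_nonneg_right hle (hcp w)
    linarith
  refine ⟨⟨?_, ?_⟩, ?_, ?_, ?_⟩
  · intro w
    by_cases hw : w ∈ S
    · have := hlow w hw
      have := hcp w
      linarith
    · rw [hSc w hw]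
      exact mul_nonneg (by linarith) (hvp w)
  · unfold trc
    rw [mass_add, mass_sub, mass_smul, hv.mass]
    ring
  · intro w
    rw [coeff_smul']
    have hv0 := hvp w
    by_cases hw : w ∈ S
    · rw [hS w hw]
      have h1 := hcv w hw
      have h2 : -(eta * v.coeff w) ≤ m * v.coeff w := by nlinarith
      nlinarith
    · rw [hSc w hw]
      nlinarith
  · intro w
    rw [coeff_smul']
    have hv0 := hvp w
    by_cases hw : w ∈ S
    · have h1 := hlow w hw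
      have h2 := hvc w hw
      have h3 : 2 * lam * (c.coeff w / 2) ≤ 2 * lam * (trc S v c).coeff w :=
        mul_le_mul_of_nonneg_left h1 (by linarith)
      linarith
    · rw [hSc w hw]
      have h1 : (1 : ℝ) ≤ 2 * lam * (1 - m) := by nlinarith
      nlinarith
  · have h1 : c - trc S v c = m • v + res Sᶜ (c - v) := by
      have h2 := res_add_compl S (c - v)
      unfold trc
      rw [← hm]
      have h3 : res Sᶜ (c - v) = (c - v) - res S (c - v) := eq_sub_of_add_eq' h2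
      rw [h3]
      abel
    rw [h1]
    refine (nm_add _ _).trans ?_
    rw [nm_smul, hv.nm, res_sub, mul_one]
    have h4 := nm_sub (res Sᶜ c) (res Sᶜ v)
    rw [nm_of_pos (hcp.res _), nm_of_pos (hvp.res _)] at h4
    have h5 : |m| ≤ eta := abs_le.2 ⟨hm2, hm1⟩
    linarith

/-- the bad set is small for the reference -/
theorem bl_bad {R X0 X1 X2 E0 E1 E2 : Al} {C : ℝ} (hE0 : Pos E0) (hE1 : Pos E1)
    (hE2 : Pos E2) (h0 : Le R (C • X0 + E0)) (h1 : Le R (C • X1 + E1))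
    (h2 : Le R (C • X2 + E2))
    (hS : S = {w | R.coeff w ≤ 2 * C * X0.coeff w ∧ R.coeff w ≤ 2 * C * X1.coeff w ∧
      R.coeff w ≤ 2 * C * X2.coeff w}) :
    mass (res Sᶜ R) ≤ 2 * (mass E0 + mass E1 + mass E2) := by
  have hle : Le (res Sᶜ R) ((2 : ℝ) • (E0 + E1 + E2)) := by
    intro w
    rw [coeff_smul', coeff_add', coeff_add']
    have e0 := hE0 w
    have e1 := hE1 w
    have e2 := hE2 w
    have a0 := h0 w
    have a1 := h1 w
    have a2 := h2 w
    rw [coeff_add', coeff_smul'] at a0 a1 a2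
    by_cases hw : w ∈ S
    · rw [res_coeff_not_mem (by simpa using hw)]
      linarith
    · rw [res_coeff_mem (by simpa using hw)]
      rw [hS] at hw
      simp only [Set.mem_ofPred_eq, not_and_or, not_le] at hw
      rcases hw with hw | hw | hw <;> linarith
  have := mass_mono hle
  rw [mass_smul, mass_add, mass_add] at this
  exact this

end trc2

theorem bl_res_le {S : Set Wd} {a b : Al} {C : ℝ} (h : Le a (C • b)) :
    mass (res S a) ≤ C * mass (res S b) := by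
  rw [← mass_smul]
  refine mass_mono ?_
  intro w
  rw [coeff_smul']
  by_cases hw : w ∈ S
  · rw [res_coeff_mem hw, res_coeff_mem hw]
    have := h w
    rwa [coeff_smul'] at this
  · rw [res_coeff_not_mem hw, res_coeff_not_mem hw, mul_zero]

theorem bl_dst_length (a b : ℕ) : (dst a b).length = 2 * (a + b) + 1 := by
  unfold dst
  rw [str_length]
  simp [List.count_append, List.count_replicate]

theorem bl_dst_ne {h : ℕ} (hh : 1 ≤ h) : dst (h + 1) (h - 1) ≠ dst (h - 1) (h + 1) := by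
  intro hcon
  unfold dst at hcon
  have h1 := str_injective hcon
  have h2 := congrArg (fun l => l[h - 1]?) h1
  have h3 : (List.replicate (h + 1) false ++ true :: List.replicate (h - 1) false)[h - 1]? =
      some false := by
    rw [List.getElem?_append_left (by simp)]
    simp
  have h4 : (List.replicate (h - 1) false ++ true :: List.replicate (h + 1) false)[h - 1]? =
      some true := by
    rw [List.getElem?_append_right (by simp)]
    simp
  simp only [h3, h4] at h2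
  exact absurd h2 (by simp)

theorem bl_slip_raise {V : Al} {om : ℝ} (hV : Prb V) {J J' : ℕ} (hJ : J ≤ J')
    (h : Slip V J om) : Slip V J' om := by
  induction J' with
  | zero =>
    have : J = 0 := by omega
    rwa [this] at h
  | succ n ih =>
    rcases Nat.lt_or_ge n J with h1 | h1
    · have : J = n + 1 := by omega
      rwa [this] at h
    · exact Slip.succ hV (ih h1)

/-- the data at one scale -/
theorem bl_dat {q : ℝ} (hq0 : 0 < q) (hq1 : q < 1) {C1 C2 c om : ℝ} {h J : ℕ} (hC2 : 1 ≤ C2)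
    (hc : 0 < c) (hh : 2 ≤ h)
    (hcost1 : Cost ((1 / 2 : ℝ) • (Fl q (dst (h + 1) (h - 1)) - Fl q (dst (h - 1) (h + 1))))
      (Fl q [false, true] ^ (2 * h + 1)) (C1 / ((h : ℝ) * √h)))
    (hcost2 : Cost ((1 / 2 : ℝ) • (Fl q (dst (h + 1) (h - 1)) + Fl q (dst (h - 1) (h + 1)))
        - Fl q (dst h h))
      (Fl q [false, true] ^ (2 * h + 1)) (C1 / ((h : ℝ) ^ 2 * √h)))
    (hdom : ∀ a b : ℕ, 1 ≤ a → 1 ≤ b →
      Le (Fl q (dst a b)) (C2 • Fl q [false, true] ^ (a + b + 1)) ∧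
      ∃ E : Al, Pos E ∧ mass E ≤ Real.exp (-c * b) / c ∧
        Le (Fl q [false, true] ^ (a + b + 1)) (C2 • Fl q (dst a b) + E))
    (hJ : J ≤ h) (hs : Slip (Fl q (dst h h)) J om) {a0 a b1 b2 B : ℝ}
    (n1 : (4 * h + 1 : ℝ) ≤ (h : ℝ) ^ a) (n2 : (h : ℝ) ^ a0 ≤ (h : ℝ) + 1)
    (n3 : (h : ℝ) + 1 ≤ (h : ℝ) ^ a)
    (n4 : 2 * C2 * (C1 / ((h : ℝ) * √h)) ≤ (h : ℝ) ^ (-b1))
    (n5 : 2 * C2 * (C1 / ((h : ℝ) ^ 2 * √h)) ≤ (h : ℝ) ^ (-b2))
    (n6 : 3 * (6 * C2 / c * Real.exp (-c * ((h : ℝ) - 1))) ≤ (h : ℝ) ^ (-B))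
    (n7 : 2 * (2 * C2 ^ 2) * (6 * C2 / c * Real.exp (-c * ((h : ℝ) - 1))) ≤ 1) :
    Dat q h a0 a b1 b2 (2 * (2 * C2 ^ 2)) om B := by
  have hC0 : 0 ≤ C2 := by linarith
  obtain ⟨d0, E0, pE0, mE0, l0⟩ := hdom h h (by omega) (by omega)
  obtain ⟨d1, E1, pE1, mE1, l1⟩ := hdom (h + 1) (h - 1) (by omega) (by omega)
  obtain ⟨d2, E2, pE2, mE2, l2⟩ := hdom (h - 1) (h + 1) (by omega) (by omega)
  have i0 : h + h + 1 = 2 * h + 1 := by omega
  have i1 : h + 1 + (h - 1) + 1 = 2 * h + 1 := by omega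
  have i2 : h - 1 + (h + 1) + 1 = 2 * h + 1 := by omega
  rw [i0] at d0 l0
  rw [i1] at d1 l1
  rw [i2] at d2 l2
  set R := Fl q [false, true] ^ (2 * h + 1) with hR
  set X0 := Fl q (dst h h) with hX0
  set X1 := Fl q (dst (h + 1) (h - 1)) with hX1
  set X2 := Fl q (dst (h - 1) (h + 1)) with hX2
  have pR : Prb R := (Fl_prb hq0 hq1 _).pow _
  have p0 : Prb X0 := Fl_prb hq0 hq1 _
  have p1 : Prb X1 := Fl_prb hq0 hq1 _
  have p2 : Prb X2 := Fl_prb hq0 hq1 _
  set S : Set Wd := {w | R.coeff w ≤ 2 * C2 * X0.coeff w ∧ R.coeff w ≤ 2 * C2 * X1.coeff w ∧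
      R.coeff w ≤ 2 * C2 * X2.coeff w} with hS
  have hbad := bl_bad pE0 pE1 pE2 l0 l1 l2 hS
  set x := Real.exp (-c * ((h : ℝ) - 1)) with hx
  have hx0 : 0 < x := Real.exp_pos _
  have hh1 : (1 : ℝ) ≤ h := by
    have : 1 ≤ h := by omega
    exact_mod_cast this
  have hcx : ∀ b : ℕ, (h : ℝ) - 1 ≤ b → Real.exp (-c * b) / c ≤ x / c := by
    intro b hb
    refine div_le_div_of_nonneg_right ?_ hc.le
    rw [hx, Real.exp_le_exp]
    nlinarith
  have hE : mass E0 + mass E1 + mass E2 ≤ 3 * (x / c) := by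
    have k0 := hcx h (by linarith)
    have k1 := hcx (h - 1) (by rw [Nat.cast_sub (by omega)]; push_cast; linarith)
    have k2 := hcx (h + 1) (by push_cast; linarith)
    linarith
  set eta := 6 * C2 / c * x with heta
  have hRbad : mass (res Sᶜ R) ≤ 6 * (x / c) := by linarith
  have hetaeq : eta = C2 * (6 * (x / c)) := by rw [heta]; ring
  have hb : ∀ X : Al, Le X (C2 • R) → mass (res Sᶜ X) ≤ eta := by
    intro X hX
    refine (bl_res_le hX).trans ?_
    rw [hetaeq]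
    exact mul_le_mul_of_nonneg_left hRbad hC0
  have hcomp : ∀ X Y : Al, Le X (C2 • R) → (∀ w ∈ S, R.coeff w ≤ 2 * C2 * Y.coeff w) →
      ∀ w ∈ S, X.coeff w ≤ 2 * C2 ^ 2 * Y.coeff w := by
    intro X Y hX hY w hw
    have k1 := hX w
    rw [coeff_smul'] at k1
    have k2 := mul_le_mul_of_nonneg_left (hY w hw) hC0
    have k3 : C2 * (2 * C2 * Y.coeff w) = 2 * C2 ^ 2 * Y.coeff w := by ring
    linarith
  have s0 : ∀ w ∈ S, R.coeff w ≤ 2 * C2 * X0.coeff w := fun w hw => hw.1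
  have s1 : ∀ w ∈ S, R.coeff w ≤ 2 * C2 * X1.coeff w := fun w hw => hw.2.1
  have s2 : ∀ w ∈ S, R.coeff w ≤ 2 * C2 * X2.coeff w := fun w hw => hw.2.2
  have hlam : (1 : ℝ) ≤ 2 * C2 ^ 2 := by nlinarith
  obtain ⟨t1, t2, t3, t4⟩ := bl_trc p0 p1 hlam (hcomp X1 X0 d1 s0) (hcomp X0 X1 d0 s1)
    (hb X0 d0) (hb X1 d1) n7
  obtain ⟨u1, u2, u3, u4⟩ := bl_trc p0 p2 hlam (hcomp X2 X0 d2 s0) (hcomp X0 X2 d0 s2)
    (hb X0 d0) (hb X2 d2) n7
  refine ⟨dst h h, dst (h + 1) (h - 1), dst (h - 1) (h + 1), X0, trc S X0 X1, trc S X0 X2, h,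
    ?_, ?_, bl_dst_ne (by omega), ?_, ?_, ?_, p0, t1, u1, t2, t3, u2, u3,
    bl_slip_raise p0 hJ hs, ?_, ?_, ?_, ?_, ?_⟩
  · rw [bl_dst_length, bl_dst_length]; omega
  · rw [bl_dst_length, bl_dst_length]; omega
  · rw [bl_dst_length]; push_cast; linarith
  · exact n2
  · exact n3
  · have k1 := res_center_cost (S := S) p0 pR.pos (by positivity : (0 : ℝ) ≤ 2 * C2) s0 hcost1
    have k2 : (1 / 2 : ℝ) • (trc S X0 X1 - trc S X0 X2) =
        res S ((1 / 2 : ℝ) • (X1 - X2)) - mass (res S ((1 / 2 : ℝ) • (X1 - X2))) • X0 := by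
      rw [trc_sub, res_smul, mass_smul]
      module
    rw [k2]
    exact k1.mono n4
  · have k1 := res_center_cost (S := S) p0 pR.pos (by positivity : (0 : ℝ) ≤ 2 * C2) s0 hcost2
    have k2 : (1 / 2 : ℝ) • (X1 + X2) - X0 = (1 / 2 : ℝ) • ((X1 - X0) + (X2 - X0)) := by
      module
    have k3 : (1 / 2 : ℝ) • (trc S X0 X1 + trc S X0 X2) - X0 =
        res S ((1 / 2 : ℝ) • (X1 + X2) - X0) -
          mass (res S ((1 / 2 : ℝ) • (X1 + X2) - X0)) • X0 := by
      rw [k2, res_smul, mass_smul, res_add, mass_add]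
      unfold trc
      module
    rw [k3]
    exact k1.mono n5
  · rw [← hX0, sub_self, nm_zero]
    positivity
  · exact t4.trans n6
  · exact u4.trans n6

/-! ### asymptotics -/

theorem bl_rpow_ge {d : ℝ} (hd : 0 < d) (K : ℝ) : ∀ᶠ h : ℕ in atTop, K ≤ (h : ℝ) ^ d :=
  ((tendsto_rpow_atTop hd).comp tendsto_natCast_atTop_atTop).eventually_ge_atTop K

theorem bl_exp_small {c : ℝ} (hc : 0 < c) (K B : ℝ) (hK : 0 < K) :
    ∀ᶠ h : ℕ in atTop, K * Real.exp (-c * ((h : ℝ) - 1)) ≤ (h : ℝ) ^ (-B) := by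
  have h1 := (tendsto_rpow_mul_exp_neg_mul_atTop_nhds_zero B c hc).comp
    (tendsto_natCast_atTop_atTop (R := ℝ))
  have h2 : ∀ᶠ h : ℕ in atTop, (h : ℝ) ^ B * Real.exp (-c * (h : ℝ)) < 1 / (K * Real.exp c) :=
    h1.eventually_lt_const (by positivity)
  filter_upwards [h2, eventually_ge_atTop 1] with h h3 h4
  have hh : (0 : ℝ) < h := by
    have : 0 < h := by omega
    exact_mod_cast this
  have hB : 0 < (h : ℝ) ^ B := Real.rpow_pos_of_pos hh _
  rw [Real.rpow_neg hh.le, ← one_div, le_div_iff₀ hB]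
  have e1 : Real.exp (-c * ((h : ℝ) - 1)) = Real.exp c * Real.exp (-c * h) := by
    rw [← Real.exp_add]; congr 1; ring
  rw [e1]
  rw [lt_div_iff₀ (by positivity)] at h3
  calc K * (Real.exp c * Real.exp (-c * h)) * (h : ℝ) ^ B =
      (h : ℝ) ^ B * Real.exp (-c * h) * (K * Real.exp c) := by ring
    _ ≤ 1 := h3.le

theorem bl_cost_small {d C : ℝ} (hd : 0 < d) {h : ℕ} (hh : 1 ≤ h) (hC : C ≤ (h : ℝ) ^ d) :
    C / ((h : ℝ) * √h) ≤ (h : ℝ) ^ (-(3 / 2 - d)) ∧
      C / ((h : ℝ) ^ 2 * √h) ≤ (h : ℝ) ^ (-(5 / 2 - d)) := by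
  have hh0 : (0 : ℝ) < h := by
    have : 0 < h := by omega
    exact_mod_cast this
  have _ := hd
  have e1 : (h : ℝ) * √h = (h : ℝ) ^ (3 / 2 : ℝ) := by
    rw [Real.sqrt_eq_rpow]
    nth_rewrite 1 [← Real.rpow_one (h : ℝ)]
    rw [← Real.rpow_add hh0]
    norm_num
  have e2 : (h : ℝ) ^ 2 * √h = (h : ℝ) ^ (5 / 2 : ℝ) := by
    rw [Real.sqrt_eq_rpow]
    rw [← Real.rpow_natCast, ← Real.rpow_add hh0]
    norm_num
  constructor
  · rw [e1, div_le_iff₀ (Real.rpow_pos_of_pos hh0 _), ← Real.rpow_add hh0]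
    have : -(3 / 2 - d) + 3 / 2 = d := by ring
    rw [this]; exact hC
  · rw [e2, div_le_iff₀ (Real.rpow_pos_of_pos hh0 _), ← Real.rpow_add hh0]
    have : -(5 / 2 - d) + 5 / 2 = d := by ring
    rw [this]; exact hC

theorem base_lev {q : ℝ} (hq0 : 0 < q) (hq1 : q < 1) : Lev q 1 (3 / 2) (5 / 2) := by
  intro d B hd
  obtain ⟨C1, hC1, hcost⟩ := base_cost hq0 hq1
  obtain ⟨C2, c, hC2, hc, hdom⟩ := base_dom hq0 hq1
  obtain ⟨om, hom0, hom1, h0, hslip⟩ := base_slip hq0 hq1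
  refine ⟨2 * (2 * C2 ^ 2), om, by nlinarith, hom0, hom1, ?_⟩
  have hC20 : 0 < C2 := by linarith
  filter_upwards [eventually_ge_atTop h0, eventually_ge_atTop 2, bl_rpow_ge hd 5,
    bl_rpow_ge hd (2 * C2 * C1), bl_exp_small hc (3 * (6 * C2 / c)) B (by positivity),
    bl_exp_small hc (2 * (2 * C2 ^ 2) * (6 * C2 / c)) 0 (by positivity)] with h a1 a2 a3 a4 a5 a6
  obtain ⟨J, hJ, hs⟩ := hslip h a1
  obtain ⟨b1, b2⟩ := hcost h a2
  have hh0 : (0 : ℝ) < h := by
    have : 0 < h := by omega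
    exact_mod_cast this
  have hh1 : (1 : ℝ) ≤ h := by
    have : 1 ≤ h := by omega
    exact_mod_cast this
  have hpow : (5 : ℝ) * h ≤ (h : ℝ) ^ (1 + d) := by
    rw [Real.rpow_add hh0, Real.rpow_one, mul_comm]
    exact mul_le_mul_of_nonneg_left a3 hh0.le
  obtain ⟨c1, c2⟩ := bl_cost_small hd (by omega : 1 ≤ h) a4
  refine bl_dat hq0 hq1 hC2 hc a2 b1 b2 hdom hJ hs ?_ ?_ ?_ ?_ ?_ ?_ ?_
  · linarith
  · have : (h : ℝ) ^ (1 - d) ≤ (h : ℝ) ^ (1 : ℝ) :=
      Real.rpow_le_rpow_of_exponent_le hh1 (by linarith)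
    rw [Real.rpow_one] at this
    linarith
  · linarith
  · rw [← mul_div_assoc]; exact c1
  · rw [← mul_div_assoc]; exact c2
  · rw [← mul_assoc]; exact a5
  · rw [← mul_assoc]
    rw [neg_zero, Real.rpow_zero] at a6
    exact a6

end Vale.Agent.P321.Sup
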