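import Vale.Agent.P321.Sup.Cst
import Vale.Agent.P321.TwoPoint

/-!
Blueprint module Law: the law of the trace as an element of the algebra; lower bound for `T`.
-/

namespace Vale.Agent.P321.Sup

/-- law of the trace of the string `l` -/
noncomputable def Fl (q : ℝ) (l : List Bool) : Al :=
  (l.map (fun b => q • (1 : Al) + (1 - q) • MonoidAlgebra.single (FreeMonoid.of b) (1 : ℝ))).prod

theorem Fl_nil (q : ℝ) : Fl q [] = 1 := by simp [Fl]

theorem Fl_cons (q : ℝ) (b : Bool) (l : List Bool) : Fl q (b :: l) =
    (q • (1 : Al) + (1 - q) • MonoidAlgebra.single (FreeMonoid.of b) (1 : ℝ)) * Fl q l := by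
  simp [Fl]

theorem Fl_append (q : ℝ) (l l' : List Bool) : Fl q (l ++ l') = Fl q l * Fl q l' := by
  simp [Fl]

theorem Fl_flatten_replicate (q : ℝ) (l : List Bool) (n : ℕ) :
    Fl q (List.replicate n l).flatten = Fl q l ^ n := by
  induction n with
  | zero => simp [Fl_nil]
  | succ n ih => rw [List.replicate_succ, List.flatten_cons, Fl_append, ih, pow_succ']

theorem Pos.single {w : Wd} {r : ℝ} (hr : 0 ≤ r) : Pos (MonoidAlgebra.single w r) := by
  intro v
  classical
  rw [← ev_indicator, ev_single]
  split_ifs <;> simp [hr]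

theorem Fl_prb {q : ℝ} (hq0 : 0 < q) (hq1 : q < 1) (l : List Bool) : Prb (Fl q l) := by
  unfold Fl
  apply Prb.list_prod
  intro a ha
  rw [List.mem_map] at ha
  obtain ⟨b, _, rfl⟩ := ha
  refine ⟨?_, ?_⟩
  · exact (Pos.one.smul hq0.le).add ((Pos.single zero_le_one).smul (by linarith))
  · rw [mass_add, mass_smul, mass_smul, mass_one]
    have : mass (MonoidAlgebra.single (FreeMonoid.of b) (1 : ℝ)) = 1 := by
      unfold mass
      rw [ev_single]
      norm_num
    rw [this]
    ring

theorem ev_Fl (q : ℝ) (l : List Bool) (f : Wd → ℝ) :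
    ev f (Fl q l) = Etr q l (fun t => f (FreeMonoid.ofList t)) := by
  induction l generalizing f with
  | nil =>
    rw [Fl_nil, ev_one]
    simp [Etr]
  | cons b l ih =>
    rw [Fl_cons, add_mul, smul_mul_assoc, smul_mul_assoc, one_mul, ev_add, ev_smul, ev_smul, ih,
      ev_mul, ev_single, one_mul, ih]
    rfl

theorem T_ge {q : ℝ} (hq0 : 0 < q) (hq1 : q < 1) (l l' : List Bool)
    (hlen : l.length = l'.length) (hne : l ≠ l') {n : ℕ} (hn : l.length ≤ n) :
    1 / 9 ≤ (T q n : ℝ) * nm (Fl q l - Fl q l') := by
  classical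
  set S : Finset Wd := (Fl q l).coeff.support ∪ (Fl q l').coeff.support with hS
  have hp := Fl_prb hq0 hq1 l
  have hp' := Fl_prb hq0 hq1 l'
  have hev : ∀ (a : Al) (f : Wd → ℝ), a.coeff.support ⊆ S →
      ev f a = ∑ w : {w // w ∈ S}, a.coeff w * f w := by
    intro a f ha
    rw [ev_eq_sum]
    rw [Finset.sum_coe_sort S (fun w => a.coeff w * f w)]
    apply Finset.sum_subset ha
    intro w _ hw
    rw [Finsupp.notMem_support_iff.mp hw, zero_mul]
  have h1 : (Fl q l).coeff.support ⊆ S := Finset.subset_union_left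
  have h2 : (Fl q l').coeff.support ⊆ S := Finset.subset_union_right
  have key := lower_T hq0 hq1 l l' hlen hne (Ω := {w // w ∈ S})
    (fun w => (Fl q l).coeff w) (fun w => (Fl q l').coeff w) (fun w => hp.pos w)
    (fun w => hp'.pos w) (fun w => FreeMonoid.toList (w : Wd))
    (by
      intro g
      have := ev_Fl q l (fun w => g (FreeMonoid.toList w))
      rw [hev _ _ h1] at this
      exact this.symm)
    (by
      intro g
      have := ev_Fl q l' (fun w => g (FreeMonoid.toList w))
      rw [hev _ _ h2] at this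
      exact this.symm) hn
  have hm : ∑ w : {w // w ∈ S}, (Fl q l).coeff w = 1 := by
    have := hp.mass
    unfold mass at this
    rw [hev _ _ h1] at this
    simpa using this
  have hm' : ∑ w : {w // w ∈ S}, (Fl q l').coeff w = 1 := by
    have := hp'.mass
    unfold mass at this
    rw [hev _ _ h2] at this
    simpa using this
  have hnm : nm (Fl q l - Fl q l') =
      ∑ w : {w // w ∈ S}, |(Fl q l).coeff w - (Fl q l').coeff w| := by
    unfold nm
    rw [Finset.sum_coe_sort S (fun w => |(Fl q l).coeff w - (Fl q l').coeff w|)]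
    rw [Finsupp.sum]
    have hsub : (Fl q l - Fl q l').coeff.support ⊆ S := by
      intro w hw
      rw [Finsupp.mem_support_iff, coeff_sub'] at hw
      rw [hS, Finset.mem_union, Finsupp.mem_support_iff, Finsupp.mem_support_iff]
      by_contra hcon
      push Not at hcon
      rw [hcon.1, hcon.2] at hw
      simp at hw
    rw [Finset.sum_subset hsub]
    · apply Finset.sum_congr rfl
      intro w _
      rw [coeff_sub']
    · intro w _ hw
      rw [Finsupp.notMem_support_iff.mp hw, abs_zero]
  have hle : 1 - ∑ w : {w // w ∈ S}, √((Fl q l).coeff w * (Fl q l').coeff w) ≤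
      1 / 2 * nm (Fl q l - Fl q l') := by
    have e1 : 1 - ∑ w : {w // w ∈ S}, √((Fl q l).coeff w * (Fl q l').coeff w) =
        ∑ w : {w // w ∈ S}, (((Fl q l).coeff w + (Fl q l').coeff w) / 2 -
          √((Fl q l).coeff w * (Fl q l').coeff w)) := by
      rw [Finset.sum_sub_distrib, ← Finset.sum_div, Finset.sum_add_distrib, hm, hm']
      norm_num
    rw [hnm, Finset.mul_sum, e1]
    apply Finset.sum_le_sum
    intro w _
    have ha := hp.pos w
    have hb := hp'.pos w
    set a := (Fl q l).coeff (w : Wd) with hadef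
    set b := (Fl q l').coeff (w : Wd) with hbdef
    rcases le_total a b with hab | hab
    · have h3 : a ≤ √(a * b) := by
        apply Real.le_sqrt_of_sq_le
        nlinarith
      rw [abs_of_nonpos (by linarith)]
      linarith
    · have h3 : b ≤ √(a * b) := by
        apply Real.le_sqrt_of_sq_le
        nlinarith
      rw [abs_of_nonneg (by linarith)]
      linarith
  have hT0 : (0 : ℝ) ≤ (T q n : ℝ) := Nat.cast_nonneg _
  have := mul_le_mul_of_nonneg_left hle hT0
  linarith

end Vale.Agent.P321.Sup
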