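import Vale.Agent.P321.Kern

/-!
Module OverlapCount: overlap of the laws of the number of surviving blocks.
-/

namespace Vale.Agent.P321.Sup

open Polynomial

/-- lower bound for the law of the number of surviving blocks in a window -/
theorem conv_lower {δ : ℝ} (hδ : 0 < δ) (A : ℝ) : ∃ c : ℝ, 0 < c ∧ ∃ n₀ : ℕ,
    ∀ (a D M : ℕ) (s sY : ℝ), n₀ ≤ a → δ ≤ s → s ≤ 1 - δ → 0 ≤ sY → sY ≤ 1 → D ≤ M →
    |(M : ℝ) - s * a| + D ≤ A * √(a : ℝ) → c / √(a : ℝ) ≤ (w s ^ a * w sY ^ D).coeff M := by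
  obtain ⟨c, hc, n₀, hw⟩ := w_pow_coeff_ge hδ A
  refine ⟨c, hc, n₀, ?_⟩
  intro a D M s sY ha hs0 hs1 hY0 hY1 hDM hM
  have hQ : ∀ i, 0 ≤ (w sY ^ D).coeff i := coeff_pow_nonneg _ (w_coeff_nonneg hY0 hY1) _
  rw [mul_comm, coeff_mul,
    Finset.Nat.sum_antidiagonal_eq_sum_range_succ
      (fun i j => (w sY ^ D).coeff i * (w s ^ a).coeff j)]
  have hdeg : (w sY ^ D).natDegree < D + 1 := by
    have h1 : (w sY).natDegree ≤ 1 := by
      unfold w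
      refine (natDegree_add_le _ _).trans ?_
      rw [natDegree_C]
      refine max_le (by norm_num) ?_
      exact (natDegree_C_mul_le _ _).trans natDegree_X_le
    have h2 := natDegree_pow_le (p := w sY) (n := D)
    have h3 : D * (w sY).natDegree ≤ D * 1 := Nat.mul_le_mul_left _ h1
    omega
  have hsum : ∑ i ∈ Finset.range (D + 1), (w sY ^ D).coeff i = 1 := by
    have h1 := l1_w_pow hY0 hY1 D
    rw [l1_eq_sum _ (D + 1) hdeg] at h1
    rw [← h1]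
    apply Finset.sum_congr rfl
    intro i _
    rw [abs_of_nonneg (hQ i)]
  have hsub : Finset.range (D + 1) ⊆ Finset.range M.succ := by
    intro i hi
    rw [Finset.mem_range] at hi ⊢
    omega
  have hPa : ∀ i, 0 ≤ (w s ^ a).coeff i :=
    coeff_pow_nonneg _ (w_coeff_nonneg (by linarith) (by linarith)) _
  refine le_trans ?_ (Finset.sum_le_sum_of_subset_of_nonneg hsub
    (fun i _ _ => mul_nonneg (hQ i) (hPa _)))
  have hterm : ∀ i ∈ Finset.range (D + 1), (w sY ^ D).coeff i * (c / √(a : ℝ)) ≤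
      (w sY ^ D).coeff i * (w s ^ a).coeff (M - i) := by
    intro i hi
    rw [Finset.mem_range] at hi
    apply mul_le_mul_of_nonneg_left _ (hQ i)
    apply hw a ha s hs0 hs1
    have hiM : i ≤ M := by omega
    rw [Nat.cast_sub hiM]
    refine le_trans ?_ hM
    have hiD : (i : ℝ) ≤ D := by exact_mod_cast (by omega : i ≤ D)
    have hi0 : (0 : ℝ) ≤ i := Nat.cast_nonneg i
    have h1 : (M : ℝ) - i - s * a = ((M : ℝ) - s * a) - i := by ring
    rw [h1]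
    refine (abs_sub _ _).trans ?_
    rw [abs_of_nonneg hi0]
    linarith
  refine le_trans ?_ (Finset.sum_le_sum hterm)
  rw [← Finset.sum_mul, hsum, one_mul]

theorem oc_lo {c1 h J J' : ℝ} (hh : 0 ≤ h) (h1 : c1 * h / 2 ≤ J) (h2 : J ≤ J') :
    c1 * h ^ 2 ≤ 2 * h * J' := by
  have h3 : c1 * h / 2 ≤ J' := h1.trans h2
  have h4 := mul_le_mul_of_nonneg_left h3 hh
  linarith [h4]

theorem oc_up {c1 h J J' : ℝ} (hh : 1 ≤ h) (h1 : J ≤ c1 * h) (h2 : J' ≤ J + 1) :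
    2 * h * J' ≤ 2 * (c1 + 1) * h ^ 2 := by
  have h3 : J' ≤ (c1 + 1) * h := by linarith
  have h4 := mul_le_mul_of_nonneg_left h3 (by linarith : 0 ≤ 2 * h)
  linarith [h4]

theorem oc_win {s c1 h J J' M m0 : ℝ} (hc1 : 0 < c1) (hs0 : 0 ≤ s) (hs1 : s ≤ 1) (hh : 1 ≤ h)
    (h1 : J ≤ c1 * h) (h2 : J ≤ J') (h3 : J' ≤ J + 1)
    (h4 : s * (2 * h * J) ≤ m0) (h5 : m0 ≤ s * (2 * h * J) + 1) (h6 : m0 ≤ M)
    (h7 : M + 1 ≤ m0 + h) :
    |M - s * (2 * h * J')| + J' ≤ (6 + 2 * c1) * h := by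
  have hc1h : J ≤ c1 * h := h1
  have a1 : s * (2 * h * J) ≤ s * (2 * h * J') :=
    mul_le_mul_of_nonneg_left (mul_le_mul_of_nonneg_left h2 (by linarith)) hs0
  have a2 : s * (2 * h * J') ≤ s * (2 * h * J) + 2 * h := by
    have b1 : s * (2 * h * (J' - J)) ≤ 1 * (2 * h * 1) := by
      refine mul_le_mul hs1 (mul_le_mul_of_nonneg_left (by linarith) (by linarith))
        (mul_nonneg (by linarith) (by linarith)) (by norm_num)
    linarith [b1]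
  have a3 : |M - s * (2 * h * J')| ≤ 3 * h := by
    rw [abs_le]; constructor <;> linarith
  have a4 : J' ≤ c1 * h + h := by linarith
  have a5 : (0 : ℝ) ≤ h := by linarith
  have a6 : |M - s * (2 * h * J')| + J' ≤ 4 * h + c1 * h := by linarith
  have a7 : 0 ≤ c1 * h := mul_nonneg hc1.le a5
  linarith

theorem oc_key {δ s sY c1 c A R : ℝ} {n₀ h J J' m0 M : ℕ} (hc : 0 < c) (hc1 : 0 < c1)
    (hA : A = (6 + 2 * c1) / √c1) (hR : R = √(2 * (c1 + 1))) (hδs0 : δ ≤ s) (hδs1 : s ≤ 1 - δ)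
    (hs0 : 0 ≤ s) (hs1 : s ≤ 1) (hY0 : 0 ≤ sY) (hY1 : sY ≤ 1) (hh1 : (1 : ℝ) ≤ h)
    (hJ1 : c1 * h / 2 ≤ J) (hJ2 : (J : ℝ) ≤ c1 * h) (he1 : 2 * (n₀ : ℝ) ≤ c1 * h)
    (hm0l : s * (2 * h * J) ≤ m0) (hm0u : (m0 : ℝ) ≤ s * (2 * h * J) + 1)
    (hshJ : (1 + c1 + 1) * h ≤ s * (2 * h * J))
    (hconv : ∀ (a D M : ℕ) (s sY : ℝ), n₀ ≤ a → δ ≤ s → s ≤ 1 - δ → 0 ≤ sY → sY ≤ 1 → D ≤ M →
      |(M : ℝ) - s * a| + D ≤ A * √(a : ℝ) → c / √(a : ℝ) ≤ (w s ^ a * w sY ^ D).coeff M)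
    (hJJ' : J ≤ J') (hJ'J : J' ≤ J + 1) (hM1 : m0 ≤ M) (hM2 : M + 1 ≤ m0 + h) :
    c / R / h ≤ (w s ^ (2 * h * J') * w sY ^ J').coeff M := by
  have hcast : ((2 * h * J' : ℕ) : ℝ) = 2 * h * J' := by push_cast; ring
  have hM1r : (m0 : ℝ) ≤ M := by exact_mod_cast hM1
  have hM2r : (M : ℝ) + 1 ≤ m0 + h := by exact_mod_cast hM2
  have hJJ'r : (J : ℝ) ≤ J' := by exact_mod_cast hJJ'
  have hJ'Jr : (J' : ℝ) ≤ J + 1 := by exact_mod_cast hJ'J
  have hh0 : (0 : ℝ) ≤ h := by linarith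
  have hsc : 0 < √c1 := Real.sqrt_pos.2 hc1
  have hR0 : 0 < R := by rw [hR]; exact Real.sqrt_pos.2 (by positivity)
  have hlo := oc_lo hh0 hJ1 hJJ'r
  have hup := oc_up hh1 hJ2 hJ'Jr
  have hroot : √c1 * h ≤ √((2 * h * J' : ℕ) : ℝ) := by
    apply Real.le_sqrt_of_sq_le
    rw [mul_pow, Real.sq_sqrt hc1.le, hcast]
    exact hlo
  have hrootu : √((2 * h * J' : ℕ) : ℝ) ≤ R * h := by
    rw [Real.sqrt_le_left (by positivity), mul_pow, hR, Real.sq_sqrt (by positivity), hcast]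
    exact hup
  have hn0 : n₀ ≤ 2 * h * J' := by
    have h1 : (n₀ : ℝ) ≤ 2 * h * J' := by
      have h2 : c1 * h ≤ c1 * h ^ 2 := by
        refine mul_le_mul_of_nonneg_left ?_ hc1.le
        nlinarith
      have h3 : (0 : ℝ) ≤ n₀ := Nat.cast_nonneg _
      linarith
    have h2 : (n₀ : ℝ) ≤ ((2 * h * J' : ℕ) : ℝ) := by rw [hcast]; exact h1
    exact_mod_cast h2
  have hDM : J' ≤ M := by
    have h1 : (J' : ℝ) ≤ M := by
      have h2 : (1 + c1 + 1) * h = c1 * h + 2 * h := by ring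
      linarith
    exact_mod_cast h1
  have hwin : |(M : ℝ) - s * ((2 * h * J' : ℕ) : ℝ)| + J' ≤ A * √((2 * h * J' : ℕ) : ℝ) := by
    have h1 : (6 + 2 * c1) * h ≤ A * √((2 * h * J' : ℕ) : ℝ) := by
      have h2 : A * (√c1 * h) ≤ A * √((2 * h * J' : ℕ) : ℝ) :=
        mul_le_mul_of_nonneg_left hroot (by rw [hA]; positivity)
      have h3 : A * (√c1 * h) = (6 + 2 * c1) * h := by
        rw [hA]; field_simp
      linarith
    refine le_trans ?_ h1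
    rw [hcast]
    exact oc_win hc1 hs0 hs1 hh1 hJ2 hJJ'r hJ'Jr hm0l hm0u hM1r hM2r
  have h7 := hconv (2 * h * J') J' M s sY hn0 hδs0 hδs1 hY0 hY1 hDM hwin
  refine le_trans ?_ h7
  have h8 : 0 < √((2 * h * J' : ℕ) : ℝ) := lt_of_lt_of_le (by positivity) hroot
  rw [div_div]
  exact div_le_div_of_nonneg_left hc.le h8 hrootu

theorem oc_bulk {δ s h J m0 M : ℝ} (hδ0 : 0 < δ) (hδs : δ ≤ s / 3) (hδs' : δ ≤ (1 - s) / 2)
    (hh1 : 1 ≤ h) (hJ2 : 2 ≤ J) (hJ3 : 1 ≤ (1 - s) * J)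
    (hm0l : s * (2 * h * J) ≤ m0) (hm0u : m0 ≤ s * (2 * h * J) + 1)
    (hM1 : m0 ≤ M) (hM2 : M + 1 ≤ m0 + h) :
    δ * ((2 * h + 1) * (J + 1)) ≤ M ∧ M ≤ (1 - δ) * ((2 * h + 1) * J) := by
  have hhJ : 0 ≤ h * J := by nlinarith
  constructor
  · have h1 : (2 * h + 1) * (J + 1) ≤ 6 * (h * J) := by nlinarith
    have h2 : δ * ((2 * h + 1) * (J + 1)) ≤ s / 3 * (6 * (h * J)) :=
      mul_le_mul hδs h1 (by nlinarith) (by linarith)
    linarith
  · have h3 : (1 - δ) * (2 * h * J) ≤ (1 - δ) * ((2 * h + 1) * J) := by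
      refine mul_le_mul_of_nonneg_left (by linarith) (by linarith)
    have h5 : (1 - s) / 2 ≤ 1 - δ - s := by linarith
    have h6 : (1 - s) / 2 * (2 * h * J) ≤ (1 - δ - s) * (2 * h * J) :=
      mul_le_mul_of_nonneg_right h5 (by linarith)
    have h7 : h ≤ (1 - s) / 2 * (2 * h * J) := by
      have := mul_le_mul_of_nonneg_left hJ3 (by linarith : 0 ≤ h)
      linarith
    linarith

/-- overlap of the laws of the number of surviving blocks -/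
theorem overlap_count_pf {q : ℝ} (hq0 : 0 < q) (hq1 : q < 1) :
    ∃ δ : ℝ, 0 < δ ∧ ∀ c1 : ℝ, 0 < c1 →
    ∃ om : ℝ, 0 < om ∧ ∃ h0 : ℕ, ∀ (h J : ℕ), h0 ≤ h → c1 * h / 2 ≤ J →
      (J : ℝ) ≤ c1 * h → ∃ S : Finset ℕ,
      (∀ M ∈ S, δ * ((2 * h + 1) * (J + 1) : ℕ) ≤ M ∧
        (M : ℝ) ≤ (1 - δ) * ((2 * h + 1) * J : ℕ)) ∧
      om ≤ ∑ M ∈ S, min ((w (1 - q ^ 2) ^ (2 * h * J) * w (1 - q) ^ J).coeff M)
        ((w (1 - q ^ 2) ^ (2 * h * (J + 1)) * w (1 - q) ^ (J + 1)).coeff M) := by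
  set s : ℝ := 1 - q ^ 2 with hs
  have hq2 : 0 < q ^ 2 := by positivity
  have hq2' : q ^ 2 < 1 := by nlinarith
  have hs0 : 0 < s := by rw [hs]; linarith
  have hs1 : s < 1 := by rw [hs]; linarith
  set δ : ℝ := min (s / 3) ((1 - s) / 2) with hδ
  have hδ0 : 0 < δ := lt_min (by linarith) (by linarith)
  have hδs : δ ≤ s / 3 := min_le_left _ _
  have hδs' : δ ≤ (1 - s) / 2 := min_le_right _ _
  refine ⟨δ, hδ0, ?_⟩
  intro c1 hc1
  set A : ℝ := (6 + 2 * c1) / √c1 with hA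
  obtain ⟨c, hc, n₀, hconv⟩ := conv_lower hδ0 A
  set R : ℝ := √(2 * (c1 + 1)) with hR
  have hR0 : 0 < R := Real.sqrt_pos.2 (by positivity)
  refine ⟨c / R, by positivity, ?_⟩
  -- conditions for large h
  have ht : Filter.Tendsto (fun h : ℕ => c1 * (h : ℝ)) Filter.atTop Filter.atTop :=
    Filter.Tendsto.const_mul_atTop hc1 tendsto_natCast_atTop_atTop
  have hev := (ht.eventually_ge_atTop (2 * n₀ : ℝ)).and
    ((ht.eventually_ge_atTop (2 / s * (1 + c1 + 1) + 4 : ℝ)).and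
    ((ht.eventually_ge_atTop (2 / (1 - s) : ℝ)).and (Filter.eventually_ge_atTop 1)))
  obtain ⟨h0, hh0⟩ := hev.exists_forall_of_atTop
  refine ⟨h0, ?_⟩
  intro h J hh hJ1 hJ2
  obtain ⟨e1, e2, e3, e4⟩ := hh0 h hh
  have hh1 : (1 : ℝ) ≤ h := by exact_mod_cast e4
  have hhpos : (0 : ℝ) < h := by linarith
  have hJge2 : (2 : ℝ) ≤ J := by
    have : (0 : ℝ) ≤ 2 / s * (1 + c1 + 1) := by positivity
    linarith
  set m0 : ℕ := ⌈s * (2 * h * J : ℕ)⌉₊ with hm0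
  have hm0l : s * (2 * h * J) ≤ m0 := by
    have := Nat.le_ceil (s * ((2 * h * J : ℕ) : ℝ))
    push_cast at this
    rw [hm0]; push_cast; exact this
  have hm0u : (m0 : ℝ) ≤ s * (2 * h * J) + 1 := by
    have := (Nat.ceil_lt_add_one (a := s * ((2 * h * J : ℕ) : ℝ)) (by positivity)).le
    push_cast at this
    rw [hm0]; push_cast; exact this
  have hshJ : (1 + c1 + 1) * h ≤ s * (2 * h * J) := by
    have h1 : 2 / s * (1 + c1 + 1) ≤ 2 * J := by linarith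
    have h2 : 2 * (1 + c1 + 1) ≤ 2 * J * s := by
      have := mul_le_mul_of_nonneg_right h1 hs0.le
      have h3 : 2 / s * (1 + c1 + 1) * s = 2 * (1 + c1 + 1) := by field_simp
      linarith
    have h4 : (1 + c1 + 1) ≤ 2 * J * s := by linarith
    have := mul_le_mul_of_nonneg_right h4 hhpos.le
    linarith
  have hJ3 : 1 ≤ (1 - s) * J := by
    have h2 : 2 / (1 - s) ≤ 2 * J := by linarith
    rw [div_le_iff₀ (by linarith)] at h2
    linarith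
  refine ⟨Finset.Ico m0 (m0 + h), ?_, ?_⟩
  · intro M hM
    rw [Finset.mem_Ico] at hM
    have hM1 : (m0 : ℝ) ≤ M := by exact_mod_cast hM.1
    have hM2 : (M : ℝ) + 1 ≤ m0 + h := by exact_mod_cast hM.2
    push_cast
    exact oc_bulk hδ0 hδs hδs' hh1 hJge2 hJ3 hm0l hm0u hM1 hM2
  · have hsum : ∑ M ∈ Finset.Ico m0 (m0 + h), c / R / h = c / R := by
      rw [Finset.sum_const, Nat.card_Ico, nsmul_eq_mul]
      have : m0 + h - m0 = h := by omega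
      rw [this]
      field_simp
    rw [← hsum]
    refine Finset.sum_le_sum fun M hM => ?_
    rw [Finset.mem_Ico] at hM
    have k := fun (J' : ℕ) (a : J ≤ J') (b : J' ≤ J + 1) =>
      oc_key (sY := 1 - q) hc hc1 hA hR (by linarith) (by linarith) hs0.le hs1.le (by linarith)
        (by linarith) hh1 hJ1 hJ2 e1 hm0l hm0u hshJ hconv a b hM.1 hM.2
    exact le_min (k J le_rfl (by omega)) (k (J + 1) (by omega) le_rfl)

end Vale.Agent.P321.Sup
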