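import Vale.Agent.P321.FinalEta
import Vale.Agent.P321.Core
import Vale.Agent.P321.Reduction
import Vale.Agent.P321.Sup.BaseKern
import Vale.Agent.P321.Sup.BaseFock
import Vale.Agent.P321.Sup.BaseSliceTwo

/-!
Conditional closeness in every bulk slice (`slice_close` of the blueprint module BaseSlip).
-/

namespace Vale.Agent.P321.Sup

open scoped RealInnerProductSpace
open Polynomial

/-- exponential tilt to the survival probability `s` -/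
theorem scl_tilt {q : ℝ} (hq0 : 0 < q) (hq1 : q < 1) {s : ℝ} (hs0 : 0 < s) (hs1 : s < 1)
    (B : List Bool) (M : ℕ) : ∃ a : ℝ, 0 < a ∧ ∀ u : List Bool, u.length = M →
      coef (1 - q ^ 2) (1 - q) B u = a * coef s (tiltY q s) B u := by
  have hs00 : 0 < 1 - q ^ 2 := by nlinarith
  have hs01 : 1 - q ^ 2 < 1 := by nlinarith
  have h1s : 0 < 1 - s := by linarith
  obtain ⟨t, ht⟩ : ∃ t : ℝ, t = s * q ^ 2 / ((1 - q ^ 2) * (1 - s)) := ⟨_, rfl⟩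
  have ht0 : 0 < t := by rw [ht]; positivity
  have htilt1 : t * (1 - q ^ 2) / (1 - (1 - q ^ 2) + t * (1 - q ^ 2)) = s := by
    have hs00' : 1 - q ^ 2 ≠ 0 := hs00.ne'
    have hq' : q ≠ 0 := hq0.ne'
    have h1s' : 1 - s ≠ 0 := h1s.ne'
    have e0 : t * (1 - q ^ 2) = s * q ^ 2 / (1 - s) := by
      rw [ht]
      field_simp
    have e1 : 1 - (1 - q ^ 2) + s * q ^ 2 / (1 - s) = q ^ 2 / (1 - s) := by
      field_simp
      ring
    rw [e0, e1]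
    field_simp
  have htilt2 : t * (1 - q) / (1 - (1 - q) + t * (1 - q)) = tiltY q s := by
    rw [ht, tiltY]
    have e1 : (1 - q ^ 2) = (1 - q) * (1 + q) := by ring
    rw [e1]
    have h1q : (1 - q) ≠ 0 := by linarith
    have e2 : s * q ^ 2 / ((1 - q) * (1 + q) * (1 - s)) * (1 - q) =
        s * q ^ 2 / ((1 + q) * (1 - s)) := by
      field_simp
    rw [e2]
    have e3 : 1 - (1 - q) + s * q ^ 2 / ((1 + q) * (1 - s))
        = q * ((1 + q) * (1 - s) + s * q) / ((1 + q) * (1 - s)) := by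
      field_simp
      ring
    rw [e3]
    have h4 : 0 < (1 + q) * (1 - s) + s * q := by positivity
    have e4 : 1 - s + q / (1 + q) * s = ((1 + q) * (1 - s) + s * q) / (1 + q) := by
      field_simp
    rw [e4]
    field_simp
  obtain ⟨D, hD⟩ : ∃ D : ℝ, D = (1 - (1 - q ^ 2) + t * (1 - q ^ 2)) ^ B.count false *
    (1 - (1 - q) + t * (1 - q)) ^ B.count true := ⟨_, rfl⟩
  have hD0 : 0 < D := by
    have h1 : 0 < 1 - (1 - q ^ 2) + t * (1 - q ^ 2) := by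
      have h2 := mul_pos ht0 hs00
      have h3 : 0 < q ^ 2 := by positivity
      linarith
    have h2 : 0 < 1 - (1 - q) + t * (1 - q) := by
      have h3 := mul_pos ht0 (by linarith : 0 < 1 - q)
      linarith
    rw [hD]
    positivity
  refine ⟨D / t ^ M, by positivity, ?_⟩
  intro u hu
  have h := coef_tilt hs00.le hs01 (by linarith : (0 : ℝ) ≤ 1 - q) (by linarith) ht0 B u
  rw [htilt1, htilt2, hu, ← hD] at h
  rw [div_mul_eq_mul_div, eq_div_iff (by positivity), ← h]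
  ring

theorem scl_cst (P : ℝ) (M : ℕ) : cst P (List.replicate M false) = P := by
  induction M with
  | zero => rfl
  | succ M ih => rw [List.replicate_succ]; exact ih

/-- mean absolute deviation of a chaos -/
theorem scl_dev {q : ℝ} (hq0 : 0 < q) (hq1 : q < 1) (M : ℕ) (c : List Bool → ℝ) (p0 : ℝ)
    (hp0 : p0 = c (List.replicate M false)) :
    Ex (piX q) M (fun σ => |chaos (psi q) c σ - p0|) ≤ √(nsq (1 / q) M c - p0 ^ 2) := by
  have hsq : Ex (piX q) M (fun σ => (chaos (psi q) c σ - p0) ^ 2) = nsq (1 / q) M c - p0 ^ 2 := by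
    have h1 := Ex_chaos_sq (piX q) (psi q) (piX_sum hq0 hq1) (piX_psi hq0 hq1) M
      (fun u => c u - cst p0 u)
    rw [piX_psi_sq hq0 hq1, nsq_sub_cst _ p0 M c hp0.symm] at h1
    rw [← h1]
    refine Ex_congr _ _ _ _ fun σ _ => ?_
    rw [chaos_sub, chaos_cst]
  rw [← hsq]
  refine Real.le_sqrt_of_sq_le ?_
  -- Cauchy-Schwarz for the probability `piX`
  have hw : ∀ v : Fin M → Fin 3, 0 ≤ ∏ i, piX q (v i) := fun v =>
    Finset.prod_nonneg (fun i _ => piX_nonneg hq0 hq1 _)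
  have hone : ∑ v : Fin M → Fin 3, ∏ i, piX q (v i) = 1 := by
    have h1 := Ex_chaos (piX q) (psi q) (piX_sum hq0 hq1) (piX_psi hq0 hq1) M (cst 1)
    have h2 : Ex (piX q) M (fun σ => chaos (psi q) (cst 1) σ) = Ex (piX q) M (fun _ => 1) :=
      Ex_congr _ _ _ _ fun σ _ => chaos_cst _ _ _
    rw [h2] at h1
    unfold Ex at h1
    simp only [mul_one] at h1
    rw [h1, scl_cst]
  unfold Ex
  have hcs := Finset.sum_sq_le_sum_mul_sum_of_sq_le_mul (Finset.univ : Finset (Fin M → Fin 3))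
    (r := fun v => (∏ i, piX q (v i)) * |chaos (psi q) c (List.ofFn v) - p0|)
    (f := fun v => ∏ i, piX q (v i))
    (g := fun v => (∏ i, piX q (v i)) * (chaos (psi q) c (List.ofFn v) - p0) ^ 2)
    (fun v _ => hw v) (fun v _ => mul_nonneg (hw v) (sq_nonneg _))
    (fun v _ => le_of_eq (by rw [mul_pow, sq_abs]; ring))
  rw [hone, one_mul] at hcs
  exact hcs

/-- `J` periods -/
def scl_B (h J : ℕ) : List Bool := (List.replicate J (per h false)).flatten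

theorem scl_B_eq (h J : ℕ) : scl_B h J = (List.replicate J false).flatMap (per h) := by
  unfold scl_B List.flatMap
  rw [List.map_replicate]

theorem scl_B_true (h J : ℕ) : (scl_B h J).count true = J := by
  rw [scl_B_eq, fa_flat_true, List.length_replicate]

theorem scl_B_false {h : ℕ} (hh : 1 ≤ h) (J : ℕ) : (scl_B h J).count false = 2 * h * J := by
  rw [scl_B_eq, fa_flat_false hh, List.length_replicate]
  ring

theorem scl_B_add (h J J' : ℕ) : scl_B h (J + J') = scl_B h J ++ scl_B h J' := by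
  unfold scl_B
  rw [List.replicate_add, List.flatten_append]

theorem scl_W0 (s sY : ℝ) {h : ℕ} (hh : 1 ≤ h) (J : ℕ) :
    w s ^ (scl_B h J).count false * w sY ^ (scl_B h J).count true = W0 s sY h ^ J := by
  rw [scl_B_true, scl_B_false hh, W0, mul_pow, ← pow_mul]

theorem scl_aa {h J1 J2 J : ℕ} (hh : 1 ≤ h) (hJ : 1 ≤ J) (h1 : J ≤ 2 * (J1 + 1))
    (h2 : J ≤ 2 * (J2 + 1)) : aa h J1 * aa h J2 ≤ 2 / ((J : ℝ) * h) := by
  have hhr : (0 : ℝ) < h := by exact_mod_cast hh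
  have hJr : (0 : ℝ) < J := by exact_mod_cast hJ
  have h1r : (J : ℝ) / 2 ≤ (J1 : ℝ) + 1 := by
    have : (J : ℝ) ≤ 2 * ((J1 : ℝ) + 1) := by exact_mod_cast h1
    linarith
  have h2r : (J : ℝ) / 2 ≤ (J2 : ℝ) + 1 := by
    have : (J : ℝ) ≤ 2 * ((J2 : ℝ) + 1) := by exact_mod_cast h2
    linarith
  have hx : 0 < (J : ℝ) * h / 2 := by positivity
  have hsq : 0 < √((J : ℝ) * h / 2) := Real.sqrt_pos.mpr hx
  have e1 : aa h J1 ≤ 1 / √((J : ℝ) * h / 2) := by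
    unfold aa
    refine one_div_le_one_div_of_le hsq (Real.sqrt_le_sqrt ?_)
    calc (J : ℝ) * h / 2 = (J : ℝ) / 2 * h := by ring
      _ ≤ _ := mul_le_mul_of_nonneg_right h1r hhr.le
  have e2 : aa h J2 ≤ 1 / √((J : ℝ) * h / 2) := by
    unfold aa
    refine one_div_le_one_div_of_le hsq (Real.sqrt_le_sqrt ?_)
    calc (J : ℝ) * h / 2 = (J : ℝ) / 2 * h := by ring
      _ ≤ _ := mul_le_mul_of_nonneg_right h2r hhr.le
  calc aa h J1 * aa h J2 ≤ (1 / √((J : ℝ) * h / 2)) * (1 / √((J : ℝ) * h / 2)) :=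
        mul_le_mul e1 e2 (aa_nonneg _ _) (by positivity)
    _ = 1 / ((J : ℝ) * h / 2) := by
        rw [div_mul_div_comm, one_mul, Real.mul_self_sqrt hx.le]
    _ = 2 / ((J : ℝ) * h) := by field_simp

theorem scl_eps {κ C c : ℝ} (hκ0 : 0 < κ) (hC0 : 0 < C) (hc : 0 < c) :
    ∃ ε : ℝ, 0 < ε ∧ ε ≤ 1 ∧ 64 * (κ * C) * ε ≤ 1 ∧
      1179648 * (κ * C ^ 3) * ε ≤ c ^ 2 := by
  refine ⟨min 1 (min (1 / (64 * (κ * C))) (c ^ 2 / (1179648 * (κ * C ^ 3)))), ?_,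
    min_le_left _ _, ?_, ?_⟩
  · exact lt_min one_pos (lt_min (by positivity) (by positivity))
  · have h1 : min 1 (min (1 / (64 * (κ * C))) (c ^ 2 / (1179648 * (κ * C ^ 3)))) ≤
        1 / (64 * (κ * C)) := (min_le_right _ _).trans (min_le_left _ _)
    rw [le_div_iff₀ (by positivity)] at h1
    linarith
  · have h1 : min 1 (min (1 / (64 * (κ * C))) (c ^ 2 / (1179648 * (κ * C ^ 3)))) ≤
        c ^ 2 / (1179648 * (κ * C ^ 3)) := (min_le_right _ _).trans (min_le_right _ _)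
    rw [le_div_iff₀ (by positivity)] at h1
    linarith

/-- combination of the vacuum estimates -/
theorem scl_comb {κ κ' C ε r x y n1 n3 n5 n6 Z : ℝ} (hκ' : κ' ≤ κ) (hκ0 : 0 ≤ κ)
    (hC0 : 0 ≤ C) (hr : r ≤ ε) (hr0 : 0 ≤ r) (hε0 : 0 ≤ ε) (hx0 : 0 ≤ x) (hy0 : 0 ≤ y)
    (a1 : n1 ≤ 4 * C * x) (a3 : n3 ≤ 256 * (κ' * C ^ 2) * r * x)
    (b2 : n5 ≤ 32 * C * y) (b3 : n6 ≤ 256 * (κ' * C ^ 2) * r * y)
    (h5 : 0 ≤ n5) (h6 : 0 ≤ n6) (hZ : Z ≤ 2 * (n3 * n5) + 2 * (n1 * n6)) :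
    Z ≤ 18432 * (κ * C ^ 3) * ε * (x * y) := by
  have e1 : 256 * (κ' * C ^ 2) * r ≤ 256 * (κ * C ^ 2) * ε := by
    calc 256 * (κ' * C ^ 2) * r ≤ 256 * (κ * C ^ 2) * r := by
          refine mul_le_mul_of_nonneg_right ?_ hr0
          exact mul_le_mul_of_nonneg_left (mul_le_mul_of_nonneg_right hκ' (by positivity))
            (by norm_num)
      _ ≤ 256 * (κ * C ^ 2) * ε := mul_le_mul_of_nonneg_left hr (by positivity)
  have a3' := a3.trans (mul_le_mul_of_nonneg_right e1 hx0)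
  have b3' := b3.trans (mul_le_mul_of_nonneg_right e1 hy0)
  have t1 := mul_le_mul a3' b2 h5 (by positivity)
  have t2 := mul_le_mul a1 b3' h6 (by positivity)
  calc Z ≤ 2 * (n3 * n5) + 2 * (n1 * n6) := hZ
    _ ≤ 2 * (256 * (κ * C ^ 2) * ε * x * (32 * C * y)) +
        2 * (4 * C * x * (256 * (κ * C ^ 2) * ε * y)) := by linarith
    _ = _ := by ring

theorem scl_moment {κ C ε s sY p0 : ℝ} {h J M : ℕ} (hκ0 : 0 < κ) (hC : 1 ≤ C) (hε0 : 0 < ε)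
    (hε2 : 64 * (κ * C) * ε ≤ 1) (hh : 1 ≤ h) (hJnat : 2 ≤ J)
    (hJe : ((J : ℝ) + 1) ≤ ε ^ 2 * h) (hs0 : 0 ≤ s) (hs1 : s ≤ 1) (hY0 : 0 ≤ sY)
    (hYs : sY ≤ s) (hK : KBound s sY h J 1 (fun i => C * aa h i))
    (hp0 : p0 = coef s sY (scl_B h J) (List.replicate M false)) :
    nsq κ M (coef s sY (scl_B h J)) - p0 ^ 2 ≤
      18432 * (κ * C ^ 3) * ε * (2 / ((J : ℝ) * h)) := by
  obtain ⟨J1, J2, hJ12, hJ1', hJ2'', hJ1a, hJ2a⟩ : ∃ J1 J2 : ℕ, J = J1 + J2 ∧ 1 ≤ J1 ∧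
      1 ≤ J2 ∧ J ≤ 2 * (J1 + 1) ∧ J ≤ 2 * (J2 + 1) :=
    ⟨J / 2, J - J / 2, by omega, by omega, by omega, by omega, by omega⟩
  have hC0 : 0 < C := by linarith
  obtain ⟨V, _, _, F, hF⟩ := slice_two_pf hκ0.le hY0
  have h1 := hF s (scl_B h J1) (scl_B h J2) M
  rw [← scl_B_add, ← hJ12, ← hp0, scl_W0 s sY hh, scl_W0 s sY hh] at h1
  have hsY2 : sY ^ 2 ≤ 1 := pow_le_one₀ hY0 (hYs.trans hs1)
  have hκs0 : 0 ≤ κ * sY ^ 2 := by positivity
  have hκs1 : κ * sY ^ 2 ≤ κ := by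
    calc κ * sY ^ 2 ≤ κ * 1 := mul_le_mul_of_nonneg_left hsY2 hκ0.le
      _ = κ := mul_one _
  have hhr : (0 : ℝ) < h := by exact_mod_cast hh
  have hr : √(((J : ℝ) + 1) / h) ≤ ε := by
    refine Real.sqrt_le_iff.mpr ⟨hε0.le, ?_⟩
    rw [div_le_iff₀ hhr]
    exact hJe
  have hr0 : 0 ≤ √(((J : ℝ) + 1) / h) := Real.sqrt_nonneg _
  have hsm : 64 * (κ * sY ^ 2 * C) * √(((J : ℝ) + 1) / h) ≤ 1 := by
    refine le_trans ?_ hε2
    refine mul_le_mul ?_ hr hr0 (by positivity)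
    exact mul_le_mul_of_nonneg_left (mul_le_mul_of_nonneg_right hκs1 hC0.le) (by norm_num)
  obtain ⟨a1, a2, a3⟩ := vac F hκs0 hs0 hs1 hY0 (hYs.trans hs1) hh hC hK hsm J1 hJ1' (by omega)
  obtain ⟨b1, b2, b3⟩ := vac F hκs0 hs0 hs1 hY0 (hYs.trans hs1) hh hC hK hsm J2 hJ2'' (by omega)
  have hb : ∀ n : ℕ, F.blks s sY (scl_B h n) = F.TT s sY h (List.replicate n false) := by
    intro n
    rw [scl_B_eq, F.blks_flatMap]
  rw [hb, hb] at h1
  have h3 := scl_comb hκs1 hκ0.le hC0.le hr hr0 hε0.le (aa_nonneg h J1)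
    (aa_nonneg h J2) a1 a3 b2 b3 (sq_nonneg _) (sq_nonneg _) h1
  refine h3.trans (mul_le_mul_of_nonneg_left ?_ (by positivity))
  exact scl_aa hh (by omega) hJ1a hJ2a

theorem scl_low {δ c s sY : ℝ} {h J M n₀ : ℕ} (hδ : 0 < δ) (hc : 0 < c)
    (hP : ∀ (a D M : ℕ) (s sY : ℝ), n₀ ≤ a → δ ≤ s → s ≤ 1 - δ → 0 ≤ sY → sY ≤ 1 →
      (D : ℝ) ≤ √(a : ℝ) → D ≤ M → (M : ℝ) = s * (a + D) →
      c / √(a : ℝ) ≤ (w s ^ a * w sY ^ D).coeff M)
    (hh : 1 ≤ h) (hhn : n₀ ≤ h) (hhδ : 1 ≤ δ * h) (hJ1 : 1 ≤ J) (hJh : (J : ℝ) ≤ h)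
    (hs0 : δ ≤ s) (hs1 : s ≤ 1 - δ) (hY0 : 0 ≤ sY) (hY1 : sY ≤ 1)
    (hMs : (M : ℝ) = s * ((2 * h + 1) * J)) :
    0 < (w s ^ (2 * h * J) * w sY ^ J).coeff M ∧
      c ^ 2 / (2 * (J * h)) ≤ (w s ^ (2 * h * J) * w sY ^ J).coeff M ^ 2 := by
  have hhr : (1 : ℝ) ≤ h := by exact_mod_cast hh
  have hJr : (1 : ℝ) ≤ J := by exact_mod_cast hJ1
  have hlow : c / √((2 * h * J : ℕ) : ℝ) ≤ (w s ^ (2 * h * J) * w sY ^ J).coeff M := by
    refine hP (2 * h * J) J M s sY ?_ hs0 hs1 hY0 hY1 ?_ ?_ ?_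
    · calc n₀ ≤ h := hhn
        _ ≤ 2 * h * J := by nlinarith
    · refine Real.le_sqrt_of_sq_le ?_
      push_cast
      nlinarith
    · have h1 : (J : ℝ) ≤ M := by
        rw [hMs]
        have h2 : 1 ≤ s * (2 * h + 1) := by nlinarith
        nlinarith
      exact_mod_cast h1
    · rw [hMs]
      push_cast
      ring
  have hhJ : 0 < ((2 * h * J : ℕ) : ℝ) := by push_cast; positivity
  refine ⟨lt_of_lt_of_le (by positivity) hlow, ?_⟩
  have h1 := pow_le_pow_left₀ (by positivity) hlow 2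
  rw [div_pow, Real.sq_sqrt hhJ.le] at h1
  refine le_trans (le_of_eq ?_) h1
  push_cast
  ring

theorem scl_final {q κ s sY a p0 P0 : ℝ} {h J M : ℕ} (hq0 : 0 < q) (hq1 : q < 1)
    (ha0 : 0 < a) (ha : ∀ u : List Bool, u.length = M →
      coef (1 - q ^ 2) (1 - q) (scl_B h J) u = a * coef s sY (scl_B h J) u)
    (hκ : κ = 1 / q) (hp0 : p0 = coef s sY (scl_B h J) (List.replicate M false))
    (hp00 : 0 < p0) (hP0a : P0 = a * p0)
    (hm : nsq κ M (coef s sY (scl_B h J)) - p0 ^ 2 ≤ p0 ^ 2 / 16) :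
    0 < P0 ∧
      Ex (piX q) M (fun σ => |chaos (psi q) (coef (1 - q ^ 2) (1 - q)
        (List.replicate J (per h false)).flatten) σ - P0|) ≤ 1 / 4 * P0 := by
  refine ⟨by rw [hP0a]; positivity, ?_⟩
  have hEx : Ex (piX q) M (fun σ => |chaos (psi q) (coef (1 - q ^ 2) (1 - q)
      (List.replicate J (per h false)).flatten) σ - P0|) =
      a * Ex (piX q) M (fun σ => |chaos (psi q) (coef s sY (scl_B h J)) σ - p0|) := by
    rw [← Ex_smul]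
    refine Ex_congr _ _ _ _ fun σ hσ => ?_
    have h1 : chaos (psi q) (coef (1 - q ^ 2) (1 - q) (List.replicate J (per h false)).flatten) σ =
        a * chaos (psi q) (coef s sY (scl_B h J)) σ := by
      rw [← chaos_smul]
      exact chaos_congr _ _ _ _ fun u hu => ha u (by omega)
    rw [h1, hP0a, ← mul_sub, abs_mul, abs_of_pos ha0]
  rw [hEx, hP0a]
  have h5 := scl_dev hq0 hq1 M (coef s sY (scl_B h J)) p0 hp0
  rw [← hκ] at h5
  have h6 : √(nsq κ M (coef s sY (scl_B h J)) - p0 ^ 2) ≤ 1 / 4 * p0 := by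
    refine Real.sqrt_le_iff.mpr ⟨by positivity, hm.trans (le_of_eq ?_)⟩
    ring
  calc a * Ex (piX q) M (fun σ => |chaos (psi q) (coef s sY (scl_B h J)) σ - p0|)
      ≤ a * (1 / 4 * p0) := mul_le_mul_of_nonneg_left (h5.trans h6) ha0.le
    _ = 1 / 4 * (a * p0) := by ring

theorem slice_close_le {q : ℝ} (hq0 : 0 < q) (hq1 : q < 1) {δ : ℝ} (hδ : 0 < δ) :
    ∃ c1 : ℝ, 0 < c1 ∧ c1 ≤ 1 ∧ ∃ h0 : ℕ, ∀ (h J M : ℕ), h0 ≤ h → c1 * h / 2 ≤ J → (J : ℝ) ≤ c1 * h →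
      δ * ((2 * h + 1) * J : ℕ) ≤ M → (M : ℝ) ≤ (1 - δ) * ((2 * h + 1) * J : ℕ) →
      ∀ P0 : ℝ, P0 = (w (1 - q ^ 2) ^ (2 * h * J) * w (1 - q) ^ J).coeff M →
      0 < P0 ∧
      Ex (piX q) M (fun σ => |chaos (psi q) (coef (1 - q ^ 2) (1 - q)
        (List.replicate J (per h false)).flatten) σ - P0|) ≤ 1 / 4 * P0 := by
  obtain ⟨C, hC, hkb⟩ := kbound0 hδ
  obtain ⟨c, hc, n₀, hP⟩ := fa_P0 hδ
  obtain ⟨κ, hκ⟩ : ∃ κ : ℝ, κ = 1 / q := ⟨_, rfl⟩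
  have hκ0 : 0 < κ := by rw [hκ]; positivity
  have hC0 : 0 < C := by linarith
  obtain ⟨ε, hε0, hε1, hε2, hε3⟩ := scl_eps hκ0 hC0 hc
  obtain ⟨c1, hc1⟩ : ∃ c1 : ℝ, c1 = ε ^ 2 / 2 := ⟨_, rfl⟩
  have hc10 : 0 < c1 := by rw [hc1]; positivity
  have hc12 : c1 ≤ 1 / 2 := by rw [hc1]; nlinarith
  refine ⟨c1, hc10, by linarith, max 1 (max ⌈4 / c1⌉₊ (max n₀ ⌈1 / δ⌉₊)), ?_⟩
  intro h J M hh0 hJ1 hJ2 hM1 hM2 P0 hP0
  have hh : 1 ≤ h := (le_max_left _ _).trans hh0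
  have hh4 : 4 / c1 ≤ (h : ℝ) := (Nat.le_ceil _).trans (by
    exact_mod_cast ((le_max_left _ _).trans (le_max_right _ _)).trans hh0)
  have hhn : n₀ ≤ h := ((le_max_left _ _).trans ((le_max_right _ _).trans
    (le_max_right _ _))).trans hh0
  have hhδ : 1 / δ ≤ (h : ℝ) := (Nat.le_ceil _).trans (by
    exact_mod_cast ((le_max_right _ _).trans ((le_max_right _ _).trans (le_max_right _ _))).trans
      hh0)
  have hhδ' : 1 ≤ δ * h := by
    rw [div_le_iff₀ hδ] at hhδ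
    linarith
  have hhr : (1 : ℝ) ≤ h := by exact_mod_cast hh
  have hch : 4 ≤ c1 * h := by
    rw [div_le_iff₀ hc10] at hh4
    linarith
  have hJ2' : (2 : ℝ) ≤ J := by linarith
  have hJnat : 2 ≤ J := by exact_mod_cast hJ2'
  have hJr : (0 : ℝ) < J := by linarith
  have hJh : (J : ℝ) ≤ h := by nlinarith
  have hJhn : J ≤ h := by exact_mod_cast hJh
  obtain ⟨L, hL⟩ : ∃ L : ℝ, L = (2 * h + 1) * J := ⟨_, rfl⟩
  have hLc : (((2 * h + 1) * J : ℕ) : ℝ) = L := by rw [hL]; push_cast; ring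
  rw [hLc] at hM1 hM2
  have hL0 : 0 < L := by rw [hL]; positivity
  obtain ⟨s, hs⟩ : ∃ s : ℝ, s = M / L := ⟨_, rfl⟩
  have hs0 : δ ≤ s := by rw [hs, le_div_iff₀ hL0]; exact hM1
  have hs1 : s ≤ 1 - δ := by rw [hs, div_le_iff₀ hL0]; exact hM2
  have hs00 : 0 < s := by linarith
  have hs11 : s < 1 := by linarith
  have hMs : (M : ℝ) = s * L := by rw [hs]; field_simp
  rw [hL] at hMs
  obtain ⟨hY0, hYs⟩ := tiltY_bounds hq0 hs00 hs11
  obtain ⟨a, ha0, ha⟩ := scl_tilt hq0 hq1 hs00 hs11 (scl_B h J) M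
  obtain ⟨sY, hsY⟩ : ∃ sY : ℝ, sY = tiltY q s := ⟨_, rfl⟩
  rw [← hsY] at hY0 hYs ha
  obtain ⟨p0, hp0⟩ : ∃ p0 : ℝ, p0 = coef s sY (scl_B h J) (List.replicate M false) := ⟨_, rfl⟩
  have hp0' : p0 = (w s ^ (2 * h * J) * w sY ^ J).coeff M := by
    rw [hp0, coef_plain, scl_B_true, scl_B_false hh]
  have hP0a : P0 = a * p0 := by
    rw [hP0, hp0, ← ha _ List.length_replicate, coef_plain, scl_B_true, scl_B_false hh]
  obtain ⟨hp00, hp0sq⟩ := scl_low hδ hc hP hh hhn hhδ' (by omega) hJh hs0 hs1 hY0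
    (hYs.trans hs11.le) hMs
  rw [← hp0'] at hp00 hp0sq
  have hJe : (J : ℝ) + 1 ≤ ε ^ 2 * h := by
    have h2 : ε ^ 2 = 2 * c1 := by rw [hc1]; ring
    rw [h2]
    linarith
  have hm := scl_moment hκ0 hC hε0 hε2 hh hJnat hJe hs00.le hs11.le hY0 hYs
    (hkb s sY h J hs0 hs1 hY0 hYs hh hJhn) hp0
  refine scl_final hq0 hq1 ha0 ha hκ hp0 hp00 hP0a (hm.trans ?_)
  have hJh0 : 0 < (J : ℝ) * h := by positivity
  calc 18432 * (κ * C ^ 3) * ε * (2 / ((J : ℝ) * h))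
      = (1179648 * (κ * C ^ 3) * ε) / (2 * (J * h)) / 16 := by ring
    _ ≤ c ^ 2 / (2 * (J * h)) / 16 := by
        refine div_le_div_of_nonneg_right ?_ (by norm_num)
        exact div_le_div_of_nonneg_right hε3 (by positivity)
    _ ≤ p0 ^ 2 / 16 := div_le_div_of_nonneg_right hp0sq (by norm_num)

theorem slice_close_pf {q : ℝ} (hq0 : 0 < q) (hq1 : q < 1) {δ : ℝ} (hδ : 0 < δ) :
    ∃ c1 : ℝ, 0 < c1 ∧ ∃ h0 : ℕ, ∀ (h J M : ℕ), h0 ≤ h → c1 * h / 2 ≤ J → (J : ℝ) ≤ c1 * h →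
      δ * ((2 * h + 1) * J : ℕ) ≤ M → (M : ℝ) ≤ (1 - δ) * ((2 * h + 1) * J : ℕ) →
      ∀ P0 : ℝ, P0 = (w (1 - q ^ 2) ^ (2 * h * J) * w (1 - q) ^ J).coeff M →
      0 < P0 ∧
      Ex (piX q) M (fun σ => |chaos (psi q) (coef (1 - q ^ 2) (1 - q)
        (List.replicate J (per h false)).flatten) σ - P0|) ≤ 1 / 4 * P0 := by
  obtain ⟨c1, h1, _, h0, h2⟩ := slice_close_le hq0 hq1 hδ
  exact ⟨c1, h1, h0, h2⟩

end Vale.Agent.P321.Sup
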