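import Vale.Agent.P321.Sup.Coins
import Vale.Agent.P321.Sup.Law
import Vale.Agent.P321.Sup.BaseKern
import Vale.Agent.P321.Sup.OverlapCount
import Vale.Agent.P321.Sup.SliceClose
import Vale.Agent.P321.Sup.BaseFock

/-!
Blueprint module BaseSlip: slip of the base element.
-/

namespace Vale.Agent.P321.Sup

open Polynomial

/-- `(01)^a 0 (01)^b` -/
def dst (a b : ℕ) : List Bool :=
  str (List.replicate a false ++ true :: List.replicate b false)

/-- overlap of the laws of the number of surviving blocks -/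
theorem overlap_count {q : ℝ} (hq0 : 0 < q) (hq1 : q < 1) :
    ∃ δ : ℝ, 0 < δ ∧ ∀ c1 : ℝ, 0 < c1 →
    ∃ om : ℝ, 0 < om ∧ ∃ h0 : ℕ, ∀ (h J : ℕ), h0 ≤ h → c1 * h / 2 ≤ J →
      (J : ℝ) ≤ c1 * h → ∃ S : Finset ℕ,
      (∀ M ∈ S, δ * ((2 * h + 1) * (J + 1) : ℕ) ≤ M ∧
        (M : ℝ) ≤ (1 - δ) * ((2 * h + 1) * J : ℕ)) ∧
      om ≤ ∑ M ∈ S, min ((w (1 - q ^ 2) ^ (2 * h * J) * w (1 - q) ^ J).coeff M)
        ((w (1 - q ^ 2) ^ (2 * h * (J + 1)) * w (1 - q) ^ (J + 1)).coeff M) :=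
  overlap_count_pf hq0 hq1

theorem bs_count_false (h J : ℕ) :
    (List.replicate J (per h false)).flatten.count false = 2 * h * J := by
  induction J with
  | zero => simp
  | succ J ih =>
    rw [List.replicate_succ, List.flatten_cons, List.count_append, ih]
    simp [per]
    ring

theorem bs_count_true (h J : ℕ) :
    (List.replicate J (per h false)).flatten.count true = J := by
  induction J with
  | zero => simp
  | succ J ih =>
    rw [List.replicate_succ, List.flatten_cons, List.count_append, ih]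
    simp [per, List.count_replicate]
    ring

theorem bs_length (h J : ℕ) :
    (List.replicate J (per h false)).flatten.length = (2 * h + 1) * J := by
  induction J with
  | zero => simp
  | succ J ih =>
    rw [List.replicate_succ, List.flatten_cons, List.length_append, ih]
    simp [per]
    ring

theorem bs_str_append (B C : List Bool) : str (B ++ C) = str B ++ str C := by
  induction B with
  | nil => simp [str]
  | cons b B ih => cases b <;> simp [str, ih]

theorem bs_str_flatten (B : List Bool) (J : ℕ) :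
    str (List.replicate J B).flatten = (List.replicate J (str B)).flatten := by
  induction J with
  | zero => simp [str]
  | succ J ih =>
    rw [List.replicate_succ, List.flatten_cons, bs_str_append, ih, List.replicate_succ,
      List.flatten_cons]

theorem bs_dst (h : ℕ) : dst h h = str (per h false) := by
  simp [dst, per]

theorem bs_pow (q : ℝ) (h J : ℕ) :
    Fl q (dst h h) ^ J = Fl q (str (List.replicate J (per h false)).flatten) := by
  rw [bs_str_flatten, ← bs_dst, Fl_flatten_replicate]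

/-- pairing with a power of the base element -/
theorem bs_ev {q : ℝ} (hq0 : 0 < q) (hq1 : q < 1) (h J : ℕ) (f : Wd → ℝ) :
    ev f (Fl q (dst h h) ^ J) = ∑ M ∈ Finset.range ((2 * h + 1) * J + 1),
      Ex (piX q) M (fun σ => chaos (psi q) (coef (1 - q ^ 2) (1 - q)
        (List.replicate J (per h false)).flatten) σ * f (FreeMonoid.ofList (flat σ))) := by
  rw [bs_pow, ev_Fl, model_law hq0 hq1, bs_length]

theorem bs_Ex_nonneg {q : ℝ} (hq0 : 0 < q) (hq1 : q < 1) (M : ℕ) {f : List (Fin 3) → ℝ}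
    (hf : ∀ σ, 0 ≤ f σ) : 0 ≤ Ex (piX q) M f := by
  unfold Ex
  exact Finset.sum_nonneg fun v _ => mul_nonneg
    (Finset.prod_nonneg fun i _ => piX_nonneg hq0 hq1 _) (hf _)

theorem bs_Ex_mono {q : ℝ} (hq0 : 0 < q) (hq1 : q < 1) (M : ℕ) {f g : List (Fin 3) → ℝ}
    (hf : ∀ σ, f σ ≤ g σ) : Ex (piX q) M f ≤ Ex (piX q) M g := by
  unfold Ex
  exact Finset.sum_le_sum fun v _ => mul_le_mul_of_nonneg_left (hf _)
    (Finset.prod_nonneg fun i _ => piX_nonneg hq0 hq1 _)

theorem bs_Ex_one {q : ℝ} (hq0 : 0 < q) (hq1 : q < 1) (M : ℕ) :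
    Ex (piX q) M (fun _ => 1) = 1 := by
  induction M with
  | zero => simp [md_Ex_zero]
  | succ M ih =>
    rw [md_Ex_succ]
    simp only [ih, mul_one]
    exact piX_sum hq0 hq1

theorem bs_min {a b A B : ℝ} (hA : 0 < A) (hB : 0 < B) (ha : 0 ≤ a) (hb : 0 ≤ b) :
    min A B * (1 - |a - A| / A - |b - B| / B) ≤ min a b := by
  have hm : 0 < min A B := lt_min hA hB
  have h1 : 0 ≤ |a - A| / A := by positivity
  have h2 : 0 ≤ |b - B| / B := by positivity
  apply le_min
  · by_cases hc : 1 - |a - A| / A ≤ 0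
    · have : min A B * (1 - |a - A| / A - |b - B| / B) ≤ 0 :=
        mul_nonpos_of_nonneg_of_nonpos hm.le (by linarith)
      linarith
    · rw [not_le] at hc
      calc min A B * (1 - |a - A| / A - |b - B| / B) ≤ min A B * (1 - |a - A| / A) := by
            apply mul_le_mul_of_nonneg_left _ hm.le; linarith
        _ ≤ A * (1 - |a - A| / A) := mul_le_mul_of_nonneg_right (min_le_left _ _) hc.le
        _ = A - |a - A| := by field_simp
        _ ≤ a := by have := neg_abs_le (a - A); linarith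
  · by_cases hc : 1 - |b - B| / B ≤ 0
    · have : min A B * (1 - |a - A| / A - |b - B| / B) ≤ 0 :=
        mul_nonpos_of_nonneg_of_nonpos hm.le (by linarith)
      linarith
    · rw [not_le] at hc
      calc min A B * (1 - |a - A| / A - |b - B| / B) ≤ min A B * (1 - |b - B| / B) := by
            apply mul_le_mul_of_nonneg_left _ hm.le; linarith
        _ ≤ B * (1 - |b - B| / B) := mul_le_mul_of_nonneg_right (min_le_right _ _) hc.le
        _ = B - |b - B| := by field_simp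
        _ ≤ b := by have := neg_abs_le (b - B); linarith

/-- an element with prescribed pairings -/
noncomputable def bsU (q : ℝ) (S : Finset ℕ) (u : List (Fin 3) → ℝ) : Al :=
  ∑ M ∈ S, ∑ v : Fin M → Fin 3, ((∏ i, piX q (v i)) * u (List.ofFn v)) •
    MonoidAlgebra.single (FreeMonoid.ofList (flat (List.ofFn v))) (1 : ℝ)

theorem bs_ev_U (q : ℝ) (S : Finset ℕ) (u : List (Fin 3) → ℝ) (f : Wd → ℝ) :
    ev f (bsU q S u) = ∑ M ∈ S, Ex (piX q) M (fun σ => u σ * f (FreeMonoid.ofList (flat σ))) := by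
  unfold bsU Ex
  rw [ev_sum]
  apply Finset.sum_congr rfl
  intro M _
  rw [ev_sum]
  apply Finset.sum_congr rfl
  intro v _
  rw [ev_smul, ev_single]
  ring

theorem bs_pos_U {q : ℝ} (hq0 : 0 < q) (hq1 : q < 1) (S : Finset ℕ) {u : List (Fin 3) → ℝ}
    (hu : ∀ σ, 0 ≤ u σ) : Pos (bsU q S u) := by
  classical
  intro x
  rw [← ev_indicator, bs_ev_U]
  apply Finset.sum_nonneg
  intro M _
  apply bs_Ex_nonneg hq0 hq1
  intro σ
  apply mul_nonneg (hu σ)
  split_ifs <;> norm_num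

theorem bs_le_U {q : ℝ} (hq0 : 0 < q) (hq1 : q < 1) (h J : ℕ) {S : Finset ℕ}
    (hS : ∀ M ∈ S, M ≤ (2 * h + 1) * J) {u : List (Fin 3) → ℝ}
    (hu : ∀ σ, u σ ≤ chaos (psi q) (coef (1 - q ^ 2) (1 - q)
        (List.replicate J (per h false)).flatten) σ) :
    Le (bsU q S u) (Fl q (dst h h) ^ J) := by
  classical
  intro x
  rw [← ev_indicator, ← ev_indicator, bs_ev_U, bs_ev hq0 hq1]
  have hs0 : 0 ≤ 1 - q ^ 2 := by nlinarith
  have hs1 : 1 - q ^ 2 ≤ 1 := by nlinarith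
  refine le_trans (Finset.sum_le_sum (g := fun M => Ex (piX q) M (fun σ => chaos (psi q)
    (coef (1 - q ^ 2) (1 - q) (List.replicate J (per h false)).flatten) σ *
      (if FreeMonoid.ofList (flat σ) = x then 1 else 0))) ?_) ?_
  · intro M _
    apply bs_Ex_mono hq0 hq1
    intro σ
    apply mul_le_mul_of_nonneg_right (hu σ)
    split_ifs <;> norm_num
  · apply Finset.sum_le_sum_of_subset_of_nonneg
    · intro M hM
      rw [Finset.mem_range]
      have := hS M hM
      omega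
    · intro M _ _
      apply bs_Ex_nonneg hq0 hq1
      intro σ
      apply mul_nonneg (chaos_coef_nonneg hq0 hq1 hs0 hs1 (by linarith) (by linarith) _ _)
      split_ifs <;> norm_num

theorem base_slip_of {q : ℝ} (hq0 : 0 < q) (hq1 : q < 1)
    (hsc : ∀ δ : ℝ, 0 < δ → ∃ c1 : ℝ, 0 < c1 ∧ c1 ≤ 1 ∧ ∃ h0 : ℕ, ∀ (h J M : ℕ), h0 ≤ h →
      c1 * h / 2 ≤ J → (J : ℝ) ≤ c1 * h →
      δ * ((2 * h + 1) * J : ℕ) ≤ M → (M : ℝ) ≤ (1 - δ) * ((2 * h + 1) * J : ℕ) →
      ∀ P0 : ℝ, P0 = (w (1 - q ^ 2) ^ (2 * h * J) * w (1 - q) ^ J).coeff M →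
      0 < P0 ∧
      Ex (piX q) M (fun σ => |chaos (psi q) (coef (1 - q ^ 2) (1 - q)
        (List.replicate J (per h false)).flatten) σ - P0|) ≤ 1 / 4 * P0) :
    ∃ om : ℝ, 0 < om ∧ om ≤ 1 ∧
    ∃ h0 : ℕ, ∀ h : ℕ, h0 ≤ h → ∃ J : ℕ, J ≤ h ∧ Slip (Fl q (dst h h)) J om := by
  obtain ⟨δ, hδ, hov⟩ := overlap_count hq0 hq1
  obtain ⟨c1, hc1, hc1', h1, hsl⟩ := hsc δ hδ
  obtain ⟨om, hom, h2, hov⟩ := hov c1 hc1
  have hs0 : 0 ≤ 1 - q ^ 2 := by nlinarith
  have hs1 : 1 - q ^ 2 ≤ 1 := by nlinarith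
  refine ⟨min (om / 2) 1, lt_min (by positivity) one_pos, min_le_right _ _,
    max (max h1 h2) (⌈4 / c1⌉₊ + 1), ?_⟩
  intro h hh
  have hh1 : h1 ≤ h := le_trans (le_trans (le_max_left _ _) (le_max_left _ _)) hh
  have hh2 : h2 ≤ h := le_trans (le_trans (le_max_right _ _) (le_max_left _ _)) hh
  have hh3 : ⌈4 / c1⌉₊ + 1 ≤ h := le_trans (le_max_right _ _) hh
  have hc4 : 4 ≤ c1 * h := by
    have ha : 4 / c1 ≤ (⌈4 / c1⌉₊ : ℝ) := Nat.le_ceil _
    have hb : (⌈4 / c1⌉₊ : ℝ) ≤ h := by exact_mod_cast (by omega : ⌈4 / c1⌉₊ ≤ h)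
    have hc : 4 / c1 ≤ h := le_trans ha hb
    rw [div_le_iff₀ hc1] at hc
    linarith
  set J : ℕ := ⌈c1 * h / 2⌉₊ with hJdef
  have hJ1 : c1 * h / 2 ≤ J := Nat.le_ceil _
  have hJ2 : (J : ℝ) < c1 * h / 2 + 1 := Nat.ceil_lt_add_one (by positivity)
  have hJ3 : (J : ℝ) ≤ c1 * h := by linarith
  have hJ4 : ((J + 1 : ℕ) : ℝ) ≤ c1 * h := by push_cast; linarith
  have hJ5 : c1 * h / 2 ≤ ((J + 1 : ℕ) : ℝ) := by push_cast; linarith
  have hJh : J ≤ h := by
    have : (J : ℝ) ≤ (h : ℝ) := by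
      have hh0 : (0 : ℝ) ≤ h := by positivity
      nlinarith
    exact_mod_cast this
  refine ⟨J, hJh, ?_⟩
  obtain ⟨S, hS, hSum⟩ := hov h J hh2 hJ1 hJ3
  -- densities
  set a : List (Fin 3) → ℝ := chaos (psi q) (coef (1 - q ^ 2) (1 - q)
    (List.replicate J (per h false)).flatten) with ha
  set b : List (Fin 3) → ℝ := chaos (psi q) (coef (1 - q ^ 2) (1 - q)
    (List.replicate (J + 1) (per h false)).flatten) with hb
  have ha0 : ∀ σ, 0 ≤ a σ := fun σ =>
    chaos_coef_nonneg hq0 hq1 hs0 hs1 (by linarith) (by linarith) _ _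
  have hb0 : ∀ σ, 0 ≤ b σ := fun σ =>
    chaos_coef_nonneg hq0 hq1 hs0 hs1 (by linarith) (by linarith) _ _
  set U := bsU q S (fun σ => min (a σ) (b σ)) with hU
  have hpos : Pos U := bs_pos_U hq0 hq1 S (fun σ => le_min (ha0 σ) (hb0 σ))
  have hJpos : (0 : ℝ) < J := by linarith [mul_pos hc1 (show (0:ℝ) < h by
    rcases Nat.eq_zero_or_pos h with h0 | h0
    · subst h0; simp at hc4; linarith
    · exact_mod_cast h0)]
  have hSle : ∀ M ∈ S, M ≤ (2 * h + 1) * J := by
    intro M hM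
    obtain ⟨_, hM2⟩ := hS M hM
    have hnn : (0 : ℝ) ≤ ((2 * h + 1) * J : ℕ) := by positivity
    have : (M : ℝ) ≤ (((2 * h + 1) * J : ℕ) : ℝ) := by nlinarith
    exact_mod_cast this
  have hδ1 : ∀ M ∈ S, δ ≤ 1 := by
    intro M hM
    obtain ⟨_, hM2⟩ := hS M hM
    by_contra hcon
    rw [not_le] at hcon
    have hnn : (0 : ℝ) < ((2 * h + 1) * J : ℕ) := by
      push_cast
      positivity
    have hM0 : (0 : ℝ) ≤ M := by positivity
    nlinarith
  have hle1 : Le U (Fl q (dst h h) ^ J) :=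
    bs_le_U hq0 hq1 h J hSle (fun σ => min_le_left _ _)
  have hle2 : Le U (Fl q (dst h h) ^ (J + 1)) :=
    bs_le_U hq0 hq1 h (J + 1) (fun M hM => (hSle M hM).trans
      (Nat.mul_le_mul_left _ (Nat.le_succ J))) (fun σ => min_le_right _ _)
  have hmass : om / 2 ≤ mass U := by
    have e1 : mass U = ∑ M ∈ S, Ex (piX q) M (fun σ => min (a σ) (b σ)) := by
      rw [mass, hU, bs_ev_U]
      simp
    rw [e1]
    have e2 : ∀ M ∈ S, (1 / 2) * min ((w (1 - q ^ 2) ^ (2 * h * J) * w (1 - q) ^ J).coeff M)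
        ((w (1 - q ^ 2) ^ (2 * h * (J + 1)) * w (1 - q) ^ (J + 1)).coeff M) ≤
        Ex (piX q) M (fun σ => min (a σ) (b σ)) := by
      intro M hM
      obtain ⟨hM1, hM2⟩ := hS M hM
      have hd1 := hδ1 M hM
      have hmono : (((2 * h + 1) * J : ℕ) : ℝ) ≤ (((2 * h + 1) * (J + 1) : ℕ) : ℝ) := by
        exact_mod_cast Nat.mul_le_mul_left _ (Nat.le_succ J)
      obtain ⟨hA, hA'⟩ := hsl h J M hh1 hJ1 hJ3 (by nlinarith) hM2 _ rfl
      obtain ⟨hB, hB'⟩ := hsl h (J + 1) M hh1 hJ5 hJ4 hM1 (by nlinarith) _ rfl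
      set A := (w (1 - q ^ 2) ^ (2 * h * J) * w (1 - q) ^ J).coeff M with hAdef
      set B := (w (1 - q ^ 2) ^ (2 * h * (J + 1)) * w (1 - q) ^ (J + 1)).coeff M with hBdef
      have hm : 0 < min A B := lt_min hA hB
      have key : Ex (piX q) M (fun σ => min A B * (1 - |a σ - A| / A - |b σ - B| / B)) ≤
          Ex (piX q) M (fun σ => min (a σ) (b σ)) :=
        bs_Ex_mono hq0 hq1 M (fun σ => bs_min hA hB (ha0 σ) (hb0 σ))
      refine le_trans ?_ key
      have e3 : Ex (piX q) M (fun σ => min A B * (1 - |a σ - A| / A - |b σ - B| / B)) =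
          min A B * (1 - (1 / A) * Ex (piX q) M (fun σ => |a σ - A|) -
            (1 / B) * Ex (piX q) M (fun σ => |b σ - B|)) := by
        rw [md_Ex_mul]
        have e4 : (fun σ : List (Fin 3) => 1 - |a σ - A| / A - |b σ - B| / B) =
            (fun σ => (fun σ => (1 : ℝ) + (-(1 / A)) * |a σ - A|) σ +
              (fun σ => (-(1 / B)) * |b σ - B|) σ) := by
          funext σ
          ring
        rw [e4, md_Ex_add, md_Ex_add, md_Ex_mul, md_Ex_mul, bs_Ex_one hq0 hq1]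
        ring
      rw [e3]
      have e5 : (1 / A) * Ex (piX q) M (fun σ => |a σ - A|) ≤ 1 / 4 := by
        rw [one_div, inv_mul_le_iff₀ hA]
        linarith
      have e6 : (1 / B) * Ex (piX q) M (fun σ => |b σ - B|) ≤ 1 / 4 := by
        rw [one_div, inv_mul_le_iff₀ hB]
        linarith
      nlinarith
    calc om / 2 = (1 / 2) * om := by ring
      _ ≤ (1 / 2) * ∑ M ∈ S, min ((w (1 - q ^ 2) ^ (2 * h * J) * w (1 - q) ^ J).coeff M)
        ((w (1 - q ^ 2) ^ (2 * h * (J + 1)) * w (1 - q) ^ (J + 1)).coeff M) := by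
          apply mul_le_mul_of_nonneg_left hSum (by norm_num)
      _ = ∑ M ∈ S, (1 / 2) * min ((w (1 - q ^ 2) ^ (2 * h * J) * w (1 - q) ^ J).coeff M)
        ((w (1 - q ^ 2) ^ (2 * h * (J + 1)) * w (1 - q) ^ (J + 1)).coeff M) := by
          rw [Finset.mul_sum]
      _ ≤ _ := Finset.sum_le_sum e2
  have hUpos : 0 < mass U := by linarith [half_pos hom]
  set r : ℝ := min (om / 2) 1 / mass U with hr
  have hr0 : 0 ≤ r := by positivity
  have hr1 : r ≤ 1 := by
    rw [hr, div_le_one hUpos]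
    exact (min_le_left _ _).trans hmass
  have hrU : Le (r • U) U := by
    have := Le.smul_le hr1 hpos
    rwa [one_smul] at this
  refine ⟨r • U, hpos.smul hr0, hrU.trans hle1, hrU.trans hle2, ?_⟩
  rw [mass_smul, hr, div_mul_cancel₀ _ hUpos.ne']

theorem base_slip {q : ℝ} (hq0 : 0 < q) (hq1 : q < 1) : ∃ om : ℝ, 0 < om ∧ om ≤ 1 ∧
    ∃ h0 : ℕ, ∀ h : ℕ, h0 ≤ h → ∃ J : ℕ, J ≤ h ∧ Slip (Fl q (dst h h)) J om :=
  base_slip_of hq0 hq1 (fun _ hδ => slice_close_le hq0 hq1 hδ)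

end Vale.Agent.P321.Sup
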