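import Vale.Agent.P321.KernAux

/-!
Polynomial estimates used in `Coins.lean`.
-/

namespace Vale.Agent.P321.Sup

open Polynomial

theorem natDegree_w_pe (p : ℝ) (K : ℕ) : (w p ^ K).natDegree ≤ K := by
  have h1 : (w p).natDegree ≤ 1 := by
    unfold w
    refine (natDegree_add_le _ _).trans ?_
    rw [natDegree_C]
    apply max_le (Nat.zero_le _)
    refine natDegree_mul_le.trans ?_
    rw [natDegree_C, natDegree_X]
  have h2 : (w p ^ K).natDegree ≤ K * (w p).natDegree := natDegree_pow_le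
  nlinarith

theorem sum_coeff_pe {p : ℝ} (h0 : 0 ≤ p) (h1 : p ≤ 1) (K : ℕ) :
    ∑ n ∈ Finset.range (K + 1), (w p ^ K).coeff n = 1 := by
  have h2 := l1_w_pow h0 h1 K
  have h3 := natDegree_w_pe p K
  rw [l1_eq_sum _ (K + 1) (by omega)] at h2
  rw [← h2]
  apply Finset.sum_congr rfl
  intro n _
  rw [abs_of_nonneg (coeff_pow_nonneg _ (w_coeff_nonneg h0 h1) K n)]

theorem shift_pe (p : ℝ) (K n : ℕ) :
    ((n : ℝ) + 1) * (w p ^ (K + 1)).coeff (n + 1) = ((K : ℝ) + 1) * p * (w p ^ K).coeff n := by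
  have h1 : derivative (w p ^ (K + 1)) = C (((K : ℝ) + 1) * p) * w p ^ K := by
    rw [derivative_pow_succ, w_derivative, C_mul]
    have : ((K : ℝ[X]) + 1) = C ((K : ℝ) + 1) := by simp
    rw [← this]
    ring
  have h2 := congrArg (fun P : ℝ[X] => P.coeff n) h1
  simp only [coeff_derivative, coeff_C_mul] at h2
  rw [← h2]
  ring

theorem bin_avg (m : ℕ) : ∃ C : ℝ, 0 ≤ C ∧ ∀ (p : ℝ) (K : ℕ), 0 < p → p ≤ 1 → 1 ≤ K →
    ∑ n ∈ Finset.range (K + 1), (w p ^ K).coeff n * (1 / ((n : ℝ) + 1) ^ m) ≤ C / (p * K) ^ m := by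
  induction m with
  | zero =>
    refine ⟨1, zero_le_one, ?_⟩
    intro p K h0 h1 hK
    simp only [pow_zero, div_one, mul_one]
    rw [sum_coeff_pe h0.le h1]
  | succ m ih =>
    obtain ⟨M, hM, ih⟩ := ih
    refine ⟨2 ^ m * M, by positivity, ?_⟩
    intro p K h0 h1 hK
    have hKr : (1 : ℝ) ≤ K := by exact_mod_cast hK
    have hK0 : (0 : ℝ) < K := by linarith
    have hco : ∀ n, 0 ≤ (w p ^ (K + 1)).coeff n :=
      coeff_pow_nonneg _ (w_coeff_nonneg h0.le h1) _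
    have e1 : ∀ n ∈ Finset.range (K + 1), (w p ^ K).coeff n * (1 / ((n : ℝ) + 1) ^ (m + 1)) ≤
        1 / (((K : ℝ) + 1) * p) *
          (2 ^ m * ((w p ^ (K + 1)).coeff (n + 1) * (1 / (((n + 1 : ℕ) : ℝ) + 1) ^ m))) := by
      intro n _
      have hn : (0 : ℝ) < (n : ℝ) + 1 := by positivity
      have h2 := shift_pe p K n
      have h3 : (w p ^ K).coeff n = ((n : ℝ) + 1) * (w p ^ (K + 1)).coeff (n + 1) /
          (((K : ℝ) + 1) * p) := by
        rw [eq_div_iff (by positivity), h2]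
        ring
      have h4 : (1 : ℝ) / ((n : ℝ) + 1) ^ m ≤ 2 ^ m * (1 / (((n + 1 : ℕ) : ℝ) + 1) ^ m) := by
        rw [← div_eq_mul_one_div, div_le_div_iff₀ (by positivity) (by positivity), one_mul,
          ← mul_pow]
        apply pow_le_pow_left₀ (by positivity)
        push_cast
        linarith
      have e : (w p ^ K).coeff n * (1 / ((n : ℝ) + 1) ^ (m + 1)) = 1 / (((K : ℝ) + 1) * p) *
          ((w p ^ (K + 1)).coeff (n + 1) * (1 / ((n : ℝ) + 1) ^ m)) := by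
        rw [h3]
        generalize (w p ^ (K + 1)).coeff (n + 1) = z
        rw [pow_succ]
        field_simp
      rw [e]
      apply mul_le_mul_of_nonneg_left _ (by positivity)
      calc (w p ^ (K + 1)).coeff (n + 1) * (1 / ((n : ℝ) + 1) ^ m)
          ≤ (w p ^ (K + 1)).coeff (n + 1) * (2 ^ m * (1 / (((n + 1 : ℕ) : ℝ) + 1) ^ m)) :=
            mul_le_mul_of_nonneg_left h4 (hco _)
        _ = _ := by ring
    refine (Finset.sum_le_sum e1).trans ?_
    rw [← Finset.mul_sum, ← Finset.mul_sum]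
    have h5 := ih p (K + 1) h0 h1 (by omega)
    have h6 : ∑ n ∈ Finset.range (K + 1), (w p ^ (K + 1)).coeff (n + 1) *
        (1 / (((n + 1 : ℕ) : ℝ) + 1) ^ m) ≤
        ∑ n ∈ Finset.range (K + 1 + 1), (w p ^ (K + 1)).coeff n * (1 / ((n : ℝ) + 1) ^ m) := by
      have h7 := Finset.sum_range_succ' (fun n : ℕ => (w p ^ (K + 1)).coeff n *
        (1 / ((n : ℝ) + 1) ^ m)) (K + 1)
      rw [h7]
      have h8 : 0 ≤ (w p ^ (K + 1)).coeff 0 * (1 / (((0 : ℕ) : ℝ) + 1) ^ m) :=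
        mul_nonneg (hco 0) (by positivity)
      linarith
    calc 1 / (((K : ℝ) + 1) * p) * (2 ^ m * ∑ n ∈ Finset.range (K + 1),
          (w p ^ (K + 1)).coeff (n + 1) * (1 / (((n + 1 : ℕ) : ℝ) + 1) ^ m))
        ≤ 1 / (p * K) * (2 ^ m * (M / (p * K) ^ m)) := by
          have a1 : 1 / (((K : ℝ) + 1) * p) ≤ 1 / (p * K) := by
            apply one_div_le_one_div_of_le (by positivity)
            nlinarith
          have a2 : M / (p * ((K + 1 : ℕ) : ℝ)) ^ m ≤ M / (p * K) ^ m := by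
            apply div_le_div_of_nonneg_left hM (by positivity)
            apply pow_le_pow_left₀ (by positivity)
            push_cast
            nlinarith
          apply mul_le_mul a1 _ _ (by positivity)
          · apply mul_le_mul_of_nonneg_left _ (by positivity)
            exact (h6.trans h5).trans a2
          · apply mul_nonneg (by positivity)
            apply Finset.sum_nonneg
            intro n _
            exact mul_nonneg (hco _) (by positivity)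
      _ = 2 ^ m * M / (p * K) ^ (m + 1) := by
          rw [pow_succ]
          field_simp

theorem bin_avg_half (m : ℕ) : ∃ C : ℝ, 0 ≤ C ∧ ∀ (p : ℝ) (K : ℕ), 0 < p → p ≤ 1 → 1 ≤ K →
    ∑ n ∈ Finset.range (K + 1), (w p ^ K).coeff n * (1 / (((n : ℝ) + 1) ^ m * √((n : ℝ) + 1))) ≤
      C / ((p * K) ^ m * √(p * K)) := by
  obtain ⟨C1, hC1, h1⟩ := bin_avg m
  obtain ⟨C2, hC2, h2⟩ := bin_avg (m + 1)
  refine ⟨(C1 + C2) / 2, by positivity, ?_⟩
  intro p K hp0 hp1 hK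
  have hKr : (1 : ℝ) ≤ K := by exact_mod_cast hK
  have hK0 : (0 : ℝ) < K := by linarith
  have hz : 0 < p * K := by positivity
  set z : ℝ := p * K with hzdef
  have hsz : 0 < √z := Real.sqrt_pos.mpr hz
  have hsz2 : √z * √z = z := Real.mul_self_sqrt hz.le
  have a1 : ∀ n ∈ Finset.range (K + 1),
      (w p ^ K).coeff n * (1 / (((n : ℝ) + 1) ^ m * √((n : ℝ) + 1))) ≤
      1 / (2 * √z) * ((w p ^ K).coeff n * (1 / ((n : ℝ) + 1) ^ m)) +
        √z / 2 * ((w p ^ K).coeff n * (1 / ((n : ℝ) + 1) ^ (m + 1))) := by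
    intro n _
    have hn : (0 : ℝ) < (n : ℝ) + 1 := by positivity
    have hsn : 0 < √((n : ℝ) + 1) := Real.sqrt_pos.mpr hn
    have hsn2 : √((n : ℝ) + 1) * √((n : ℝ) + 1) = (n : ℝ) + 1 := Real.mul_self_sqrt hn.le
    have hco : 0 ≤ (w p ^ K).coeff n := coeff_pow_nonneg _ (w_coeff_nonneg hp0.le hp1) _ _
    have key : 1 / √((n : ℝ) + 1) ≤ 1 / (2 * √z) + √z / 2 * (1 / ((n : ℝ) + 1)) := by
      have e : 1 / (2 * √z) + √z / 2 * (1 / ((n : ℝ) + 1)) - 1 / √((n : ℝ) + 1) =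
          (√((n : ℝ) + 1) - √z) ^ 2 / (2 * √z * (√((n : ℝ) + 1) * √((n : ℝ) + 1))) := by
        conv_lhs => rw [← hsn2]
        rw [Real.sqrt_mul_self hsn.le]
        field_simp
        ring
      have : 0 ≤ (√((n : ℝ) + 1) - √z) ^ 2 / (2 * √z * (√((n : ℝ) + 1) * √((n : ℝ) + 1))) := by
        positivity
      linarith
    have e1 : (w p ^ K).coeff n * (1 / (((n : ℝ) + 1) ^ m * √((n : ℝ) + 1))) =
        ((w p ^ K).coeff n * (1 / ((n : ℝ) + 1) ^ m)) * (1 / √((n : ℝ) + 1)) := by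
      field_simp
    have e2 : 1 / (2 * √z) * ((w p ^ K).coeff n * (1 / ((n : ℝ) + 1) ^ m)) +
        √z / 2 * ((w p ^ K).coeff n * (1 / ((n : ℝ) + 1) ^ (m + 1))) =
        ((w p ^ K).coeff n * (1 / ((n : ℝ) + 1) ^ m)) *
          (1 / (2 * √z) + √z / 2 * (1 / ((n : ℝ) + 1))) := by
      rw [pow_succ]
      field_simp
    rw [e1, e2]
    exact mul_le_mul_of_nonneg_left key (mul_nonneg hco (by positivity))
  refine (Finset.sum_le_sum a1).trans ?_
  rw [Finset.sum_add_distrib, ← Finset.mul_sum, ← Finset.mul_sum]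
  have b1 := h1 p K hp0 hp1 hK
  have b2 := h2 p K hp0 hp1 hK
  have c1 := mul_le_mul_of_nonneg_left b1 (show 0 ≤ 1 / (2 * √z) by positivity)
  have c2 := mul_le_mul_of_nonneg_left b2 (show 0 ≤ √z / 2 by positivity)
  refine (add_le_add c1 c2).trans (le_of_eq ?_)
  rw [← hzdef, pow_succ]
  have e3 : C2 / (z ^ m * z) = C2 / (z ^ m * (√z * √z)) := by rw [hsz2]
  rw [e3]
  field_simp

theorem l1_diff_pow_pe (m : ℕ) : ∃ C : ℝ, 0 ≤ C ∧ ∀ n : ℕ,
    l1 (w (1 / 2) ^ n * (1 - Polynomial.X) ^ m) ≤ C / √((n : ℝ) + 1) ^ m := by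
  induction m with
  | zero =>
    refine ⟨1, zero_le_one, ?_⟩
    intro n
    simp only [pow_zero, div_one, mul_one]
    rw [l1_w_pow (by norm_num) (by norm_num)]
  | succ m ih =>
    obtain ⟨M, hM, ih⟩ := ih
    refine ⟨M * √2 ^ m * (2 * √2), by positivity, ?_⟩
    intro n
    have hsplit : n / 2 + (n - n / 2) = n := by omega
    have e1 : w (1 / 2) ^ n * (1 - Polynomial.X) ^ (m + 1) =
        (w (1 / 2) ^ (n / 2) * (1 - Polynomial.X) ^ m) *
          (-(w (1 / 2) ^ (n - n / 2) * (Polynomial.X - 1))) := by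
      conv_lhs => rw [← hsplit, pow_add, pow_succ]
      ring
    rw [e1]
    refine (l1_mul_le _ _).trans ?_
    rw [l1_neg]
    have h1 := ih (n / 2)
    have h2 := l1_w_pow_mul_sub (s := 1 / 2) (by norm_num) (by norm_num) (n - n / 2)
    have hn0 : (0 : ℝ) < (n : ℝ) + 1 := by positivity
    have hs : 0 < √((n : ℝ) + 1) := Real.sqrt_pos.mpr hn0
    have h2s : 0 < √(2 : ℝ) := Real.sqrt_pos.mpr (by norm_num)
    have g1 : √((n : ℝ) + 1) / √2 ≤ √(((n / 2 : ℕ) : ℝ) + 1) := by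
      rw [← Real.sqrt_div hn0.le]
      apply Real.sqrt_le_sqrt
      have : n + 1 ≤ 2 * (n / 2 + 1) := by omega
      have : (n : ℝ) + 1 ≤ 2 * (((n / 2 : ℕ) : ℝ) + 1) := by exact_mod_cast this
      linarith
    have g2 : √((n : ℝ) + 1) / √2 ≤ √(((n - n / 2 : ℕ) : ℝ) + 1) := by
      rw [← Real.sqrt_div hn0.le]
      apply Real.sqrt_le_sqrt
      have : n + 1 ≤ 2 * (n - n / 2 + 1) := by omega
      have : (n : ℝ) + 1 ≤ 2 * (((n - n / 2 : ℕ) : ℝ) + 1) := by exact_mod_cast this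
      linarith
    have k1 : l1 (w (1 / 2) ^ (n / 2) * (1 - Polynomial.X) ^ m) ≤
        M * √2 ^ m / √((n : ℝ) + 1) ^ m := by
      refine h1.trans ?_
      have : M / √(((n / 2 : ℕ) : ℝ) + 1) ^ m ≤ M / (√((n : ℝ) + 1) / √2) ^ m := by
        apply div_le_div_of_nonneg_left hM (by positivity)
        exact pow_le_pow_left₀ (by positivity) g1 m
      refine this.trans (le_of_eq ?_)
      rw [div_pow]
      field_simp
    have k2 : l1 (w (1 / 2) ^ (n - n / 2) * (Polynomial.X - 1)) ≤ 2 * √2 / √((n : ℝ) + 1) := by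
      refine h2.trans ?_
      have a2 : (((n - n / 2 : ℕ) : ℝ) + 1) * (1 / 2) * (1 - 1 / 2) =
          (((n - n / 2 : ℕ) : ℝ) + 1) * (1 / 2) ^ 2 := by ring
      rw [a2, Real.sqrt_mul (by positivity), Real.sqrt_sq (by norm_num)]
      have : 1 / (√(((n - n / 2 : ℕ) : ℝ) + 1) * (1 / 2)) ≤
          1 / ((√((n : ℝ) + 1) / √2) * (1 / 2)) := by
        apply one_div_le_one_div_of_le (by positivity)
        exact mul_le_mul_of_nonneg_right g2 (by norm_num)
      refine this.trans (le_of_eq ?_)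
      field_simp
    calc l1 (w (1 / 2) ^ (n / 2) * (1 - Polynomial.X) ^ m) *
          l1 (w (1 / 2) ^ (n - n / 2) * (Polynomial.X - 1))
        ≤ (M * √2 ^ m / √((n : ℝ) + 1) ^ m) * (2 * √2 / √((n : ℝ) + 1)) :=
          mul_le_mul k1 k2 (l1_nonneg _) (by positivity)
      _ = M * √2 ^ m * (2 * √2) / √((n : ℝ) + 1) ^ (m + 1) := by
          rw [pow_succ √((n : ℝ) + 1)]
          field_simp

theorem ip_diff_pow (m : ℕ) (R : ℝ[X]) : ∃ C : ℝ, 0 ≤ C ∧ ∀ n : ℕ,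
    ip (w (1 / 2) ^ n * ((1 - Polynomial.X) ^ m * R)) (w (1 / 2) ^ n * ((1 - Polynomial.X) ^ m * R)) ≤
      C / (((n : ℝ) + 1) ^ m * √((n : ℝ) + 1)) := by
  obtain ⟨C1, hC1, h1⟩ := l1_diff_pow_pe m
  obtain ⟨C2, hC2, h2⟩ := l1_diff_pow_pe (m + 1)
  have hR := l1_nonneg R
  refine ⟨(C2 * l1 R / 2) * (C1 * l1 R), by positivity, ?_⟩
  intro n
  set P : ℝ[X] := w (1 / 2) ^ n * ((1 - Polynomial.X) ^ m * R) with hP
  have hn0 : (0 : ℝ) < (n : ℝ) + 1 := by positivity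
  have hs : 0 < √((n : ℝ) + 1) := Real.sqrt_pos.mpr hn0
  have hss : √((n : ℝ) + 1) * √((n : ℝ) + 1) = (n : ℝ) + 1 := Real.mul_self_sqrt hn0.le
  have hl : l1 P ≤ C1 * l1 R / √((n : ℝ) + 1) ^ m := by
    have e : P = (w (1 / 2) ^ n * (1 - Polynomial.X) ^ m) * R := by
      rw [hP]
      ring
    rw [e]
    refine (l1_mul_le _ _).trans ?_
    calc l1 (w (1 / 2) ^ n * (1 - Polynomial.X) ^ m) * l1 R
        ≤ C1 / √((n : ℝ) + 1) ^ m * l1 R := mul_le_mul_of_nonneg_right (h1 n) hR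
      _ = _ := by ring
  have hl2 : l1 (P * (Polynomial.X - 1)) ≤ C2 * l1 R / √((n : ℝ) + 1) ^ (m + 1) := by
    have e : P * (Polynomial.X - 1) =
        -((w (1 / 2) ^ n * (1 - Polynomial.X) ^ (m + 1)) * R) := by
      rw [hP]
      ring
    rw [e, l1_neg]
    refine (l1_mul_le _ _).trans ?_
    calc l1 (w (1 / 2) ^ n * (1 - Polynomial.X) ^ (m + 1)) * l1 R
        ≤ C2 / √((n : ℝ) + 1) ^ (m + 1) * l1 R := mul_le_mul_of_nonneg_right (h2 n) hR
      _ = _ := by ring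
  have hsup : ∀ i, |P.coeff i| ≤ C2 * l1 R / √((n : ℝ) + 1) ^ (m + 1) / 2 := by
    intro i
    have := two_coeff_le P i
    linarith
  have h3 := ip_le_sup P P _ hsup
  refine (le_abs_self _).trans (h3.trans ?_)
  calc C2 * l1 R / √((n : ℝ) + 1) ^ (m + 1) / 2 * l1 P
      ≤ C2 * l1 R / √((n : ℝ) + 1) ^ (m + 1) / 2 * (C1 * l1 R / √((n : ℝ) + 1) ^ m) :=
        mul_le_mul_of_nonneg_left hl (by positivity)
    _ = (C2 * l1 R / 2) * (C1 * l1 R) / ((√((n : ℝ) + 1) * √((n : ℝ) + 1)) ^ m *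
        √((n : ℝ) + 1)) := by
        rw [mul_pow, pow_succ]
        field_simp
    _ = _ := by rw [hss]

end Vale.Agent.P321.Sup
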