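import Vale.Agent.P321.Sup.Cst
import Vale.Agent.P321.Sup.PolyE
import Vale.Agent.P321.KernAux

/-!
Blueprint module Coins: slip, almost orthogonality, coins lemma.
-/

namespace Vale.Agent.P321.Sup

open Polynomial

/-- overlap between `V ^ J` and `V ^ (J + 1)` -/
def Slip (V : Al) (J : ℕ) (om : ℝ) : Prop :=
  ∃ U : Al, Pos U ∧ Le U (V ^ J) ∧ Le U (V ^ (J + 1)) ∧ mass U = om

/-- the exchange operator -/
noncomputable def Eo (V x : Al) : Al := (1 / 2 : ℝ) • (V * x + x * V)

/-- `∑ P_i V^i x V^(d-i)` -/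
noncomputable def lin (V x : Al) (d : ℕ) (P : ℝ[X]) : Al :=
  ∑ i ∈ Finset.range (d + 1), P.coeff i • (V ^ i * x * V ^ (d - i))

/-- the shifts `V^j x` are almost orthogonal; `x` has `V`-length `l` -/
def Orth (V x : Al) (l : ℕ) (b : ℝ) : Prop :=
  ∀ (n : ℕ) (Y : ℕ → Al) (y : ℕ → ℝ), (∀ j ≤ n, Cost (Y j) (V ^ (n - j)) (y j)) →
    Cost (∑ j ∈ Finset.range (n + 1), V ^ j * x * Y j) (V ^ (n + l))
      (b * ∑ j ∈ Finset.range (n + 1), y j)

section slip

variable {V x : Al} {J l : ℕ} {om : ℝ}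

theorem cost_self_pos_h67 {a : Al} : Cost a a (mass a) :=
  ⟨fun _ => 1, fun w => by rw [one_mul], by simp [mass]⟩

/-- decompositions of `V ^ (J + 1)` -/
theorem Slip.split (hV : Prb V) (hs : Slip V J om) : ∃ U Rl Rr : Al, Pos U ∧ Pos Rl ∧ Pos Rr ∧
    mass U = om ∧
    V ^ (J + 1) = (1 / 2 : ℝ) • (U * (1 + V)) + Rl ∧
    V ^ (J + 1) = (1 / 2 : ℝ) • ((1 + V) * U) + Rr := by
  obtain ⟨U, hU, h1, h2, hm⟩ := hs
  refine ⟨U, V ^ (J + 1) - (1 / 2 : ℝ) • (U * (1 + V)),
    V ^ (J + 1) - (1 / 2 : ℝ) • ((1 + V) * U), hU, ?_, ?_, hm, ?_, ?_⟩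
  · apply Le.iff_pos.1
    have h3 : Le (U * V) (V ^ (J + 1)) := by
      rw [pow_succ]
      exact Le.mul_right h1 hV.pos
    have h4 := Le.smul (r := 1 / 2) (by norm_num) (Le.add h2 h3)
    have h5 : (1 / 2 : ℝ) • (V ^ (J + 1) + V ^ (J + 1)) = V ^ (J + 1) := by
      rw [← two_smul ℝ (V ^ (J + 1)), smul_smul]
      norm_num
    rw [h5] at h4
    rw [mul_add, mul_one]
    exact h4
  · apply Le.iff_pos.1
    have h3 : Le (V * U) (V ^ (J + 1)) := by
      rw [pow_succ']
      exact Le.mul_left h1 hV.pos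
    have h4 := Le.smul (r := 1 / 2) (by norm_num) (Le.add h2 h3)
    have h5 : (1 / 2 : ℝ) • (V ^ (J + 1) + V ^ (J + 1)) = V ^ (J + 1) := by
      rw [← two_smul ℝ (V ^ (J + 1)), smul_smul]
      norm_num
    rw [h5] at h4
    rw [add_mul, one_mul]
    exact h4
  · abel
  · abel

/-- the slip parameter can be decreased -/
theorem Slip.mono {om' : ℝ} (hs : Slip V J om) (h0 : 0 < om) (h : 0 ≤ om') (h' : om' ≤ om) :
    Slip V J om' := by
  obtain ⟨U, hU, h1, h2, hm⟩ := hs
  have hr : 0 ≤ om' / om := div_nonneg h h0.le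
  have hr1 : om' / om ≤ 1 := (div_le_one h0).2 h'
  have hle : Le ((om' / om) • U) U := by
    have := Le.smul_le hr1 hU
    rwa [one_smul] at this
  refine ⟨(om' / om) • U, Pos.smul hr hU, hle.trans h1, hle.trans h2, ?_⟩
  rw [mass_smul, hm, div_mul_cancel₀ _ h0.ne']

theorem Slip.of_nm (hV : Prb V) (h : nm (V ^ J - V ^ (J + 1)) ≤ 2 - 2 * om) (h0 : 0 ≤ om)
    (_h1 : om ≤ 1) : Slip V J om := by
  obtain ⟨U, hU, h1, h2, hm⟩ := exists_min (hV.pow J).pos (hV.pow (J + 1)).pos
  rw [(hV.pow J).mass, (hV.pow (J + 1)).mass] at hm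
  have h3 : om ≤ mass U := by linarith
  have hs : Slip V J (mass U) := ⟨U, hU, h1, h2, rfl⟩
  rcases h0.eq_or_lt with h4 | h4
  · subst h4
    exact ⟨0, Pos.zero, fun w => by rw [coeff_zero']; exact (hV.pow J).pos w,
      fun w => by rw [coeff_zero']; exact (hV.pow (J + 1)).pos w, mass_zero⟩
  · exact hs.mono (h4.trans_le h3) h0 h3

theorem sandwich_h67 {A B y R : Al} {K : ℝ} (hA : Pos A) (hB : Pos B) (hR : Pos R)
    (h : Cost y R K) : Cost (A * y * B) (A * R * B) (mass A * K * mass B) :=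
  Cost.mul (hA.mul hR) hB (Cost.mul hA hR cost_self_pos_h67 h) cost_self_pos_h67

/-- one coin -/
theorem coin_step (hV : Prb V) (hs : Slip V J om) (h0 : 0 ≤ om) (h1 : om ≤ 1) {N : ℕ} {K K' : ℝ}
    (h : Cost x (V ^ N) K) (h' : Cost (Eo V x) (V ^ (N + 1)) K') :
    Cost (V ^ (J + 1) * x * V ^ (J + 1)) (V ^ (2 * (J + 1) + N))
      (om ^ 2 / 2 * K' + (1 - om ^ 2 / 2) * K) := by
  obtain ⟨U, Rl, Rr, hU, hRl, hRr, hm, e1, e2⟩ := hs.split hV
  have hdec : ∀ y : Al, V ^ (J + 1) * y * V ^ (J + 1) =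
      (1 / 2 : ℝ) • (U * Eo V y * U) + (1 / 4 : ℝ) • (U * y * U) +
        (1 / 4 : ℝ) • ((U * V) * y * (V * U)) + ((1 / 2 : ℝ) • (U * (1 + V))) * y * Rr +
        Rl * y * V ^ (J + 1) := by
    intro y
    have h2 : V ^ (J + 1) * y * V ^ (J + 1) =
        ((1 / 2 : ℝ) • (U * (1 + V))) * y * ((1 / 2 : ℝ) • ((1 + V) * U)) +
        ((1 / 2 : ℝ) • (U * (1 + V))) * y * Rr + Rl * y * V ^ (J + 1) := by
      have h3 : V ^ (J + 1) * y * V ^ (J + 1) =
          ((1 / 2 : ℝ) • (U * (1 + V))) * y * V ^ (J + 1) + Rl * y * V ^ (J + 1) := by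
        rw [← add_mul, ← add_mul, ← e1]
      have h4 : ((1 / 2 : ℝ) • (U * (1 + V))) * y * V ^ (J + 1) =
          ((1 / 2 : ℝ) • (U * (1 + V))) * y * ((1 / 2 : ℝ) • ((1 + V) * U)) +
          ((1 / 2 : ℝ) • (U * (1 + V))) * y * Rr := by
        rw [← mul_add, ← e2]
      rw [h3, h4]
    have h5 : ((1 / 2 : ℝ) • (U * (1 + V))) * y * ((1 / 2 : ℝ) • ((1 + V) * U)) =
        (1 / 2 : ℝ) • (U * Eo V y * U) + (1 / 4 : ℝ) • (U * y * U) +
        (1 / 4 : ℝ) • ((U * V) * y * (V * U)) := by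
      have h6 : ((1 / 2 : ℝ) • (U * (1 + V))) * y * ((1 / 2 : ℝ) • ((1 + V) * U)) =
          (1 / 4 : ℝ) • (U * (1 + V) * y * ((1 + V) * U)) := by
        rw [smul_mul_assoc, smul_mul_assoc, mul_smul_comm, smul_smul]
        norm_num
      have h7 : (1 / 2 : ℝ) • (U * Eo V y * U) = (1 / 4 : ℝ) • (U * (V * y + y * V) * U) := by
        unfold Eo
        rw [mul_smul_comm, smul_mul_assoc, smul_smul]
        norm_num
      rw [h6, h7, ← smul_add, ← smul_add]
      congr 1
      noncomm_ring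
    rw [h2, h5]
  have hN : Pos (V ^ N) := (hV.pow N).pos
  have hEV : Eo V (V ^ N) = V ^ (N + 1) := by
    unfold Eo
    rw [← pow_succ', ← pow_succ, ← two_smul ℝ (V ^ (N + 1)), smul_smul]
    norm_num
  have href : V ^ (2 * (J + 1) + N) =
      (1 / 2 : ℝ) • (U * V ^ (N + 1) * U) + (1 / 4 : ℝ) • (U * V ^ N * U) +
        (1 / 4 : ℝ) • ((U * V) * V ^ N * (V * U)) + ((1 / 2 : ℝ) • (U * (1 + V))) * V ^ N * Rr +
        Rl * V ^ N * V ^ (J + 1) := by
    rw [← hEV, ← hdec, ← pow_add, ← pow_add]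
    congr 1
    ring
  have hN1 : Pos (V ^ (N + 1)) := (hV.pow (N + 1)).pos
  have hτ : Prb (V ^ (J + 1)) := hV.pow (J + 1)
  have hUV : Pos (U * V) := hU.mul hV.pos
  have hVU : Pos (V * U) := hV.pos.mul hU
  have hα : Pos ((1 / 2 : ℝ) • (U * (1 + V))) :=
    Pos.smul (by norm_num) (hU.mul (Pos.one.add hV.pos))
  have m1 : mass (U * V) = om := by rw [mass_mul, hm, hV.mass, mul_one]
  have m2 : mass (V * U) = om := by rw [mass_mul, hm, hV.mass, one_mul]
  have m3 : mass ((1 / 2 : ℝ) • (U * (1 + V))) = om := by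
    rw [mass_smul, mass_mul, mass_add, mass_one, hV.mass, hm]
    ring
  have m4 : mass Rr = 1 - om := by
    have := congrArg mass e2
    rw [hτ.mass, mass_add, mass_smul, mass_mul, mass_add, mass_one, hV.mass, hm] at this
    linarith
  have m5 : mass Rl = 1 - om := by
    have := congrArg mass e1
    rw [hτ.mass, mass_add, m3] at this
    linarith
  have c1 := Cost.smul_smul (r := 1 / 2) (by norm_num) (sandwich_h67 hU hU hN1 h')
  have c2 := Cost.smul_smul (r := 1 / 4) (by norm_num) (sandwich_h67 hU hU hN h)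
  have c3 := Cost.smul_smul (r := 1 / 4) (by norm_num) (sandwich_h67 hUV hVU hN h)
  have c4 := sandwich_h67 hα hRr hN h
  have c5 := sandwich_h67 hRl hτ.pos hN h
  have p1 : Pos ((1 / 2 : ℝ) • (U * V ^ (N + 1) * U)) :=
    Pos.smul (by norm_num) ((hU.mul hN1).mul hU)
  have p2 : Pos ((1 / 4 : ℝ) • (U * V ^ N * U)) := Pos.smul (by norm_num) ((hU.mul hN).mul hU)
  have p3 : Pos ((1 / 4 : ℝ) • ((U * V) * V ^ N * (V * U))) :=
    Pos.smul (by norm_num) ((hUV.mul hN).mul hVU)
  have p4 : Pos (((1 / 2 : ℝ) • (U * (1 + V))) * V ^ N * Rr) := (hα.mul hN).mul hRr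
  have p5 : Pos (Rl * V ^ N * V ^ (J + 1)) := (hRl.mul hN).mul hτ.pos
  have hsum := Cost.add_add (((p1.add p2).add p3).add p4) p5
    (Cost.add_add ((p1.add p2).add p3) p4 (Cost.add_add (p1.add p2) p3
      (Cost.add_add p1 p2 c1 c2) c3) c4) c5
  rw [hdec x, href]
  refine hsum.mono (le_of_eq ?_)
  rw [hm, m1, m2, m3, m4, m5, hτ.mass]
  ring

theorem Eo_comm_h67 (V y : Al) (j : ℕ) : Eo V (V ^ j * y * V ^ j) = V ^ j * Eo V y * V ^ j := by
  unfold Eo
  rw [mul_smul_comm, smul_mul_assoc]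
  congr 1
  rw [mul_add, add_mul]
  congr 1
  · rw [← mul_assoc, ← mul_assoc, ← pow_succ', ← mul_assoc (V ^ j) V y, ← pow_succ]
  · rw [mul_assoc (V ^ j * y), ← pow_succ, mul_assoc (V ^ j) (y * V), mul_assoc y V,
      ← pow_succ', ← mul_assoc]

theorem Eo_iterate_comm (V x : Al) (n j : ℕ) :
    (Eo V)^[n] (V ^ j * x * V ^ j) = V ^ j * (Eo V)^[n] x * V ^ j := by
  induction n with
  | zero => rfl
  | succ n ih => rw [Function.iterate_succ_apply', Function.iterate_succ_apply', ih, Eo_comm_h67]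

theorem natDegree_w_h67 (s : ℝ) : (w s).natDegree ≤ 1 := by
  unfold w
  refine (natDegree_add_le _ _).trans ?_
  apply max_le
  · rw [natDegree_C]; omega
  · exact (natDegree_C_mul_le _ _).trans natDegree_X_le

theorem natDegree_w_pow_h67 (s : ℝ) (n : ℕ) : (w s ^ n).natDegree ≤ n := by
  refine natDegree_pow_le.trans ?_
  have := Nat.mul_le_mul_left n (natDegree_w_h67 s)
  omega

/-- the recursion of binomial averages -/
theorem w_rec_h67 (p : ℝ) (K : ℕ) (G : ℕ → ℝ) :
    ∑ n ∈ Finset.range (K + 1 + 1), (w p ^ (K + 1)).coeff n * G n =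
      p * ∑ n ∈ Finset.range (K + 1), (w p ^ K).coeff n * G (n + 1) +
        (1 - p) * ∑ n ∈ Finset.range (K + 1), (w p ^ K).coeff n * G n := by
  have h1 : ∀ n, (w p ^ (K + 1)).coeff n =
      (1 - p) * (w p ^ K).coeff n + p * (X * w p ^ K).coeff n := by
    intro n
    rw [pow_succ', w_mul_coeff]
  have h2 : ∑ n ∈ Finset.range (K + 1 + 1), (w p ^ (K + 1)).coeff n * G n =
      ∑ n ∈ Finset.range (K + 1 + 1), p * ((X * w p ^ K).coeff n * G n) +
      ∑ n ∈ Finset.range (K + 1 + 1), (1 - p) * ((w p ^ K).coeff n * G n) := by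
    rw [← Finset.sum_add_distrib]
    refine Finset.sum_congr rfl fun n _ => ?_
    rw [h1]
    ring
  have h3 : (w p ^ K).coeff (K + 1) = 0 :=
    coeff_eq_zero_of_natDegree_lt (by have := natDegree_w_pow_h67 p K; omega)
  rw [h2, ← Finset.mul_sum, ← Finset.mul_sum, Finset.sum_range_succ',
    Finset.sum_range_succ (fun n => (w p ^ K).coeff n * G n) (K + 1), h3]
  simp only [coeff_X_mul, coeff_X_mul_zero, zero_mul, add_zero]

/-- coins lemma -/
theorem coins (hV : Prb V) (hs : Slip V J om) (h0 : 0 ≤ om) (h1 : om ≤ 1) {G : ℕ → ℝ}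
    (hG : ∀ n, Cost ((Eo V)^[n] x) (V ^ (n + l)) (G n)) (K : ℕ) :
    Cost (V ^ (K * (J + 1)) * x * V ^ (K * (J + 1))) (V ^ (2 * (K * (J + 1)) + l))
      (∑ n ∈ Finset.range (K + 1), (w (om ^ 2 / 2) ^ K).coeff n * G n) := by
  induction K generalizing x l G with
  | zero =>
    have := hG 0
    simpa using this
  | succ K ih =>
    have a1 := ih hG
    have hG' : ∀ n, Cost ((Eo V)^[n] (Eo V x)) (V ^ (n + (l + 1))) (G (n + 1)) := by
      intro n
      have := hG (n + 1)
      rw [Function.iterate_succ_apply] at this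
      rwa [show n + (l + 1) = n + 1 + l by omega]
    have a2 := ih hG'
    rw [← Eo_comm_h67, show 2 * (K * (J + 1)) + (l + 1) = 2 * (K * (J + 1)) + l + 1 by omega] at a2
    have a3 := coin_step hV hs h0 h1 a1 a2
    rw [w_rec_h67]
    have e1 : V ^ ((K + 1) * (J + 1)) * x * V ^ ((K + 1) * (J + 1)) =
        V ^ (J + 1) * (V ^ (K * (J + 1)) * x * V ^ (K * (J + 1))) * V ^ (J + 1) := by
      have p1 : V ^ ((K + 1) * (J + 1)) = V ^ (J + 1) * V ^ (K * (J + 1)) := by
        rw [← pow_add]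
        congr 1
        ring
      have p2 : V ^ ((K + 1) * (J + 1)) = V ^ (K * (J + 1)) * V ^ (J + 1) := by
        rw [← pow_add]
        congr 1
        ring
      calc V ^ ((K + 1) * (J + 1)) * x * V ^ ((K + 1) * (J + 1))
          = (V ^ (J + 1) * V ^ (K * (J + 1))) * x * (V ^ (K * (J + 1)) * V ^ (J + 1)) := by
            rw [← p1, ← p2]
        _ = _ := by simp only [mul_assoc]
    rw [e1, show 2 * ((K + 1) * (J + 1)) + l = 2 * (J + 1) + (2 * (K * (J + 1)) + l) by ring]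
    exact a3

end slip

section orth

variable {V x x' z A : Al} {l k g : ℕ} {b b' : ℝ}

theorem Orth.base {D : Al} (hV : Prb V) (hD0 : mass D = 0) (hD : Cost D V b) : Orth V D 1 b := by
  intro n
  induction n with
  | zero =>
    intro Y y hY
    have h1 := hY 0 le_rfl
    have h2 := Cost.mul hV.pos (hV.pow 0).pos hD h1
    simpa using h2
  | succ n ih =>
    intro Y y hY
    have h1 := ih (fun j => Y (j + 1)) (fun j => y (j + 1)) (fun j hj => by
      have := hY (j + 1) (by omega)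
      rwa [show n + 1 - (j + 1) = n - j by omega] at this)
    have h2 := hY 0 (by omega)
    rw [Nat.sub_zero] at h2
    have h3 := Cost.orth hV (hV.pow (n + 1)).pos hD0 hD h2 h1
    rw [Finset.sum_range_succ', Finset.sum_range_succ' (fun j => y j)]
    have e1 : ∑ j ∈ Finset.range (n + 1), V ^ (j + 1) * D * Y (j + 1) + V ^ 0 * D * Y 0 =
        D * Y 0 + V * ∑ j ∈ Finset.range (n + 1), V ^ j * D * Y (j + 1) := by
      rw [Finset.mul_sum, pow_zero, one_mul, add_comm]
      congr 1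
      refine Finset.sum_congr rfl fun j _ => ?_
      rw [pow_succ']
      simp only [mul_assoc]
    rw [e1, show n + 1 + 1 = (n + 1) + 1 from rfl, pow_succ' V (n + 1)]
    refine h3.mono (le_of_eq ?_)
    ring

theorem Orth.cost (_hV : Prb V) (h : Orth V x l b) : Cost x (V ^ l) b := by
  have := h 0 (fun _ => 1) (fun _ => 1) (fun j hj => by
    rw [show (0 : ℕ) - j = 0 by omega, pow_zero]
    exact Cost.self Prb.one)
  simpa using this

theorem Orth.nonneg (hV : Prb V) (h : Orth V x l b) : 0 ≤ b :=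
  Cost.nonneg (hV.pow l).pos (h.cost hV)

theorem Orth.sum_nonneg_h67 (hV : Prb V) {n : ℕ} {Y : ℕ → Al} {y : ℕ → ℝ}
    (hY : ∀ j ≤ n, Cost (Y j) (V ^ (n - j)) (y j)) : 0 ≤ ∑ j ∈ Finset.range (n + 1), y j :=
  Finset.sum_nonneg fun j hj =>
    Cost.nonneg (hV.pow _).pos (hY j (by have := Finset.mem_range.1 hj; omega))

theorem Orth.mono (hV : Prb V) (h : Orth V x l b) (hb : b ≤ b') : Orth V x l b' := by
  intro n Y y hY
  exact (h n Y y hY).mono (mul_le_mul_of_nonneg_right hb (Orth.sum_nonneg_h67 hV hY))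

theorem Orth.zero (V : Al) (l : ℕ) : Orth V 0 l 0 := by
  intro n Y y _
  simp only [mul_zero, zero_mul, Finset.sum_const_zero]
  exact Cost.zero _

theorem Orth.smul (_hV : Prb V) (h : Orth V x l b) (r : ℝ) : Orth V (r • x) l (r ^ 2 * b) := by
  intro n Y y hY
  have h1 := (h n Y y hY).smul r
  have e1 : ∑ j ∈ Finset.range (n + 1), V ^ j * r • x * Y j =
      r • ∑ j ∈ Finset.range (n + 1), V ^ j * x * Y j := by
    rw [Finset.smul_sum]
    refine Finset.sum_congr rfl fun j _ => ?_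
    rw [mul_smul_comm, smul_mul_assoc]
  rw [e1, mul_assoc]
  exact h1

theorem Orth.neg (_hV : Prb V) (h : Orth V x l b) : Orth V (-x) l b := by
  intro n Y y hY
  have h1 := (h n Y y hY).neg
  have e1 : ∑ j ∈ Finset.range (n + 1), V ^ j * -x * Y j =
      -∑ j ∈ Finset.range (n + 1), V ^ j * x * Y j := by
    rw [← Finset.sum_neg_distrib]
    refine Finset.sum_congr rfl fun j _ => ?_
    rw [mul_neg, neg_mul]
  rw [e1]
  exact h1

theorem Orth.add (hV : Prb V) (h : Orth V x l b) (h' : Orth V x' l b') :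
    Orth V (x + x') l (2 * b + 2 * b') := by
  intro n Y y hY
  have h1 := Cost.add (hV.pow (n + l)).pos (h n Y y hY) (h' n Y y hY)
  have e1 : ∑ j ∈ Finset.range (n + 1), V ^ j * (x + x') * Y j =
      ∑ j ∈ Finset.range (n + 1), V ^ j * x * Y j +
        ∑ j ∈ Finset.range (n + 1), V ^ j * x' * Y j := by
    rw [← Finset.sum_add_distrib]
    refine Finset.sum_congr rfl fun j _ => ?_
    rw [mul_add, add_mul]
  rw [e1]
  refine h1.mono (le_of_eq ?_)
  ring

theorem Orth.mul_right (hV : Prb V) (h : Orth V x l b) (hz : Cost z (V ^ k) b') :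
    Orth V (x * z) (l + k) (b * b') := by
  intro n Y y hY
  have h1 := h (n + k) (fun j => if j ≤ n then z * Y j else 0)
    (fun j => if j ≤ n then b' * y j else 0) (fun j _ => by
      by_cases hj : j ≤ n
      · simp only [hj, if_true]
        have h2 := Cost.mul (hV.pow k).pos (hV.pow (n - j)).pos hz (hY j hj)
        rwa [← pow_add, show k + (n - j) = n + k - j by omega] at h2
      · simp only [hj, if_false]
        exact Cost.zero _)
  have e1 : ∑ j ∈ Finset.range (n + k + 1), V ^ j * x * (if j ≤ n then z * Y j else 0) =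
      ∑ j ∈ Finset.range (n + 1), V ^ j * (x * z) * Y j := by
    rw [show n + k + 1 = (n + 1) + k by omega, Finset.sum_range_add]
    have e2 : ∑ i ∈ Finset.range k, V ^ (n + 1 + i) * x *
        (if n + 1 + i ≤ n then z * Y (n + 1 + i) else 0) = 0 := by
      apply Finset.sum_eq_zero
      intro i _
      rw [if_neg (by omega), mul_zero]
    rw [e2, add_zero]
    refine Finset.sum_congr rfl fun j hj => ?_
    rw [if_pos (by have := Finset.mem_range.1 hj; omega)]
    simp only [mul_assoc]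
  have e3 : ∑ j ∈ Finset.range (n + k + 1), (if j ≤ n then b' * y j else 0) =
      b' * ∑ j ∈ Finset.range (n + 1), y j := by
    rw [show n + k + 1 = (n + 1) + k by omega, Finset.sum_range_add]
    have e2 : ∑ i ∈ Finset.range k, (if n + 1 + i ≤ n then b' * y (n + 1 + i) else 0) = 0 := by
      apply Finset.sum_eq_zero
      intro i _
      rw [if_neg (by omega)]
    rw [e2, add_zero, Finset.mul_sum]
    refine Finset.sum_congr rfl fun j hj => ?_
    rw [if_pos (by have := Finset.mem_range.1 hj; omega)]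
  rw [e1, e3, show n + k + l = n + (l + k) by omega] at h1
  refine h1.mono (le_of_eq ?_)
  ring

theorem Orth.pow_left (_hV : Prb V) (h : Orth V x l b) (k : ℕ) : Orth V (V ^ k * x) (k + l) b := by
  intro n Y y hY
  have h1 := h (n + k) (fun j => if k ≤ j then Y (j - k) else 0)
    (fun j => if k ≤ j then y (j - k) else 0) (fun j hj => by
      by_cases hk : k ≤ j
      · simp only [hk, if_true]
        have h2 := hY (j - k) (by omega)
        rwa [show n - (j - k) = n + k - j by omega] at h2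
      · simp only [hk, if_false]
        exact Cost.zero _)
  have e1 : ∑ j ∈ Finset.range (n + k + 1), V ^ j * x * (if k ≤ j then Y (j - k) else 0) =
      ∑ j ∈ Finset.range (n + 1), V ^ j * (V ^ k * x) * Y j := by
    rw [show n + k + 1 = k + (n + 1) by omega, Finset.sum_range_add]
    have e2 : ∑ i ∈ Finset.range k, V ^ i * x * (if k ≤ i then Y (i - k) else 0) = 0 := by
      apply Finset.sum_eq_zero
      intro i hi
      rw [if_neg (by have := Finset.mem_range.1 hi; omega), mul_zero]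
    rw [e2, zero_add]
    refine Finset.sum_congr rfl fun j _ => ?_
    rw [if_pos (by omega), show k + j - k = j by omega, add_comm k j, pow_add]
    simp only [mul_assoc]
  have e3 : ∑ j ∈ Finset.range (n + k + 1), (if k ≤ j then y (j - k) else 0) =
      ∑ j ∈ Finset.range (n + 1), y j := by
    rw [show n + k + 1 = k + (n + 1) by omega, Finset.sum_range_add]
    have e2 : ∑ i ∈ Finset.range k, (if k ≤ i then y (i - k) else 0) = 0 := by
      apply Finset.sum_eq_zero
      intro i hi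
      rw [if_neg (by have := Finset.mem_range.1 hi; omega)]
    rw [e2, zero_add]
    refine Finset.sum_congr rfl fun j _ => ?_
    rw [if_pos (by omega), show k + j - k = j by omega]
  rw [e1, e3, show n + k + l = n + (k + l) by omega] at h1
  exact h1

/-- left multiplication by an element close to `V ^ g` -/
theorem Orth.mul_left (hV : Prb V) {a : ℝ} (hA : Orth V (A - V ^ g) g a) (h : Orth V x l b) :
    Orth V (A * x) (g + l) (2 * b + 2 * (a * b)) := by
  have h1 := Orth.add hV (h.pow_left hV g) (hA.mul_right hV (h.cost hV))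
  have e1 : V ^ g * x + (A - V ^ g) * x = A * x := by
    rw [sub_mul]
    abel
  rwa [e1] at h1

theorem Orth.lin_cost (hV : Prb V) (h : Orth V x l b) {d : ℕ} {P : ℝ[X]} (hd : P.natDegree ≤ d) :
    Cost (lin V x d P) (V ^ (d + l)) (b * ip P P) := by
  have h1 := h d (fun j => P.coeff j • V ^ (d - j)) (fun j => P.coeff j ^ 2) (fun j _ => by
    have := (Cost.self (hV.pow (d - j))).smul (P.coeff j)
    rwa [mul_one] at this)
  have e1 : ∑ j ∈ Finset.range (d + 1), V ^ j * x * P.coeff j • V ^ (d - j) = lin V x d P := by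
    unfold lin
    refine Finset.sum_congr rfl fun j _ => ?_
    rw [mul_smul_comm]
  have e2 : ∑ j ∈ Finset.range (d + 1), P.coeff j ^ 2 = ip P P := by
    rw [ip_eq_sum P P (d + 1) (by omega)]
    refine Finset.sum_congr rfl fun j _ => ?_
    ring
  rw [e1, e2] at h1
  exact h1

theorem Eo_lin_one_h67 (V x : Al) {d : ℕ} {P : ℝ[X]} (hd : P.natDegree ≤ d) :
    Eo V (lin V x d P) = lin V x (d + 1) (w (1 / 2) * P) := by
  have hz : P.coeff (d + 1) = 0 := coeff_eq_zero_of_natDegree_lt (by omega)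
  have h1 : ∀ i, (w (1 / 2) * P).coeff i = (1 / 2) * P.coeff i + (1 / 2) * (X * P).coeff i := by
    intro i
    rw [w_mul_coeff]
    ring
  unfold lin
  have e1 : ∑ i ∈ Finset.range (d + 1 + 1), (w (1 / 2) * P).coeff i • (V ^ i * x * V ^ (d + 1 - i)) =
      ∑ i ∈ Finset.range (d + 1 + 1), ((1 / 2) * P.coeff i) • (V ^ i * x * V ^ (d + 1 - i)) +
      ∑ i ∈ Finset.range (d + 1 + 1), ((1 / 2) * (X * P).coeff i) •
        (V ^ i * x * V ^ (d + 1 - i)) := by
    rw [← Finset.sum_add_distrib]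
    refine Finset.sum_congr rfl fun i _ => ?_
    rw [h1, add_smul]
  have e2 : ∑ i ∈ Finset.range (d + 1 + 1), ((1 / 2) * (X * P).coeff i) •
        (V ^ i * x * V ^ (d + 1 - i)) =
      ∑ i ∈ Finset.range (d + 1), ((1 / 2) * P.coeff i) •
        (V ^ (i + 1) * x * V ^ (d + 1 - (i + 1))) := by
    rw [Finset.sum_range_succ']
    simp only [coeff_X_mul, coeff_X_mul_zero, mul_zero, zero_smul, add_zero]
  rw [e1, e2, Finset.sum_range_succ (fun i => ((1 / 2) * P.coeff i) • (V ^ i * x * V ^ (d + 1 - i))),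
    hz, mul_zero, zero_smul, add_zero]
  unfold Eo
  rw [Finset.mul_sum, Finset.sum_mul, smul_add, Finset.smul_sum, Finset.smul_sum, add_comm]
  congr 1
  · refine Finset.sum_congr rfl fun i hi => ?_
    have hi' : i ≤ d := by have := Finset.mem_range.1 hi; omega
    rw [smul_mul_assoc, smul_smul, mul_assoc (V ^ i * x), ← pow_succ,
      show d - i + 1 = d + 1 - i by omega]
  · refine Finset.sum_congr rfl fun i hi => ?_
    rw [mul_smul_comm, smul_smul, ← mul_assoc, ← mul_assoc, ← pow_succ',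
      show d + 1 - (i + 1) = d - i by omega]

theorem Eo_lin (V x : Al) {d : ℕ} {P : ℝ[X]} (hd : P.natDegree ≤ d) (n : ℕ) :
    (Eo V)^[n] (lin V x d P) = lin V x (n + d) (w (1 / 2) ^ n * P) := by
  induction n with
  | zero => simp
  | succ n ih =>
    have h1 : (w (1 / 2) ^ n * P).natDegree ≤ n + d := by
      refine natDegree_mul_le.trans ?_
      have := natDegree_w_pow_h67 (1 / 2) n
      omega
    rw [Function.iterate_succ_apply', ih, Eo_lin_one_h67 V x h1,
      show n + 1 + d = n + d + 1 by omega, pow_succ', mul_assoc]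

end orth

/-! ### killing, gain, smoothing -/

theorem kill (m : ℕ) (R : ℝ[X]) : ∃ C : ℝ, 0 ≤ C ∧ ∀ (V x : Al) (J l d K : ℕ) (om b : ℝ),
    Prb V → Slip V J om → 0 < om → om ≤ 1 → Orth V x l b →
    ((1 - Polynomial.X) ^ m * R).natDegree ≤ d → 1 ≤ K →
    Cost (V ^ (K * (J + 1)) * lin V x d ((1 - Polynomial.X) ^ m * R) * V ^ (K * (J + 1)))
      (V ^ (2 * (K * (J + 1)) + (d + l)))
      (b * (C / ((om ^ 2 * K) ^ m * √(om ^ 2 * K)))) := by
  obtain ⟨C1, hC1, h1⟩ := ip_diff_pow m R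
  obtain ⟨C2, hC2, h2⟩ := bin_avg_half m
  refine ⟨C1 * C2 * (2 ^ m * √2), by positivity, ?_⟩
  intro V x J l d K om b hV hs h0 hle hO hd hK
  have hb := hO.nonneg hV
  set P : ℝ[X] := (1 - Polynomial.X) ^ m * R with hP
  have hp0 : 0 < om ^ 2 / 2 := by positivity
  have hp1 : om ^ 2 / 2 ≤ 1 := by nlinarith
  have hG : ∀ n, Cost ((Eo V)^[n] (lin V x d P)) (V ^ (n + (d + l)))
      (b * ip (w (1 / 2) ^ n * P) (w (1 / 2) ^ n * P)) := by
    intro n
    rw [Eo_lin V x hd n]
    have h3 : (w (1 / 2) ^ n * P).natDegree ≤ n + d := by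
      refine natDegree_mul_le.trans ?_
      have := natDegree_w_pow_h67 (1 / 2) n
      omega
    have h4 := hO.lin_cost hV h3
    rwa [show n + d + l = n + (d + l) by omega] at h4
  refine (coins hV hs h0.le hle hG K).mono ?_
  have h5 : ∑ n ∈ Finset.range (K + 1), (w (om ^ 2 / 2) ^ K).coeff n *
      (b * ip (w (1 / 2) ^ n * P) (w (1 / 2) ^ n * P)) ≤
      b * C1 * ∑ n ∈ Finset.range (K + 1), (w (om ^ 2 / 2) ^ K).coeff n *
        (1 / (((n : ℝ) + 1) ^ m * √((n : ℝ) + 1))) := by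
    rw [Finset.mul_sum]
    apply Finset.sum_le_sum
    intro n _
    have h6 : 0 ≤ (w (om ^ 2 / 2) ^ K).coeff n :=
      coeff_pow_nonneg _ (w_coeff_nonneg hp0.le hp1) K n
    have h7 := mul_le_mul_of_nonneg_left (h1 n) hb
    calc (w (om ^ 2 / 2) ^ K).coeff n * (b * ip (w (1 / 2) ^ n * P) (w (1 / 2) ^ n * P))
        ≤ (w (om ^ 2 / 2) ^ K).coeff n * (b * (C1 / (((n : ℝ) + 1) ^ m * √((n : ℝ) + 1)))) :=
          mul_le_mul_of_nonneg_left h7 h6
      _ = _ := by ring
  refine h5.trans ?_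
  have h8 := mul_le_mul_of_nonneg_left (h2 (om ^ 2 / 2) K hp0 hp1 hK) (mul_nonneg hb hC1)
  refine h8.trans (le_of_eq ?_)
  have hKp : (0 : ℝ) < K := by exact_mod_cast hK
  have e1 : om ^ 2 / 2 * (K : ℝ) = (om ^ 2 * K) / 2 := by ring
  have e2 : √((om ^ 2 * (K : ℝ)) / 2) = √(om ^ 2 * K) / √2 := Real.sqrt_div (by positivity) 2
  rw [e1, e2, div_pow]
  field_simp

theorem gain : ∃ C : ℝ, 0 ≤ C ∧ ∀ (V x : Al) (J l K : ℕ) (om b : ℝ),
    Prb V → Slip V J om → 0 < om → om ≤ 1 → Orth V x l b → 1 ≤ K →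
    Cost (V ^ (K * (J + 1)) * x * V ^ (K * (J + 1))) (V ^ (2 * (K * (J + 1)) + l))
      (b * (C / √(om ^ 2 * K))) := by
  obtain ⟨C, hC, h⟩ := kill 0 1
  refine ⟨C, hC, ?_⟩
  intro V x J l K om b hV hs h0 hle hO hK
  have h1 := h V x J l 0 K om b hV hs h0 hle hO (by simp) hK
  have e1 : lin V x 0 ((1 - Polynomial.X) ^ 0 * 1) = x := by
    simp [lin]
  rw [e1] at h1
  simpa using h1

theorem nm_aeval_h67 {V : Al} (hV : Prb V) (Q : ℝ[X]) : nm (aeval V Q) ≤ l1 Q := by
  rw [aeval_eq_sum_range, l1_eq_sum Q (Q.natDegree + 1) (by omega)]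
  refine (nm_sum _ _).trans (Finset.sum_le_sum fun i _ => ?_)
  rw [nm_smul, (hV.pow i).nm, mul_one]

theorem smooth_aux_h67 {V : Al} {J : ℕ} {om : ℝ} (hV : Prb V) (hs : Slip V J om) (h0 : 0 ≤ om)
    (h1 : om ≤ 1) (K : ℕ) (Q : ℝ[X]) :
    nm (V ^ (K * (J + 1)) * aeval V Q) ≤
      ∑ n ∈ Finset.range (K + 1), (w om ^ K).coeff n * l1 (w (1 / 2) ^ n * Q) := by
  induction K generalizing Q with
  | zero =>
    simpa using nm_aeval_h67 hV Q
  | succ K ih =>
    obtain ⟨U, Rl, Rr, hU, hRl, hRr, hm, e1, e2⟩ := hs.split hV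
    have m5 : mass Rl = 1 - om := by
      have := congrArg mass e1
      rw [(hV.pow (J + 1)).mass, mass_add, mass_smul, mass_mul, mass_add, mass_one, hV.mass,
        hm] at this
      linarith
    have hw : aeval V (w (1 / 2) * Q) = (1 / 2 : ℝ) • ((1 + V) * aeval V Q) := by
      rw [map_mul]
      unfold w
      rw [map_add, map_mul, aeval_C, aeval_C, aeval_X, Algebra.algebraMap_eq_smul_one,
        Algebra.algebraMap_eq_smul_one, smul_mul_assoc, one_mul]
      rw [show (1 - 1 / 2 : ℝ) = 1 / 2 by norm_num, ← smul_add, smul_mul_assoc]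
    have hcomm : Commute (1 + V) (V ^ (K * (J + 1))) :=
      ((Commute.one_left _).add_left (Commute.self_pow V _))
    have e3 : V ^ ((K + 1) * (J + 1)) * aeval V Q =
        U * (V ^ (K * (J + 1)) * aeval V (w (1 / 2) * Q)) +
          Rl * (V ^ (K * (J + 1)) * aeval V Q) := by
      have e4 : V ^ ((K + 1) * (J + 1)) = V ^ (J + 1) * V ^ (K * (J + 1)) := by
        rw [← pow_add]
        congr 1
        ring
      rw [e4, e1, add_mul, add_mul, hw]
      congr 1
      · rw [smul_mul_assoc, smul_mul_assoc, mul_smul_comm, mul_smul_comm]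
        congr 1
        have := hcomm.eq
        calc U * (1 + V) * V ^ (K * (J + 1)) * aeval V Q
            = U * ((1 + V) * V ^ (K * (J + 1))) * aeval V Q := by simp only [mul_assoc]
          _ = U * (V ^ (K * (J + 1)) * (1 + V)) * aeval V Q := by rw [this]
          _ = _ := by simp only [mul_assoc]
      · rw [mul_assoc]
    rw [e3, w_rec_h67 om K (fun n => l1 (w (1 / 2) ^ n * Q))]
    refine (nm_add _ _).trans (add_le_add ?_ ?_)
    · refine (nm_mul _ _).trans ?_
      rw [nm_of_pos hU, hm]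
      refine mul_le_mul_of_nonneg_left ((ih (w (1 / 2) * Q)).trans (le_of_eq ?_)) h0
      refine Finset.sum_congr rfl fun n _ => ?_
      rw [pow_succ, mul_assoc]
    · refine (nm_mul _ _).trans ?_
      rw [nm_of_pos hRl, m5]
      exact mul_le_mul_of_nonneg_left (ih Q) (by linarith)

/-- L1 smoothing -/
theorem smooth : ∃ C : ℝ, 0 ≤ C ∧ ∀ (V : Al) (J K : ℕ) (om : ℝ),
    Prb V → Slip V J om → 0 < om → om ≤ 1 → 1 ≤ K →
    nm (V ^ (K * (J + 1)) * (1 - V)) ≤ C / √(om * K) := by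
  obtain ⟨C, hC, h⟩ := bin_avg_half 0
  refine ⟨2 * C, by positivity, ?_⟩
  intro V J K om hV hs h0 h1 hK
  have h2 := smooth_aux_h67 hV hs h0.le h1 K (1 - X)
  have e1 : aeval V (1 - X : ℝ[X]) = 1 - V := by
    rw [map_sub, map_one, aeval_X]
  rw [e1] at h2
  refine h2.trans ?_
  have h3 : ∀ n : ℕ, l1 (w (1 / 2) ^ n * (1 - X)) ≤ 2 * (1 / √((n : ℝ) + 1)) := by
    intro n
    have h4 := l1_w_pow_mul_sub (s := 1 / 2) (by norm_num) (by norm_num) n
    have e2 : w (1 / 2) ^ n * (1 - X) = -(w (1 / 2) ^ n * (X - 1)) := by ring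
    rw [e2, l1_neg]
    refine h4.trans (le_of_eq ?_)
    have e3 : ((n : ℝ) + 1) * (1 / 2) * (1 - 1 / 2) = ((n : ℝ) + 1) / 2 ^ 2 := by ring
    rw [e3, Real.sqrt_div (by positivity), Real.sqrt_sq (by norm_num)]
    field_simp
  have h5 : ∑ n ∈ Finset.range (K + 1), (w om ^ K).coeff n * l1 (w (1 / 2) ^ n * (1 - X)) ≤
      2 * ∑ n ∈ Finset.range (K + 1), (w om ^ K).coeff n *
        (1 / (((n : ℝ) + 1) ^ 0 * √((n : ℝ) + 1))) := by
    rw [Finset.mul_sum]
    apply Finset.sum_le_sum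
    intro n _
    have h6 : 0 ≤ (w om ^ K).coeff n := coeff_pow_nonneg _ (w_coeff_nonneg h0.le h1) K n
    have h7 := mul_le_mul_of_nonneg_left (h3 n) h6
    refine h7.trans (le_of_eq ?_)
    rw [pow_zero, one_mul]
    ring
  refine h5.trans ?_
  have h8 := mul_le_mul_of_nonneg_left (h om K h0 h1 hK) (zero_le_two (α := ℝ))
  refine h8.trans (le_of_eq ?_)
  rw [pow_zero, one_mul]
  ring

end Vale.Agent.P321.Sup
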