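import Vale.Agent.P321.Sup.Alg

/-!
Blueprint module Cst: calculus of the chi-square cost.
-/

namespace Vale.Agent.P321.Sup

/-! ### cost -/

section cost

variable {a a' b b' c D R V X B : Al} {K K' : ℝ}

theorem Cst_density {φ : Wd → ℝ} (h : ∀ w, a.coeff w = φ w * b.coeff w) (f : Wd → ℝ) :
    ev f a = ev (fun w => f w * φ w) b := by
  classical
  have hsub : a.coeff.support ⊆ b.coeff.support := by
    intro w hw
    rw [Finsupp.mem_support_iff] at hw ⊢
    intro h0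
    exact hw (by rw [h w, h0, mul_zero])
  unfold ev
  rw [Finsupp.sum_of_support_subset a.coeff hsub _ (fun w _ => by simp), Finsupp.sum]
  refine Finset.sum_congr rfl fun w _ => ?_
  rw [h w]; ring

/-- Cauchy-Schwarz in majorised form -/
theorem Cst_cs (hb : Pos b) {h E q : Wd → ℝ} (hE : ∀ w, 0 ≤ E w) (hq : ∀ w, 0 ≤ q w)
    (hle : ∀ w, h w ^ 2 ≤ E w * q w) : (ev h b) ^ 2 ≤ ev E b * ev q b := by
  have h1 : ∀ w, |h w| ≤ Real.sqrt (E w) * Real.sqrt (q w) := by
    intro w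
    rw [← Real.sqrt_mul (hE w), ← Real.sqrt_sq_eq_abs]
    exact Real.sqrt_le_sqrt (hle w)
  have h2 : |ev h b| ≤ ev (fun w => Real.sqrt (E w) * Real.sqrt (q w)) b := by
    rw [abs_le]
    constructor
    · have e : ev (fun w => -1 * (Real.sqrt (E w) * Real.sqrt (q w))) b =
          -1 * ev (fun w => Real.sqrt (E w) * Real.sqrt (q w)) b := ev_fun_mul _ _ _
      have := ev_mono (f := fun w => -1 * (Real.sqrt (E w) * Real.sqrt (q w))) (g := h) hb
        (fun w => by have := (abs_le.mp (h1 w)).1; linarith)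
      rw [e] at this
      linarith
    · exact ev_mono hb fun w => (abs_le.mp (h1 w)).2
  have h3 := ev_cs hb (fun w => Real.sqrt (E w)) (fun w => Real.sqrt (q w))
  have e1 : (fun w => Real.sqrt (E w) ^ 2) = E := funext fun w => Real.sq_sqrt (hE w)
  have e2 : (fun w => Real.sqrt (q w) ^ 2) = q := funext fun w => Real.sq_sqrt (hq w)
  rw [e1, e2] at h3
  refine le_trans ?_ h3
  rw [← sq_abs (ev h b)]
  exact pow_le_pow_left₀ (abs_nonneg _) h2 2

theorem Cost.mono (h : Cost a b K) (hK : K ≤ K') : Cost a b K' := by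
  obtain ⟨φ, h1, h2⟩ := h
  exact ⟨φ, h1, h2.trans hK⟩
theorem Cost.nonneg (hb : Pos b) (h : Cost a b K) : 0 ≤ K := by
  obtain ⟨φ, h1, h2⟩ := h
  exact (ev_nonneg hb fun w => sq_nonneg _).trans h2
/-- dual form -/
theorem Cost.dual (hb : Pos b) (h : Cost a b K) (f : Wd → ℝ) :
    (ev f a) ^ 2 ≤ K * ev (fun w => f w ^ 2) b := by
  obtain ⟨φ, h1, h2⟩ := h
  rw [Cst_density h1 f]
  refine (ev_cs hb f φ).trans ?_
  rw [mul_comm]
  exact mul_le_mul_of_nonneg_right h2 (ev_nonneg hb fun w => sq_nonneg _)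
theorem Cost.of_dual (hb : Pos b) (hK : 0 ≤ K)
    (h : ∀ f : Wd → ℝ, (ev f a) ^ 2 ≤ K * ev (fun w => f w ^ 2) b) : Cost a b K := by
  classical
  have h1 : ∀ w, a.coeff w = (a.coeff w / b.coeff w) * b.coeff w := by
    intro w
    by_cases h0 : b.coeff w = 0
    · have h2 := h (fun v => if v = w then 1 else 0)
      have e : (fun v : Wd => (if v = w then (1 : ℝ) else 0) ^ 2) = fun v => if v = w then 1 else 0 := by
        funext v; split_ifs <;> simp
      rw [e, ev_indicator, ev_indicator, h0, mul_zero] at h2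
      have h3 : a.coeff w = 0 := by
        have := le_antisymm h2 (sq_nonneg _)
        exact pow_eq_zero_iff (two_ne_zero) |>.mp this
      rw [h3]; simp
    · field_simp
  refine ⟨fun w => a.coeff w / b.coeff w, h1, ?_⟩
  set E := ev (fun w => (a.coeff w / b.coeff w) ^ 2) b with hE
  have h2 := h (fun w => a.coeff w / b.coeff w)
  rw [Cst_density h1] at h2
  have e : (fun w => a.coeff w / b.coeff w * (a.coeff w / b.coeff w)) =
      fun w => (a.coeff w / b.coeff w) ^ 2 := by funext w; ring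
  rw [e, ← hE] at h2
  have hE0 : 0 ≤ E := ev_nonneg hb fun w => sq_nonneg _
  rcases eq_or_lt_of_le hE0 with h3 | h3
  · rw [← h3]; exact hK
  · have : E * E ≤ K * E := by rw [← sq]; exact h2
    exact le_of_mul_le_mul_right this h3
theorem Cost.zero (b : Al) : Cost 0 b 0 := by
  refine ⟨fun _ => 0, fun w => by rw [coeff_zero', zero_mul], ?_⟩
  have := ev_fun_mul 0 (fun _ => (1 : ℝ)) b
  have e : (fun _ : Wd => (0 : ℝ) ^ 2) = fun _ => (0 : ℝ) * 1 := by funext w; simp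
  rw [e, this, zero_mul]
theorem Cost.self (ha : Prb a) : Cost a a 1 := by
  refine ⟨fun _ => 1, fun w => by rw [one_mul], ?_⟩
  have e : (fun _ : Wd => (1 : ℝ) ^ 2) = fun _ => (1 : ℝ) := by funext w; simp
  rw [e]
  exact le_of_eq ha.mass
/-- change of reference -/
theorem Cost.ref {Λ : ℝ} (hb : Pos b) (hb' : Pos b') (hΛ : 0 ≤ Λ) (hle : Le b (Λ • b'))
    (h : Cost a b K) : Cost a b' (Λ * K) := by
  have hK := h.nonneg hb
  refine Cost.of_dual hb' (mul_nonneg hΛ hK) fun f => ?_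
  refine (h.dual hb f).trans ?_
  have h1 := ev_le_of_Le (f := fun w => f w ^ 2) hle (fun w => sq_nonneg _)
  rw [ev_smul] at h1
  calc K * ev (fun w => f w ^ 2) b ≤ K * (Λ * ev (fun w => f w ^ 2) b') :=
        mul_le_mul_of_nonneg_left h1 hK
    _ = Λ * K * ev (fun w => f w ^ 2) b' := by ring
theorem Cost.smul (r : ℝ) (h : Cost a b K) : Cost (r • a) b (r ^ 2 * K) := by
  obtain ⟨φ, h1, h2⟩ := h
  refine ⟨fun w => r * φ w, fun w => by rw [coeff_smul', h1 w]; ring, ?_⟩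
  have e : (fun w => (r * φ w) ^ 2) = fun w => r ^ 2 * φ w ^ 2 := by funext w; ring
  rw [e, ev_fun_mul]
  exact mul_le_mul_of_nonneg_left h2 (sq_nonneg r)
theorem Cost.neg (h : Cost a b K) : Cost (-a) b K := by
  obtain ⟨φ, h1, h2⟩ := h
  refine ⟨fun w => - φ w, fun w => by rw [coeff_neg', h1 w]; ring, ?_⟩
  have e : (fun w => (- φ w) ^ 2) = fun w => φ w ^ 2 := by funext w; ring
  rw [e]
  exact h2
theorem Cost.smul_smul {r : ℝ} (hr : 0 ≤ r) (h : Cost a b K) : Cost (r • a) (r • b) (r * K) := by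
  obtain ⟨φ, h1, h2⟩ := h
  refine ⟨φ, fun w => by rw [coeff_smul', coeff_smul', h1 w]; ring, ?_⟩
  rw [ev_smul]
  exact mul_le_mul_of_nonneg_left h2 hr
/-- (C2), in the form with factors 2 -/
theorem Cost.add (hb : Pos b) (h : Cost a b K) (h' : Cost a' b K') :
    Cost (a + a') b (2 * K + 2 * K') := by
  obtain ⟨φ, h1, h2⟩ := h
  obtain ⟨φ', h1', h2'⟩ := h'
  refine ⟨fun w => φ w + φ' w, fun w => by rw [coeff_add', h1 w, h1' w]; ring, ?_⟩
  calc ev (fun w => (φ w + φ' w) ^ 2) b ≤ ev (fun w => 2 * φ w ^ 2 + 2 * φ' w ^ 2) b :=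
        ev_mono hb fun w => by nlinarith [sq_nonneg (φ w - φ' w)]
    _ = 2 * ev (fun w => φ w ^ 2) b + 2 * ev (fun w => φ' w ^ 2) b := by
        rw [ev_fun_add (fun w => 2 * φ w ^ 2) (fun w => 2 * φ' w ^ 2), ev_fun_mul, ev_fun_mul]
    _ ≤ 2 * K + 2 * K' := by linarith
theorem Cost.sub (hb : Pos b) (h : Cost a b K) (h' : Cost a' b K') :
    Cost (a - a') b (2 * K + 2 * K') := by
  rw [sub_eq_add_neg]
  exact h.add hb h'.neg
theorem Cost.add3 {a'' : Al} {K'' : ℝ} (hb : Pos b) (h : Cost a b K) (h' : Cost a' b K')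
    (h'' : Cost a'' b K'') : Cost (a + a' + a'') b (3 * K + 3 * K' + 3 * K'') := by
  obtain ⟨φ, h1, h2⟩ := h
  obtain ⟨φ', h1', h2'⟩ := h'
  obtain ⟨φ'', h1'', h2''⟩ := h''
  refine ⟨fun w => φ w + φ' w + φ'' w, fun w => by
    rw [coeff_add', coeff_add', h1 w, h1' w, h1'' w]; ring, ?_⟩
  calc ev (fun w => (φ w + φ' w + φ'' w) ^ 2) b ≤
        ev (fun w => (3 * φ w ^ 2 + 3 * φ' w ^ 2) + 3 * φ'' w ^ 2) b :=
        ev_mono hb fun w => by
          nlinarith [sq_nonneg (φ w - φ' w), sq_nonneg (φ w - φ'' w), sq_nonneg (φ' w - φ'' w)]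
    _ = 3 * ev (fun w => φ w ^ 2) b + 3 * ev (fun w => φ' w ^ 2) b +
          3 * ev (fun w => φ'' w ^ 2) b := by
        rw [ev_fun_add (fun w => 3 * φ w ^ 2 + 3 * φ' w ^ 2) (fun w => 3 * φ'' w ^ 2),
          ev_fun_add (fun w => 3 * φ w ^ 2) (fun w => 3 * φ' w ^ 2), ev_fun_mul, ev_fun_mul,
          ev_fun_mul]
    _ ≤ 3 * K + 3 * K' + 3 * K'' := by linarith
theorem Cst_xy {x y E E' : ℝ} (hK : 0 ≤ K) (hK' : 0 ≤ K') (hE : 0 ≤ E) (hE' : 0 ≤ E')
    (hx : x ^ 2 ≤ K * E) (hy : y ^ 2 ≤ K' * E') : (x + y) ^ 2 ≤ (K + K') * (E + E') := by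
  have h1 : (2 * (x * y)) ^ 2 ≤ (K * E' + K' * E) ^ 2 := by
    have h2 : x ^ 2 * y ^ 2 ≤ (K * E) * (K' * E') :=
      mul_le_mul hx hy (sq_nonneg _) (mul_nonneg hK hE)
    have h3 : 4 * ((K * E') * (K' * E)) ≤ (K * E' + K' * E) ^ 2 := by
      nlinarith [sq_nonneg (K * E' - K' * E)]
    calc (2 * (x * y)) ^ 2 = 4 * (x ^ 2 * y ^ 2) := by ring
      _ ≤ 4 * ((K * E) * (K' * E')) := by linarith
      _ = 4 * ((K * E') * (K' * E)) := by ring
      _ ≤ _ := h3
  have h4 := abs_le_of_sq_le_sq h1 (by positivity)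
  have h5 := (abs_le.mp h4).2
  nlinarith
/-- (C5), joint subadditivity -/
theorem Cost.add_add (hb : Pos b) (hb' : Pos b') (h : Cost a b K) (h' : Cost a' b' K') :
    Cost (a + a') (b + b') (K + K') := by
  have hK := h.nonneg hb
  have hK' := h'.nonneg hb'
  refine Cost.of_dual (hb.add hb') (add_nonneg hK hK') fun f => ?_
  rw [ev_add, ev_add]
  exact Cst_xy hK hK' (ev_nonneg hb fun w => sq_nonneg _) (ev_nonneg hb' fun w => sq_nonneg _)
    (h.dual hb f) (h'.dual hb' f)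
/-- (C4) -/
theorem Cost.mul (hb : Pos b) (hb' : Pos b') (h : Cost a b K) (h' : Cost a' b' K') :
    Cost (a * a') (b * b') (K * K') := by
  have hK := h.nonneg hb
  have hK' := h'.nonneg hb'
  refine Cost.of_dual (hb.mul hb') (mul_nonneg hK hK') fun f => ?_
  rw [ev_mul, ev_mul]
  refine (h.dual hb _).trans ?_
  rw [mul_assoc]
  refine mul_le_mul_of_nonneg_left ?_ hK
  rw [← ev_fun_mul]
  exact ev_mono hb fun u => h'.dual hb' fun v => f (u * v)
theorem Cost.pow (hb : Pos b) (h : Cost a b K) (n : ℕ) : Cost (a ^ n) (b ^ n) (K ^ n) := by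
  induction n with
  | zero => rw [pow_zero, pow_zero, pow_zero]; exact Cost.self Prb.one
  | succ n ih => rw [pow_succ, pow_succ, pow_succ]; exact ih.mul (hb.pow n) hb h
/-- (C6) -/
theorem Cost.orth {r x : ℝ} (hV : Prb V) (hB : Pos B) (hD0 : mass D = 0) (hD : Cost D V K)
    (hR : Cost R B r) (hX : Cost X B x) : Cost (D * R + V * X) (V * B) (K * r + x) := by
  have hK := hD.nonneg hV.pos
  have hr := hR.nonneg hB
  have hx := hX.nonneg hB
  obtain ⟨δ, d1, d2⟩ := hD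
  obtain ⟨ρ, r1, r2⟩ := hR
  obtain ⟨ξ, x1, x2⟩ := hX
  refine Cost.of_dual (hV.pos.mul hB) (by positivity) fun f => ?_
  set R2 := ev (fun v => ρ v ^ 2) B with hR2
  set RX := ev (fun v => ρ v * ξ v) B with hRX
  set X2 := ev (fun v => ξ v ^ 2) B with hX2
  have q_eq : ∀ t : ℝ, ev (fun v => (t * ρ v + ξ v) ^ 2) B = t ^ 2 * R2 + 2 * t * RX + X2 := by
    intro t
    have e : (fun v => (t * ρ v + ξ v) ^ 2) =
        fun v => (t ^ 2 * ρ v ^ 2 + (2 * t) * (ρ v * ξ v)) + ξ v ^ 2 := by funext v; ring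
    rw [e, ev_fun_add (fun v => t ^ 2 * ρ v ^ 2 + (2 * t) * (ρ v * ξ v)) (fun v => ξ v ^ 2),
      ev_fun_add (fun v => t ^ 2 * ρ v ^ 2) (fun v => (2 * t) * (ρ v * ξ v)), ev_fun_mul,
      ev_fun_mul]
  have e1 : ev f (D * R + V * X) = ev (fun u => ev (fun v => f (u * v) * (δ u * ρ v + ξ v)) B) V := by
    rw [ev_add, ev_mul, ev_mul, Cst_density d1, ← ev_fun_add]
    have e2 : (fun w => ev (fun v => f (w * v)) R * δ w + ev (fun v => f (w * v)) X) =
        fun u => ev (fun v => f (u * v) * (δ u * ρ v + ξ v)) B := by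
      funext u
      rw [Cst_density r1, Cst_density x1, mul_comm, ← ev_fun_mul, ← ev_fun_add]
      congr 1
      funext v
      ring
    rw [e2]
  rw [e1, ev_mul]
  have hcs := Cst_cs hV.pos (h := fun u => ev (fun v => f (u * v) * (δ u * ρ v + ξ v)) B)
    (E := fun u => ev (fun v => f (u * v) ^ 2) B)
    (q := fun u => ev (fun v => (δ u * ρ v + ξ v) ^ 2) B)
    (fun u => ev_nonneg hB fun v => sq_nonneg _) (fun u => ev_nonneg hB fun v => sq_nonneg _)
    (fun u => ev_cs hB (fun v => f (u * v)) (fun v => δ u * ρ v + ξ v))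
  refine hcs.trans ?_
  rw [mul_comm]
  refine mul_le_mul_of_nonneg_right ?_ (ev_nonneg hV.pos fun u => ev_nonneg hB fun v => sq_nonneg _)
  have e3 : (fun u => ev (fun v => (δ u * ρ v + ξ v) ^ 2) B) =
      fun u => (R2 * δ u ^ 2 + (2 * RX) * (1 * δ u)) + X2 * 1 := by
    funext u; rw [q_eq]; ring
  have hd0 : ev (fun u => 1 * δ u) V = 0 := by
    have h0 := Cst_density d1 (fun _ => (1 : ℝ))
    rw [← h0]; exact hD0
  have hm : ev (fun _ => (1 : ℝ)) V = 1 := hV.mass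
  rw [e3, ev_fun_add (fun u => R2 * δ u ^ 2 + (2 * RX) * (1 * δ u)) (fun _ => X2 * 1),
    ev_fun_add (fun u => R2 * δ u ^ 2) (fun u => (2 * RX) * (1 * δ u)), ev_fun_mul,
    ev_fun_mul (2 * RX), ev_fun_mul X2, hd0, hm]
  have hR20 : 0 ≤ R2 := ev_nonneg hB fun v => sq_nonneg _
  have hδ0 : 0 ≤ ev (fun u => δ u ^ 2) V := ev_nonneg hV.pos fun v => sq_nonneg _
  have : R2 * ev (fun u => δ u ^ 2) V ≤ r * K := mul_le_mul r2 d2 hδ0 hr
  linarith
/-- density `1 + φ` -/
theorem Cost.one_add (hb : Prb b) (ha : mass a = 1) (h : Cost (a - b) b K) : Cost a b (1 + K) := by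
  obtain ⟨φ, h1, h2⟩ := h
  refine ⟨fun w => 1 + φ w, fun w => by
    have := h1 w
    rw [coeff_sub'] at this
    linarith, ?_⟩
  have e : (fun w => (1 + φ w) ^ 2) = fun w => (1 + 2 * (1 * φ w)) + φ w ^ 2 := by funext w; ring
  have h0 := Cst_density h1 (fun _ => (1 : ℝ))
  have hm : ev (fun _ => (1 : ℝ)) b = 1 := hb.mass
  have h3 : ev (fun _ => (1 : ℝ)) (a - b) = 0 := by
    have := mass_sub a b
    rw [ha, hb.mass, sub_self] at this
    exact this
  rw [e, ev_fun_add (fun w => 1 + 2 * (1 * φ w)) (fun w => φ w ^ 2),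
    ev_fun_add (fun _ => 1) (fun w => 2 * (1 * φ w)), ev_fun_mul, ← h0, h3, hm]
  linarith
theorem Cost.sub_one (hb : Prb b) (ha : mass a = 1) (h : Cost a b (1 + K)) : Cost (a - b) b K := by
  obtain ⟨φ, h1, h2⟩ := h
  refine ⟨fun w => φ w - 1, fun w => by rw [coeff_sub', h1 w]; ring, ?_⟩
  have e : (fun w => (φ w - 1) ^ 2) = fun w => (1 + (-2) * (1 * φ w)) + φ w ^ 2 := by
    funext w; ring
  have h0 := Cst_density h1 (fun _ => (1 : ℝ))
  have hm : ev (fun _ => (1 : ℝ)) b = 1 := hb.mass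
  have h3 : ev (fun _ => (1 : ℝ)) a = 1 := ha
  rw [e, ev_fun_add (fun w => 1 + (-2) * (1 * φ w)) (fun w => φ w ^ 2),
    ev_fun_add (fun _ => 1) (fun w => (-2) * (1 * φ w)), ev_fun_mul, ← h0, h3, hm]
  linarith
/-- (C7) -/
theorem Cost.tensor (hb : Prb b) (ha : mass a = 1) (h : Cost (a - b) b K) (n : ℕ) :
    Cost (a ^ n - b ^ n) (b ^ n) ((1 + K) ^ n - 1) := by
  refine Cost.sub_one (hb.pow n) ?_ ?_
  · rw [mass_pow, ha, one_pow]
  · have := (Cost.one_add hb ha h).pow hb.pos n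
    refine this.mono (le_of_eq ?_)
    ring
/-- (C1) -/
theorem Cost.nm_sq (hb : Prb b) (h : Cost a b K) : nm a ^ 2 ≤ K := by
  have hK := h.nonneg hb.pos
  have h1 : nm a ≤ Real.sqrt K := by
    refine nm_le_of_ev fun f hf => ?_
    refine Real.le_sqrt_of_sq_le ?_
    refine (h.dual hb.pos f).trans ?_
    have h2 : ev (fun w => f w ^ 2) b ≤ ev (fun _ => 1) b := ev_mono hb.pos fun w => by
      have := hf w
      rw [← sq_abs]
      exact pow_le_one₀ (abs_nonneg _) this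
    have h3 : ev (fun _ => (1 : ℝ)) b = 1 := hb.mass
    rw [h3] at h2
    calc K * ev (fun w => f w ^ 2) b ≤ K * 1 := mul_le_mul_of_nonneg_left h2 hK
      _ = K := mul_one K
  calc nm a ^ 2 ≤ Real.sqrt K ^ 2 := pow_le_pow_left₀ (nm_nonneg a) h1 2
    _ = K := Real.sq_sqrt hK
/-- removing the mass does not increase the cost -/
theorem Cost.center (hb : Prb b) (h : Cost a b K) : Cost (a - mass a • b) b K := by
  obtain ⟨φ, h1, h2⟩ := h
  refine ⟨fun w => φ w - mass a, fun w => by rw [coeff_sub', coeff_smul', h1 w]; ring, ?_⟩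
  have h0 := Cst_density h1 (fun _ => (1 : ℝ))
  have hm : ev (fun _ => (1 : ℝ)) b = 1 := hb.mass
  have h3 : ev (fun _ => (1 : ℝ)) a = mass a := rfl
  have e : (fun w => (φ w - mass a) ^ 2) =
      fun w => (mass a ^ 2 * 1 + (-2 * mass a) * (1 * φ w)) + φ w ^ 2 := by
    funext w; ring
  rw [e, ev_fun_add (fun w => mass a ^ 2 * 1 + (-2 * mass a) * (1 * φ w)) (fun w => φ w ^ 2),
    ev_fun_add (fun _ => mass a ^ 2 * 1) (fun w => (-2 * mass a) * (1 * φ w)), ev_fun_mul,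
    ev_fun_mul, ← h0, h3, hm]
  nlinarith [sq_nonneg (mass a)]
/-- pointwise domination gives a cost -/
theorem Cost.of_le {r : ℝ} (hb : Prb b) (hr : 0 ≤ r)
    (h : ∀ w, |a.coeff w| ≤ r * b.coeff w) : Cost a b (r ^ 2) := by
  refine ⟨fun w => a.coeff w / b.coeff w, fun w => ?_, ?_⟩
  · by_cases h0 : b.coeff w = 0
    · have := h w
      rw [h0, mul_zero] at this
      have h1 : a.coeff w = 0 := abs_eq_zero.mp (le_antisymm this (abs_nonneg _))
      rw [h0, mul_zero]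
      exact h1
    · field_simp
  · have hm : ev (fun _ => (1 : ℝ)) b = 1 := hb.mass
    calc ev (fun w => (a.coeff w / b.coeff w) ^ 2) b ≤ ev (fun _ => r ^ 2 * 1) b := by
          refine ev_mono hb.pos fun w => ?_
          rw [mul_one, ← sq_abs]
          refine pow_le_pow_left₀ (abs_nonneg _) ?_ 2
          rw [abs_div, abs_of_nonneg (hb.pos w)]
          rcases eq_or_lt_of_le (hb.pos w) with h0 | h0
          · rw [← h0, div_zero]; exact hr
          · rw [div_le_iff₀ h0]; exact h w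
      _ = r ^ 2 := by rw [ev_fun_mul, hm, mul_one]
/-- restriction, with change of reference on the set -/
theorem Cost.res {S : Set Wd} {Λ : ℝ} (hb : Pos b) (hb' : Pos b') (hΛ : 0 ≤ Λ)
    (hle : ∀ w ∈ S, b.coeff w ≤ Λ * b'.coeff w) (h : Cost a b K) :
    Cost (res S a) b' (Λ * K) := by
  classical
  have hK := h.nonneg hb
  have hres : ∀ (c : Al) (g : Wd → ℝ), ev g (Sup.res S c) = ev (fun w => g w * if w ∈ S then 1 else 0) c := by
    intro c g
    refine Cst_density (fun w => ?_) g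
    by_cases hw : w ∈ S
    · rw [res_coeff_mem hw, if_pos hw, one_mul]
    · rw [res_coeff_not_mem hw, if_neg hw, zero_mul]
  refine Cost.of_dual hb' (mul_nonneg hΛ hK) fun f => ?_
  rw [hres]
  refine (h.dual hb _).trans ?_
  have e : (fun w => (f w * if w ∈ S then 1 else 0) ^ 2) =
      fun w => (fun w => f w ^ 2) w * if w ∈ S then 1 else 0 := by
    funext w; split_ifs <;> simp
  rw [e, ← hres b (fun w => f w ^ 2)]
  have hL : Le (Sup.res S b) (Λ • b') := by
    intro w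
    rw [coeff_smul']
    by_cases hw : w ∈ S
    · rw [res_coeff_mem hw]; exact hle w hw
    · rw [res_coeff_not_mem hw]; exact mul_nonneg hΛ (hb' w)
  have h1 := ev_le_of_Le (f := fun w => f w ^ 2) hL (fun w => sq_nonneg _)
  rw [ev_smul] at h1
  calc K * ev (fun w => f w ^ 2) (Sup.res S b) ≤ K * (Λ * ev (fun w => f w ^ 2) b') :=
        mul_le_mul_of_nonneg_left h1 hK
    _ = Λ * K * ev (fun w => f w ^ 2) b' := by ring

end cost

end Vale.Agent.P321.Sup
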