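import Vale.Agent.P321.Sup.Coins

/-!
Blueprint module SlipNext: slip of the next level.
-/

namespace Vale.Agent.P321.Sup

theorem slipnext_sqrt_bound {C om J n K : ℝ} (hC : 0 ≤ C) (hom : 0 < om) (hJ : 0 < J) (hn : 0 < n)
    (hK : 0 < K) (h : n ≤ 2 * (J * K)) : C / √(om * K) ≤ 2 * C * √(J / (om * n)) := by
  have h1 : (1 : ℝ) / √(om * K) ≤ 2 * √(J / (om * n)) := by
    rw [div_le_iff₀ (Real.sqrt_pos.2 (by positivity)), mul_assoc, ← Real.sqrt_mul (by positivity)]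
    have h2 : J / (om * n) * (om * K) = J * K / n := by
      field_simp
    rw [h2]
    have h3 : (1 / 2 : ℝ) ≤ J * K / n := by
      rw [le_div_iff₀ hn]; linarith
    have h4 : √((1 / 2 : ℝ) ^ 2) ≤ √(J * K / n) :=
      Real.sqrt_le_sqrt (by nlinarith)
    rw [Real.sqrt_sq (by norm_num)] at h4
    linarith
  calc C / √(om * K) = C * (1 / √(om * K)) := by ring
    _ ≤ C * (2 * √(J / (om * n))) := mul_le_mul_of_nonneg_left h1 hC
    _ = _ := by ring

/-- smoothing at an arbitrary exponent -/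
theorem smooth_pow : ∃ C : ℝ, 1 ≤ C ∧ ∀ (V : Al) (J n g : ℕ) (om : ℝ),
    Prb V → Slip V J om → 0 < om → om ≤ 1 → J + 1 ≤ n →
    nm (V ^ n * (1 - V ^ g)) ≤ g * C * √(((J : ℝ) + 1) / (om * n)) := by
  obtain ⟨C, hC, h⟩ := smooth
  refine ⟨2 * C + 1, by linarith, ?_⟩
  intro V J n g om hV hs hom0 hom1 hn
  set K := n / (J + 1) with hK
  have hK1 : 1 ≤ K := by
    rw [hK]; exact (Nat.one_le_div_iff (by omega)).2 hn
  have hle : K * (J + 1) ≤ n := Nat.div_mul_le_self n (J + 1)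
  have hlt : n < K * (J + 1) + (J + 1) := by
    have := Nat.lt_div_mul_add (a := n) (b := J + 1) (by omega)
    exact this
  have hup : n ≤ 2 * ((J + 1) * K) := by nlinarith
  have h1 := h V J K om hV hs hom0 hom1 hK1
  have h2 : V ^ n * (1 - V) = V ^ (n - K * (J + 1)) * (V ^ (K * (J + 1)) * (1 - V)) := by
    rw [← mul_assoc, ← pow_add, Nat.sub_add_cancel hle]
  have h3 : nm (V ^ n * (1 - V)) ≤ C / √(om * K) := by
    rw [h2]
    refine (nm_mul _ _).trans ?_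
    rw [(hV.pow _).nm, one_mul]
    exact h1
  have h4 : V ^ n * (1 - V ^ g) = (V ^ n * (1 - V)) * ∑ i ∈ Finset.range g, V ^ i := by
    rw [mul_assoc, mul_neg_geom_sum]
  have h5 : nm (∑ i ∈ Finset.range g, V ^ i) ≤ g := by
    refine (nm_sum _ _).trans ?_
    have : ∀ i ∈ Finset.range g, nm (V ^ i) = 1 := fun i _ => (hV.pow i).nm
    rw [Finset.sum_congr rfl this]
    simp
  have hJ0 : (0 : ℝ) < (J : ℝ) + 1 := by positivity
  have hn0 : (0 : ℝ) < n := by
    have : 0 < n := by omega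
    exact_mod_cast this
  have hK0 : (0 : ℝ) < K := by exact_mod_cast hK1
  have h6 : C / √(om * K) ≤ 2 * C * √(((J : ℝ) + 1) / (om * n)) :=
    slipnext_sqrt_bound hC hom0 hJ0 hn0 hK0 (by exact_mod_cast hup)
  rw [h4]
  refine (nm_mul _ _).trans ?_
  have h7 : 0 ≤ nm (∑ i ∈ Finset.range g, V ^ i) := nm_nonneg _
  have h8 : 0 ≤ √(((J : ℝ) + 1) / (om * n)) := Real.sqrt_nonneg _
  have h9 : 0 ≤ nm (V ^ n * (1 - V)) := nm_nonneg _
  calc nm (V ^ n * (1 - V)) * nm (∑ i ∈ Finset.range g, V ^ i)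
      ≤ (2 * C * √(((J : ℝ) + 1) / (om * n))) * g := by
        refine mul_le_mul (h3.trans h6) h5 h7 (by positivity)
    _ ≤ g * (2 * C + 1) * √(((J : ℝ) + 1) / (om * n)) := by
        have : 0 ≤ (g : ℝ) * √(((J : ℝ) + 1) / (om * n)) := by positivity
        nlinarith [this]

theorem nm_pow_sub (A B : Al) (T : ℝ) (hA : nm A ≤ T) (hB : nm B ≤ T) (hT : 1 ≤ T) (n : ℕ) :
    nm (A ^ n - B ^ n) ≤ n * T ^ n * nm (A - B) := by
  induction n with
  | zero =>
    simp only [pow_zero, sub_self, Nat.cast_zero, zero_mul]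
    rw [nm_zero]
  | succ n ih =>
    have e1 : A ^ (n + 1) - B ^ (n + 1) = A * (A ^ n - B ^ n) + (A - B) * B ^ n := by
      rw [pow_succ', pow_succ', mul_sub, sub_mul]
      abel
    have hδ : 0 ≤ nm (A - B) := nm_nonneg _
    have hBn : nm (B ^ n) ≤ T ^ n :=
      (nm_pow _ _).trans (pow_le_pow_left₀ (nm_nonneg _) hB n)
    have hTn : 0 ≤ T ^ n := by positivity
    rw [e1]
    refine (nm_add _ _).trans ?_
    have h1 : nm (A * (A ^ n - B ^ n)) ≤ T * (n * T ^ n * nm (A - B)) :=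
      (nm_mul _ _).trans (mul_le_mul hA ih (nm_nonneg _) (by linarith))
    have h2 : nm ((A - B) * B ^ n) ≤ nm (A - B) * T ^ n :=
      (nm_mul _ _).trans (mul_le_mul_of_nonneg_left hBn hδ)
    have h3 : nm (A - B) * T ^ n ≤ T * (T ^ n * nm (A - B)) := by
      have : 0 ≤ T ^ n * nm (A - B) := by positivity
      nlinarith
    calc _ ≤ T * (n * T ^ n * nm (A - B)) + T * (T ^ n * nm (A - B)) :=
        add_le_add h1 (h2.trans h3)
      _ = ((n + 1 : ℕ) : ℝ) * T ^ (n + 1) * nm (A - B) := by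
        push_cast; ring

theorem slipnext_exp_small {n : ℕ} {e x : ℝ} (he : 0 ≤ e) (h : n * e ≤ x) (hx : x ≤ 1 / 32) :
    (1 + e) ^ n ≤ 1 + 2 * x := by
  have hx0 : 0 ≤ x := le_trans (by positivity) h
  have h1 : (1 + e) ^ n ≤ Real.exp (n * e) := by
    rw [Real.exp_nat_mul]
    refine pow_le_pow_left₀ (by linarith) ?_ n
    have := Real.add_one_le_exp e
    linarith
  have h2 : Real.exp (n * e) ≤ Real.exp x := Real.exp_le_exp.2 h
  have h3 : Real.exp x ≤ 1 / (1 - x) := by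
    rw [le_div_iff₀ (by linarith)]
    have h4 := Real.add_one_le_exp (-x)
    have h5 : Real.exp x * Real.exp (-x) = 1 := by rw [← Real.exp_add]; simp
    have h6 : 0 < Real.exp x := Real.exp_pos x
    nlinarith
  have h7 : 1 / (1 - x) ≤ 1 + 2 * x := by
    rw [div_le_iff₀ (by linarith)]
    nlinarith
  linarith

theorem slip_next : ∃ C : ℝ, 1 ≤ C ∧ ∀ (V V' A : Al) (J g J' : ℕ) (om e t : ℝ),
    Prb V → Slip V J om → 0 < om → om ≤ 1 → Prb V' → mass A = 1 → nm (V' - A) ≤ t →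
    Cost (A - V ^ g) (V ^ g) e → 1 ≤ g → C * g * ((J : ℝ) + 1) ≤ om * J' →
    ((J' : ℝ) + 1) * e ≤ 1 / 100 → ((J' : ℝ) + 1) * t ≤ 1 / 32 →
    Slip V' J' (1 / 2) := by
  obtain ⟨C, hC, hsm⟩ := smooth_pow
  refine ⟨64 * C ^ 2, by nlinarith, ?_⟩
  intro V V' A J g J' om e t hV hs hom0 hom1 hV' hA hA' hcost hg hJ' he ht
  have hg1 : (1 : ℝ) ≤ g := by exact_mod_cast hg
  have hVg : Prb (V ^ g) := hV.pow g
  have he0 : 0 ≤ e := hcost.nonneg hVg.pos
  have ht0 : 0 ≤ t := (nm_nonneg _).trans hA'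
  have hJpos : (0 : ℝ) < (J : ℝ) + 1 := by positivity
  have hJ'0 : (0 : ℝ) < J' := by
    by_contra hcon
    have hz : (J' : ℝ) ≤ 0 := not_lt.1 hcon
    have h1 : 0 < 64 * C ^ 2 * g * ((J : ℝ) + 1) := by positivity
    nlinarith
  have hAnm : nm A ≤ 1 + t := by
    have h1 := nm_triangle A V' 0
    have h2 : nm (A - V') = nm (V' - A) := nm_sub_comm _ _
    rw [sub_zero, sub_zero, hV'.nm, h2] at h1
    linarith
  have hT : (1 : ℝ) ≤ 1 + t := by linarith
  -- `V'^k` versus `A^k`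
  have hstep1 : ∀ k : ℕ, (k : ℝ) ≤ J' + 1 → nm (V' ^ k - A ^ k) ≤ 1 / 16 := by
    intro k hk
    have h1 := nm_pow_sub V' A (1 + t) (by rw [hV'.nm]; linarith) hAnm hT k
    have hkt : (k : ℝ) * t ≤ 1 / 32 :=
      (mul_le_mul_of_nonneg_right hk ht0).trans ht
    have h2 := slipnext_exp_small ht0 hkt le_rfl
    have h3 : (k : ℝ) * (1 + t) ^ k * nm (V' - A) ≤ (k * t) * (1 + t) ^ k := by
      have : 0 ≤ (k : ℝ) * (1 + t) ^ k := by positivity
      nlinarith [mul_le_mul_of_nonneg_left hA' this]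
    have h4 : (k * t) * (1 + t) ^ k ≤ 1 / 32 * (1 + 2 * (1 / 32)) := by
      refine mul_le_mul hkt h2 (by positivity) (by norm_num)
    linarith
  -- `A^k` versus `V^(g k)`
  have hstep2 : ∀ k : ℕ, (k : ℝ) ≤ J' + 1 → nm (A ^ k - (V ^ g) ^ k) ≤ 1 / 4 := by
    intro k hk
    have h1 := (Cost.tensor hVg hA hcost k).nm_sq (hVg.pow k)
    have hke : (k : ℝ) * e ≤ 1 / 100 :=
      (mul_le_mul_of_nonneg_right hk he0).trans he
    have h2 := slipnext_exp_small he0 hke (by norm_num)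
    have h3 : nm (A ^ k - (V ^ g) ^ k) ^ 2 ≤ (1 / 4) ^ 2 := by linarith
    exact le_of_sq_le_sq h3 (by norm_num)
  -- smoothing
  have hn : J + 1 ≤ g * J' := by
    have h1 : ((J : ℝ) + 1) ≤ g * J' := by
      have h2 : ((J : ℝ) + 1) ≤ 64 * C ^ 2 * g * ((J : ℝ) + 1) := by
        have h3 : 1 ≤ 64 * C ^ 2 * g := by nlinarith [sq_nonneg (C - 1)]
        nlinarith
      have h4 : om * J' ≤ g * J' := by nlinarith
      linarith
    exact_mod_cast h1
  have hstep3 : nm ((V ^ g) ^ J' - (V ^ g) ^ (J' + 1)) ≤ 1 / 8 := by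
    have e1 : (V ^ g) ^ J' - (V ^ g) ^ (J' + 1) = V ^ (g * J') * (1 - V ^ g) := by
      rw [pow_succ, ← pow_mul, mul_sub, mul_one]
    rw [e1]
    refine (hsm V J (g * J') g om hV hs hom0 hom1 hn).trans ?_
    have hC0 : 0 < C := by linarith
    have e2 : √(((J : ℝ) + 1) / (om * ((g * J' : ℕ) : ℝ))) ≤ 1 / (8 * C * g) := by
      rw [Real.sqrt_le_left (by positivity)]
      push_cast
      rw [div_pow, one_pow, div_le_div_iff₀ (by positivity) (by positivity)]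
      have e3 := mul_le_mul_of_nonneg_left hJ' (by positivity : (0 : ℝ) ≤ g)
      nlinarith
    calc (g : ℝ) * C * √(((J : ℝ) + 1) / (om * ((g * J' : ℕ) : ℝ)))
        ≤ g * C * (1 / (8 * C * g)) := mul_le_mul_of_nonneg_left e2 (by positivity)
      _ = 1 / 8 := by field_simp
  refine Slip.of_nm hV' ?_ (by norm_num) (by norm_num)
  have k1 : (J' : ℝ) ≤ J' + 1 := by linarith
  have k2 : ((J' + 1 : ℕ) : ℝ) ≤ J' + 1 := by push_cast; linarith
  have a1 := hstep1 J' k1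
  have a2 := hstep2 J' k1
  have a3 := hstep1 (J' + 1) k2
  have a4 := hstep2 (J' + 1) k2
  rw [nm_sub_comm] at a3 a4
  have b1 := nm_triangle (V' ^ J') (A ^ J') (V' ^ (J' + 1))
  have b2 := nm_triangle (A ^ J') ((V ^ g) ^ J') (V' ^ (J' + 1))
  have b3 := nm_triangle ((V ^ g) ^ J') ((V ^ g) ^ (J' + 1)) (V' ^ (J' + 1))
  have b4 := nm_triangle ((V ^ g) ^ (J' + 1)) (A ^ (J' + 1)) (V' ^ (J' + 1))
  linarith

end Vale.Agent.P321.Sup
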