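import Vale.Agent.P321.Sup.Words2
import Vale.Agent.P321.Sup.Renyi
import Vale.Agent.P321.Sup.SlipNext
import Vale.Agent.P321.Sup.Law

/-!
Auxiliary lemmas for DoubleStep.
-/

namespace Vale.Agent.P321.Sup

section cells

variable {A B A' B' V : Al}

theorem cells_nil (A B : Al) : cells A B [] = 1 := rfl

theorem cells_cons (A B : Al) (b : Bool) (l : List Bool) :
    cells A B (b :: l) = (if b then A else B) * cells A B l := by
  simp [cells]

theorem cells_self (A : Al) (l : List Bool) : cells A A l = A ^ l.length := by
  induction l with
  | nil => simp [cells_nil]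
  | cons b l ih =>
    rw [cells_cons, ih, List.length_cons, pow_succ']
    simp

theorem cells_prb (hA : Prb A) (hB : Prb B) (l : List Bool) : Prb (cells A B l) := by
  apply Prb.list_prod
  intro a ha
  rw [List.mem_map] at ha
  obtain ⟨b, _, rfl⟩ := ha
  cases b
  · simpa using hB
  · simpa using hA

theorem smul_mul_smul' (r s : ℝ) (a b : Al) : (r • a) * (s • b) = (r * s) • (a * b) := by
  rw [smul_mul_assoc, mul_smul_comm, smul_smul]

theorem cells_le {c : ℝ} (hA : Pos A) (hB : Pos B) (hc : 0 ≤ c)
    (hAA : Le A (c • A')) (hBB : Le B (c • B')) (l : List Bool) :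
    Le (cells A B l) (c ^ l.length • cells A' B' l) := by
  induction l with
  | nil =>
    rw [cells_nil, cells_nil, List.length_nil, pow_zero, one_smul]
    exact Le.refl _
  | cons b l ih =>
    rw [cells_cons, cells_cons, List.length_cons, pow_succ', ← smul_mul_smul']
    apply Le.mul
    · cases b
      · simpa using hBB
      · simpa using hAA
    · exact ih
    · cases b
      · simpa using hB
      · simpa using hA
    · have : ∀ l : List Bool, Pos (cells A B l) := by
        intro l
        induction l with
        | nil => exact Pos.one
        | cons b l ih =>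
          rw [cells_cons]
          apply Pos.mul _ ih
          cases b
          · simpa using hB
          · simpa using hA
      exact this l

theorem nm_mul_sub (hA : Prb A) (hB' : Prb B') :
    nm (A * B - A' * B') ≤ nm (A - A') + nm (B - B') := by
  have e : A * B - A' * B' = A * (B - B') + (A - A') * B' := by noncomm_ring
  rw [e]
  refine (nm_add _ _).trans ?_
  have h1 := nm_mul A (B - B')
  have h2 := nm_mul (A - A') B'
  rw [hA.nm, one_mul] at h1
  rw [hB'.nm, mul_one] at h2
  linarith

theorem nm_cells_sub {t : ℝ} (hA : Prb A) (hB : Prb B) (hA' : Prb A') (hB' : Prb B')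
    (hAA : nm (A - A') ≤ t) (hBB : nm (B - B') ≤ t) (l : List Bool) :
    nm (cells A B l - cells A' B' l) ≤ l.length * t := by
  induction l with
  | nil => simp [cells_nil, nm_zero]
  | cons b l ih =>
    rw [cells_cons, cells_cons]
    refine (nm_mul_sub (A := if b then A else B) ?_ (cells_prb hA' hB' l)).trans ?_
    · cases b
      · simpa using hB
      · simpa using hA
    · have h1 : nm ((if b then A else B) - (if b then A' else B')) ≤ t := by
        cases b
        · simpa using hBB
        · simpa using hAA
      rw [List.length_cons]
      push_cast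
      linarith

theorem nm_pow_sub_prb {t : ℝ} (hA : Prb A) (hA' : Prb A') (hAA : nm (A - A') ≤ t) (n : ℕ) :
    nm (A ^ n - A' ^ n) ≤ n * t := by
  have h := nm_cells_sub hA hA hA' hA' hAA hAA (List.replicate n true)
  rwa [cells_self, cells_self, List.length_replicate] at h

/-- `V^N * M * V^N` -/
theorem nm_wrap_sub {M M' V' : Al} {t s : ℝ} (hV : Prb V) (hV' : Prb V') (hM : Prb M)
    (hM' : Prb M') (hVV : nm (V - V') ≤ t) (hMM : nm (M - M') ≤ s) (N : ℕ) :
    nm (V ^ N * M * V ^ N - V' ^ N * M' * V' ^ N) ≤ 2 * N * t + s := by
  have h1 := nm_pow_sub_prb hV hV' hVV N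
  have h2 := nm_mul_sub (A := V ^ N) (B := M) (A' := V' ^ N) (B' := M') (hV.pow N) hM'
  have h3 := nm_mul_sub (A := V ^ N * M) (B := V ^ N) (A' := V' ^ N * M') (B' := V' ^ N)
    ((hV.pow N).mul hM) (hV'.pow N)
  linarith

end cells

/-! ### strings -/

/-- string of a word in two strings -/
def scells (s s' : List Bool) (l : List Bool) : List Bool :=
  (l.map (fun b => if b then s else s')).flatten

theorem scells_cons (s s' : List Bool) (b : Bool) (l : List Bool) :
    scells s s' (b :: l) = (if b then s else s') ++ scells s s' l := by
  simp [scells]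

theorem Fl_scells (q : ℝ) (s s' l : List Bool) :
    Fl q (scells s s' l) = cells (Fl q s) (Fl q s') l := by
  induction l with
  | nil => simp [scells, cells_nil, Fl_nil]
  | cons b l ih =>
    rw [scells_cons, Fl_append, ih, cells_cons]
    cases b <;> simp

theorem scells_length (s s' l : List Bool) (h : s.length = s'.length) :
    (scells s s' l).length = l.length * s.length := by
  induction l with
  | nil => simp [scells]
  | cons b l ih =>
    rw [scells_cons, List.length_append, ih, List.length_cons]
    cases b <;> simp [h] <;> ring

/-- string with environment -/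
def swrap (N : ℕ) (s mid : List Bool) : List Bool :=
  (List.replicate N s).flatten ++ mid ++ (List.replicate N s).flatten

theorem Fl_swrap (q : ℝ) (N : ℕ) (s mid : List Bool) :
    Fl q (swrap N s mid) = Fl q s ^ N * Fl q mid * Fl q s ^ N := by
  unfold swrap
  rw [Fl_append, Fl_append, Fl_flatten_replicate]

theorem swrap_length (N : ℕ) (s mid : List Bool) :
    (swrap N s mid).length = 2 * N * s.length + mid.length := by
  unfold swrap
  simp only [List.length_append, List.length_flatten, List.map_replicate, List.sum_replicate,
    smul_eq_mul]
  ring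

theorem swrap_inj (N : ℕ) (s mid mid' : List Bool) (h : swrap N s mid = swrap N s mid') :
    mid = mid' := by
  unfold swrap at h
  exact List.append_cancel_left (List.append_cancel_right h)

theorem scells_ne (s s' : List Bool) (h : s.length = s'.length) (hne : s ≠ s') (m : ℕ) :
    scells s s' (pat m true) ≠ scells s s' (pat m false) := by
  have key : ∀ b : Bool, ∃ l, pat m b = b :: l := by
    induction m with
    | zero => intro b; exact ⟨[], rfl⟩
    | succ m ih =>
      intro b
      obtain ⟨l, hl⟩ := ih b
      exact ⟨l ++ pat m (!b), by simp [pat, hl]⟩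
  obtain ⟨l, hl⟩ := key true
  obtain ⟨l', hl'⟩ := key false
  intro heq
  rw [hl, hl', scells_cons, scells_cons] at heq
  simp only [if_true, Bool.false_eq_true, if_false] at heq
  exact hne (List.append_inj_left heq h)

end Vale.Agent.P321.Sup
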