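import Vale.Agent.P321.Sup.DSAux

/-!
Pieces of the second half of the double step.
-/

namespace Vale.Agent.P321.Sup

open Polynomial

theorem wrap_le {V M M' : Al} {c : ℝ} (hV : Pos V) (h : Le M (c • M')) (N : ℕ) :
    Le (V ^ N * M * V ^ N) (c • (V ^ N * M' * V ^ N)) := by
  have h1 := Le.mul_right (Le.mul_left h (hV.pow N)) (hV.pow N)
  have e : V ^ N * c • M' * V ^ N = c • (V ^ N * M' * V ^ N) := by
    rw [mul_smul_comm, smul_mul_assoc]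
  rwa [e] at h1

theorem pow_split (V : Al) (N L : ℕ) : V ^ (2 * N + L) = V ^ N * V ^ L * V ^ N := by
  rw [← pow_add, ← pow_add]
  congr 1
  omega

/-- killing of the linear part in the environment `V1` -/
theorem lin_part (m : ℕ) : ∃ C : ℝ, 1 ≤ C ∧ ∀ (V1 D : Al) (J1 K : ℕ) (b : ℝ),
    Prb V1 → Slip V1 J1 (1 / 2) → mass D = 0 → Cost D V1 b → 1 ≤ K →
    Cost (V1 ^ (K * (J1 + 1)) * lin V1 D (2 ^ m - 1) (sgp (pat m true)) * V1 ^ (K * (J1 + 1)))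
      (V1 ^ (2 * (K * (J1 + 1)) + 2 ^ m)) (C * (b * (1 / (K : ℝ) ^ m))) := by
  obtain ⟨R, hR⟩ := sgp_pat m true
  obtain ⟨C, hC0, hC⟩ := kill m R
  refine ⟨2 * 4 ^ m * C + 1, ?_, ?_⟩
  · have : 0 ≤ 2 * 4 ^ m * C := by positivity
    linarith
  intro V1 D J1 K b hV1 hs hD0 hD hK
  have hdeg : ((1 - X) ^ m * R).natDegree ≤ 2 ^ m - 1 := by
    rw [← hR]
    have := sgp_natDegree (pat m true)
    rwa [pat_length] at this
  have h1 := hC V1 D J1 1 (2 ^ m - 1) K (1 / 2) b hV1 hs (by norm_num) (by norm_num)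
    (Orth.base hV1 hD0 hD) hdeg hK
  rw [← hR] at h1
  have e1 : 2 ^ m - 1 + 1 = 2 ^ m := Nat.sub_add_cancel Nat.one_le_two_pow
  rw [e1] at h1
  refine h1.mono ?_
  have hb : 0 ≤ b := hD.nonneg hV1.pos
  have hKr : (1 : ℝ) ≤ K := by exact_mod_cast hK
  have hK0 : (0 : ℝ) < K := by linarith
  have h2 : (1 / 2 : ℝ) ≤ √((1 / 2) ^ 2 * K) := by
    apply Real.le_sqrt_of_sq_le
    nlinarith
  have h3 : (0 : ℝ) < ((1 / 2) ^ 2 * (K : ℝ)) ^ m := by positivity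
  have h4 : C / (((1 / 2) ^ 2 * (K : ℝ)) ^ m * √((1 / 2) ^ 2 * K)) ≤
      C / (((1 / 2) ^ 2 * (K : ℝ)) ^ m * (1 / 2)) := by
    gcongr
  have h5 : C / (((1 / 2) ^ 2 * (K : ℝ)) ^ m * (1 / 2)) = 2 * 4 ^ m * C * (1 / (K : ℝ) ^ m) := by
    rw [mul_pow]
    have : ((1 / 2 : ℝ) ^ 2) ^ m = 1 / 4 ^ m := by
      rw [← one_div_pow]; norm_num
    rw [this]
    field_simp
  have h6 : 0 ≤ b * (1 / (K : ℝ) ^ m) := by positivity
  calc b * (C / (((1 / 2) ^ 2 * (K : ℝ)) ^ m * √((1 / 2) ^ 2 * K)))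
      ≤ b * (2 * 4 ^ m * C * (1 / (K : ℝ) ^ m)) := by
        rw [← h5]
        exact mul_le_mul_of_nonneg_left h4 hb
    _ = 2 * 4 ^ m * C * (b * (1 / (K : ℝ) ^ m)) := by ring
    _ ≤ (2 * 4 ^ m * C + 1) * (b * (1 / (K : ℝ) ^ m)) := by nlinarith

theorem cells_Rn {th : ℕ} {B A A' : Al} {K : ℝ} (hB : Prb B) (hA : Prb A) (hA' : Prb A')
    (hK : 0 ≤ K) (h : Rn th B A K) (h' : Rn th B A' K) (l : List Bool) :
    Rn th (B ^ l.length) (cells A A' l) (K ^ l.length) := by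
  induction l with
  | nil =>
    rw [List.length_nil, pow_zero, pow_zero, cells_nil]
    exact Rn.one th
  | cons b l ih =>
    rw [cells_cons, List.length_cons, pow_succ', pow_succ']
    have hl := cells_prb hA hA' l
    cases b
    · exact Rn.mul hA'.pos hl.pos hB.pos (hB.pow _).pos hK (pow_nonneg hK _) h' ih
    · exact Rn.mul hA.pos hl.pos hB.pos (hB.pow _).pos hK (pow_nonneg hK _) h ih

theorem wrap_Rn {th : ℕ} {B A A' : Al} {K : ℝ} (hB : Prb B) (hA : Prb A) (hA' : Prb A')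
    (hK : 0 ≤ K) (h : Rn th B A K) (h' : Rn th B A' K) (N : ℕ) (l : List Bool) :
    Rn th (B ^ (2 * N + l.length)) (A ^ N * cells A A' l * A ^ N) (K ^ (2 * N + l.length)) := by
  have h1 := Rn.pow hA.pos hB.pos hK h N
  have h2 := cells_Rn hB hA hA' hK h h' l
  have hl := cells_prb hA hA' l
  have h3 := Rn.mul (hA.pow N).pos hl.pos (hB.pow N).pos (hB.pow _).pos (pow_nonneg hK _)
    (pow_nonneg hK _) h1 h2
  have h4 := Rn.mul ((hA.pow N).mul hl).pos (hA.pow N).pos ((hB.pow N).mul (hB.pow _)).pos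
    (hB.pow N).pos (mul_nonneg (pow_nonneg hK _) (pow_nonneg hK _)) (pow_nonneg hK _) h3 h1
  rw [← pow_split] at h4
  refine h4.mono ((hA.pow N).mul hl |>.mul (hA.pow N)).pos (le_of_eq ?_)
  rw [← pow_add, ← pow_add]
  congr 1
  omega

/-- costs of the nonlinear part and of the whole deviation of the second level words -/
theorem mid_costs (m : ℕ) {om Cf : ℝ} (h0 : 0 < om) (h1 : om ≤ 1) (hCf : 1 ≤ Cf) :
    ∃ C : ℝ, 1 ≤ C ∧ ∀ (V V1 Dl Do : Al) (J g N1 : ℕ) (x y e r : ℝ),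
    Prb V → Prb V1 → Slip V J om → Cost (V1 - V ^ g) (V ^ g) (Cf * e) →
    Orth V (V1 - V ^ g) g Cf → Cost Dl (V ^ g) (Cf * x) → Orth V Do g (Cf * y) →
    Cf * x ≤ 1 → Cf * y ≤ 1 → N1 * (Cf * e) ≤ 1 → (J + 1) ^ 3 ≤ g * N1 →
    r = 1 / ((J : ℝ) + 1) + N1 * e → 0 ≤ x → 0 ≤ y → 0 ≤ e →
    (∃ X2 : Al, V1 ^ N1 * (cells V1 (V1 + (Dl + Do)) (pat m false)
        - cells V1 (V1 + (Dl + Do)) (pat m true)) * V1 ^ N1 =
        V1 ^ N1 * lin V1 (Dl + Do) (2 ^ m - 1) (sgp (pat m true)) * V1 ^ N1 + X2 ∧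
      Cost X2 (V ^ (g * (2 * N1) + g * 2 ^ m)) (C * (y ^ 2 * r + x))) ∧
    Cost (V1 ^ N1 * (cells V1 (V1 + (Dl + Do)) (pat m true) - V1 ^ (2 ^ m)) * V1 ^ N1)
      (V ^ (g * (2 * N1) + g * 2 ^ m)) (C * (y * r + x)) := by
  obtain ⟨Cw, hCw1, hCw⟩ := words_two (2 ^ m) hCf
  obtain ⟨Ce, hCe1, hCe⟩ := env_orth h0 h1
  refine ⟨1000 * Ce * Cw * Cf ^ 3, ?_, ?_⟩
  · have h2 : 1 ≤ Cf ^ 3 := one_le_pow₀ hCf
    have h3 : 1 ≤ Ce * Cw := one_le_mul_of_one_le_of_one_le hCe1 hCw1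
    have h4 : 1 ≤ Ce * Cw * Cf ^ 3 := one_le_mul_of_one_le_of_one_le h3 h2
    linarith
  intro V V1 Dl Do J g N1 x y e r hV hV1 hs hcost horth hDl hDo hx1 hy1 hN he3 hr hx0 hy0 he0
  have hCf0 : 0 < Cf := by linarith
  have hCe0 : 0 < Ce := by linarith
  have hCw0 : 0 < Cw := by linarith
  have hr0 : 0 ≤ r := by rw [hr]; positivity
  have hN' : 1 / ((J : ℝ) + 1) + N1 * (Cf * e) ≤ Cf * r := by
    rw [hr]
    have : 0 ≤ 1 / ((J : ℝ) + 1) := by positivity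
    nlinarith
  have hw := fun l hl => hCw V V1 Dl Do g (Cf * x) (Cf * y) l hl hV hV1 horth hDl hx1 hDo hy1
  obtain ⟨⟨Tl, To, hT, hTl, hTo⟩, ⟨Pl, Po, hP, hPl, hPo⟩⟩ := hw (pat m true) (pat_length m true)
  obtain ⟨-, ⟨Pl', Po', hP', hPl', hPo'⟩⟩ := hw (pat m false) (pat_length m false)
  constructor
  · refine ⟨V1 ^ N1 * (Pl' - Pl) * V1 ^ N1 + V1 ^ N1 * (Po' - Po) * V1 ^ N1, ?_, ?_⟩
    · have hlin : lin V1 (Dl + Do) (2 ^ m - 1) (fgp (pat m false))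
          - lin V1 (Dl + Do) (2 ^ m - 1) (fgp (pat m true))
          = lin V1 (Dl + Do) (2 ^ m - 1) (sgp (pat m true)) := by
        unfold lin
        rw [← Finset.sum_sub_distrib]
        apply Finset.sum_congr rfl
        intro i _
        rw [← sub_smul, ← coeff_sub]
        have h2 : pat m false = (pat m true).map not := by
          have := pat_not m true
          simpa using this
        rw [h2, fgp_not]
      have e1 : cells V1 (V1 + (Dl + Do)) (pat m false) - cells V1 (V1 + (Dl + Do)) (pat m true)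
          = lin V1 (Dl + Do) (2 ^ m - 1) (sgp (pat m true)) + (Pl' - Pl) + (Po' - Po) := by
        rw [← hlin]
        have e2 : cells V1 (V1 + (Dl + Do)) (pat m false) = V1 ^ 2 ^ m +
            lin V1 (Dl + Do) (2 ^ m - 1) (fgp (pat m false)) + (Pl' + Po') := by
          rw [← hP']; abel
        have e3 : cells V1 (V1 + (Dl + Do)) (pat m true) = V1 ^ 2 ^ m +
            lin V1 (Dl + Do) (2 ^ m - 1) (fgp (pat m true)) + (Pl + Po) := by
          rw [← hP]; abel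
        rw [e2, e3]
        abel
      rw [e1]
      noncomm_ring
    · have c1 : Cost (Pl' - Pl) (V ^ (g * 2 ^ m)) (4 * (Cw * (Cf * x))) :=
        (Cost.sub (hV.pow _).pos hPl' hPl).mono (by linarith)
      have c2 := env_cost V V1 (Pl' - Pl) g (g * 2 ^ m) N1 _ (Cf * e) hV hV1 hcost hN c1
      have o1 : Orth V (Po' - Po) (g * 2 ^ m) (4 * (Cw * (Cf * y) ^ 2)) := by
        rw [sub_eq_add_neg]
        exact (Orth.add hV hPo' (Orth.neg hV hPo)).mono hV (by linarith)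
      have c3 := hCe V V1 (Po' - Po) J g (g * 2 ^ m) N1 _ (Cf * e) hV hs hV1 hcost hN o1 he3
      refine (Cost.add (hV.pow _).pos c2 c3).mono ?_
      have h3 : Ce * (4 * (Cw * (Cf * y) ^ 2) * (1 / ((J : ℝ) + 1) + N1 * (Cf * e))) ≤
          Ce * (4 * (Cw * (Cf * y) ^ 2) * (Cf * r)) := by gcongr
      have h4 : Cw * (Cf * x) ≤ Ce * Cw * Cf ^ 3 * x := by
        have h5 : Cf ≤ Cf ^ 3 := le_self_pow₀ hCf (by norm_num)
        calc Cw * (Cf * x) ≤ Cw * (Cf ^ 3 * x) := by gcongr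
          _ = 1 * (Cw * (Cf ^ 3 * x)) := by ring
          _ ≤ Ce * (Cw * (Cf ^ 3 * x)) := by gcongr
          _ = _ := by ring
      have h6 : Ce * (4 * (Cw * (Cf * y) ^ 2) * (Cf * r)) = 4 * (Ce * Cw * Cf ^ 3 * (y ^ 2 * r)) := by
        ring
      have h7 : 0 ≤ Ce * Cw * Cf ^ 3 * (y ^ 2 * r) := by positivity
      have h8 : 0 ≤ Ce * Cw * Cf ^ 3 * x := by positivity
      have h9 : 1000 * Ce * Cw * Cf ^ 3 * (y ^ 2 * r + x) =
          1000 * (Ce * Cw * Cf ^ 3 * (y ^ 2 * r)) + 1000 * (Ce * Cw * Cf ^ 3 * x) := by ring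
      rw [h9]
      linarith
  · have c2 := env_cost V V1 Tl g (g * 2 ^ m) N1 _ (Cf * e) hV hV1 hcost hN hTl
    have c3 := hCe V V1 To J g (g * 2 ^ m) N1 _ (Cf * e) hV hs hV1 hcost hN hTo he3
    have e1 : V1 ^ N1 * (cells V1 (V1 + (Dl + Do)) (pat m true) - V1 ^ (2 ^ m)) * V1 ^ N1 =
        V1 ^ N1 * Tl * V1 ^ N1 + V1 ^ N1 * To * V1 ^ N1 := by
      rw [hT]
      noncomm_ring
    rw [e1]
    refine (Cost.add (hV.pow _).pos c2 c3).mono ?_
    have h3 : Ce * (Cw * (Cf * y) * (1 / ((J : ℝ) + 1) + N1 * (Cf * e))) ≤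
        Ce * (Cw * (Cf * y) * (Cf * r)) := by gcongr
    have h4 : Cw * (Cf * x) ≤ Ce * Cw * Cf ^ 3 * x := by
      have h5 : Cf ≤ Cf ^ 3 := le_self_pow₀ hCf (by norm_num)
      calc Cw * (Cf * x) ≤ Cw * (Cf ^ 3 * x) := by gcongr
        _ = 1 * (Cw * (Cf ^ 3 * x)) := by ring
        _ ≤ Ce * (Cw * (Cf ^ 3 * x)) := by gcongr
        _ = _ := by ring
    have h6 : Ce * (Cw * (Cf * y) * (Cf * r)) ≤ Ce * Cw * Cf ^ 3 * (y * r) := by
      have h5 : Cf ^ 2 ≤ Cf ^ 3 := pow_le_pow_right₀ hCf (by norm_num)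
      calc Ce * (Cw * (Cf * y) * (Cf * r)) = Ce * Cw * Cf ^ 2 * (y * r) := by ring
        _ ≤ Ce * Cw * Cf ^ 3 * (y * r) := by gcongr
    have h7 : 0 ≤ Ce * Cw * Cf ^ 3 * (y * r) := by positivity
    have h8 : 0 ≤ Ce * Cw * Cf ^ 3 * x := by positivity
    have h9 : 1000 * Ce * Cw * Cf ^ 3 * (y * r + x) =
        1000 * (Ce * Cw * Cf ^ 3 * (y * r)) + 1000 * (Ce * Cw * Cf ^ 3 * x) := by ring
    rw [h9]
    linarith

end Vale.Agent.P321.Sup
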