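import Vale.Agent.P321.Sup.DSMid

/-!
Second half of the double step.
-/

namespace Vale.Agent.P321.Sup

open Polynomial

theorem pow_one_add_le {b : ℝ} (hb : 0 ≤ b) (n : ℕ) (h : n * b ≤ 1) : (1 + b) ^ n ≤ 3 := by
  have h1 : (1 + b) ^ n ≤ Real.exp b ^ n := by
    gcongr
    have := Real.add_one_le_exp b
    linarith
  rw [← Real.exp_nat_mul] at h1
  have h2 : Real.exp (n * b) ≤ Real.exp 1 := Real.exp_le_exp.mpr h
  have h3 := Real.exp_one_lt_d9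
  linarith

/-- truncation set bound -/
theorem bad_mass {th : ℕ} {B A : Al} {K R : ℝ} (hA : Pos A) (hB : Pos B) (hR : 0 ≤ R) (hK : 0 < K)
    (h : Rn th B A R) : mass (res ({w | B.coeff w ≤ K * A.coeff w}ᶜ) A) ≤ R / K ^ (th + 1) := by
  have h1 := (Rn.tail hA hB hR hK h).2
  have e : ({w | B.coeff w ≤ K * A.coeff w}ᶜ : Set Wd) = {w | K * A.coeff w < B.coeff w} := by
    ext w
    simp
  rw [e]
  exact h1

theorem cmp_second {V1 C1 : Al} {mu : ℝ} (hmu : 1 ≤ mu) (hV1 : Prb V1) (hC1p : Prb C1)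
    (hle3 : Le V1 (mu • C1)) (hle4 : Le C1 (mu • V1)) (m N1 : ℕ) :
    (Le (V1 ^ N1 * cells V1 C1 (pat m false) * V1 ^ N1)
      (mu ^ (2 * 2 ^ m) • (V1 ^ N1 * cells V1 C1 (pat m true) * V1 ^ N1)) ∧
    Le (V1 ^ N1 * cells V1 C1 (pat m true) * V1 ^ N1)
      (mu ^ (2 * 2 ^ m) • (V1 ^ N1 * cells V1 C1 (pat m false) * V1 ^ N1))) ∧
    (Le (V1 ^ (2 * N1 + 2 ^ m))
      (mu ^ (2 * 2 ^ m) • (V1 ^ N1 * cells V1 C1 (pat m true) * V1 ^ N1)) ∧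
    Le (V1 ^ N1 * cells V1 C1 (pat m true) * V1 ^ N1)
      (mu ^ (2 * 2 ^ m) • V1 ^ (2 * N1 + 2 ^ m))) := by
  set L : ℕ := 2 ^ m with hL
  set nu : ℝ := mu ^ (2 * L) with hnu
  have hmu0 : 0 < mu := by linarith
  have hmuL : mu ^ L ≤ nu := pow_le_pow_right₀ hmu (by omega)
  have hlt := pat_length m true
  have hlf := pat_length m false
  have hct : Prb (cells V1 C1 (pat m true)) := cells_prb hV1 hC1p _
  have hV1self : Le V1 (mu • V1) := by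
    have := Le.smul_le (a := V1) hmu hV1.pos
    rwa [one_smul] at this
  have up : ∀ l : List Bool, l.length = L → Le (cells V1 C1 l) (mu ^ L • V1 ^ L) := by
    intro l hl
    have := cells_le hV1.pos hC1p.pos hmu0.le hV1self hle4 l
    rwa [cells_self, hl] at this
  have dn : ∀ l : List Bool, l.length = L → Le (V1 ^ L) (mu ^ L • cells V1 C1 l) := by
    intro l hl
    have := cells_le hV1.pos hV1.pos hmu0.le hV1self hle3 l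
    rwa [cells_self, hl] at this
  have updn : ∀ l l' : List Bool, l.length = L → l'.length = L →
      Le (cells V1 C1 l) (nu • cells V1 C1 l') := by
    intro l l' hl hl'
    refine (up l hl).trans ?_
    have h2 := Le.smul (r := mu ^ L) (by positivity) (dn l' hl')
    rw [smul_smul] at h2
    have e : mu ^ L * mu ^ L = nu := by rw [hnu, ← pow_add]; congr 1; omega
    rwa [e] at h2
  refine ⟨⟨wrap_le hV1.pos (updn _ _ hlf hlt) N1, wrap_le hV1.pos (updn _ _ hlt hlf) N1⟩, ?_, ?_⟩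
  · rw [pow_split]
    apply wrap_le hV1.pos
    exact (dn _ hlt).trans (Le.smul_le hmuL hct.pos)
  · rw [pow_split]
    apply wrap_le hV1.pos
    exact (up _ hlt).trans (Le.smul_le hmuL (hV1.pow _).pos)

theorem rn_second {V V1 C1 : Al} {mu e : ℝ} {th g : ℕ} (hmu : 1 ≤ mu) (hV : Prb V)
    (hV1 : Prb V1) (hC1p : Prb C1) (hle1 : Le (V ^ g) (mu • V1)) (hle2 : Le (V ^ g) (mu • C1))
    (hcV1 : Cost (V1 - V ^ g) (V ^ g) e) (hcC1 : Cost (C1 - V ^ g) (V ^ g) e) (m N1 : ℕ)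
    (hs : ((2 * N1 + 2 ^ m : ℕ) : ℝ) * ((th : ℝ) ^ 2 * mu ^ th * e) ≤ 1) :
    Rn th ((V ^ g) ^ (2 * N1 + 2 ^ m)) (V1 ^ N1 * cells V1 C1 (pat m true) * V1 ^ N1) 3 ∧
    Rn th ((V ^ g) ^ (2 * N1 + 2 ^ m)) (V1 ^ (2 * N1 + 2 ^ m)) 3 := by
  have hVg : Prb (V ^ g) := hV.pow g
  have he0 : 0 ≤ e := hcV1.nonneg hVg.pos
  obtain ⟨be, hbe⟩ : ∃ be : ℝ, be = (th : ℝ) ^ 2 * mu ^ th * e := ⟨_, rfl⟩
  have hbe0 : 0 ≤ be := by rw [hbe]; positivity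
  rw [← hbe] at hs
  have hR1 : Rn th (V ^ g) V1 (1 + be) := by
    rw [hbe]; exact Rn.of_cost hVg hV1 hmu hle1 hcV1 th
  have hR2 : Rn th (V ^ g) C1 (1 + be) := by
    rw [hbe]; exact Rn.of_cost hVg hC1p hmu hle2 hcC1 th
  have hb3 : (1 + be) ^ (2 * N1 + 2 ^ m) ≤ 3 := pow_one_add_le hbe0 _ hs
  constructor
  · have := wrap_Rn hVg hV1 hC1p (by linarith) hR1 hR2 N1 (pat m true)
    rw [pat_length] at this
    exact this.mono (((hV1.pow _).mul (cells_prb hV1 hC1p _)).mul (hV1.pow _)).pos hb3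
  · exact (Rn.pow hV1.pos hVg.pos (by linarith) hR1 _).mono (hV1.pow _).pos hb3

/-- numerical part of `second_half`, constants -/
theorem second_const {Cs Cf Cm Cl nu Th C : ℝ} (hCs1 : 1 ≤ Cs) (hCf : 1 ≤ Cf) (hCm1 : 1 ≤ Cm)
    (hCl1 : 1 ≤ Cl) (hnu1 : 1 ≤ nu) (hth1 : 1 ≤ Th)
    (hCdef : C = 2000 * (Cs * Cf * (Cm * Cl * nu ^ 3) * Th)) :
    2000 * (Cf * Th) ≤ C ∧ 2000 * (Cs * nu ^ 3) ≤ C ∧ 2000 * (Cs * Cm) ≤ C ∧
      2000 * (Cm * Cl * nu ^ 3) ≤ C ∧ 2000 * nu ^ 3 ≤ C ∧ 2000 * Cs ≤ C := by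
  have hnu3 : 1 ≤ nu ^ 3 := one_le_pow₀ hnu1
  have mulone : ∀ a b : ℝ, 1 ≤ a → 1 ≤ b → 1 ≤ a * b := fun a b =>
    one_le_mul_of_one_le_of_one_le
  have lemul : ∀ a b : ℝ, 0 ≤ a → 1 ≤ b → a ≤ a * b := fun a b ha hb =>
    le_mul_of_one_le_right ha hb
  have k2 : 2000 * (Cs * nu ^ 3) ≤ C := by
    rw [hCdef]
    have : Cs * nu ^ 3 ≤ Cs * nu ^ 3 * (Cf * (Cm * Cl) * Th) :=
      lemul _ _ (by positivity) (mulone _ _ (mulone _ _ hCf (mulone _ _ hCm1 hCl1)) hth1)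
    calc 2000 * (Cs * nu ^ 3) ≤ 2000 * (Cs * nu ^ 3 * (Cf * (Cm * Cl) * Th)) := by linarith
      _ = _ := by ring
  refine ⟨?_, k2, ?_, ?_, ?_, ?_⟩
  · rw [hCdef]
    have : Cf * Th ≤ Cf * Th * (Cs * (Cm * Cl * nu ^ 3)) :=
      lemul _ _ (by positivity) (mulone _ _ hCs1 (mulone _ _ (mulone _ _ hCm1 hCl1) hnu3))
    calc 2000 * (Cf * Th) ≤ 2000 * (Cf * Th * (Cs * (Cm * Cl * nu ^ 3))) := by linarith
      _ = _ := by ring
  · rw [hCdef]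
    have : Cs * Cm ≤ Cs * Cm * (Cf * (Cl * nu ^ 3) * Th) :=
      lemul _ _ (by positivity) (mulone _ _ (mulone _ _ hCf (mulone _ _ hCl1 hnu3)) hth1)
    calc 2000 * (Cs * Cm) ≤ 2000 * (Cs * Cm * (Cf * (Cl * nu ^ 3) * Th)) := by linarith
      _ = _ := by ring
  · rw [hCdef]
    have : Cm * Cl * nu ^ 3 ≤ Cm * Cl * nu ^ 3 * (Cs * Cf * Th) :=
      lemul _ _ (by positivity) (mulone _ _ (mulone _ _ hCs1 hCf) hth1)
    calc 2000 * (Cm * Cl * nu ^ 3) ≤ 2000 * (Cm * Cl * nu ^ 3 * (Cs * Cf * Th)) := by linarith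
      _ = _ := by ring
  · have : nu ^ 3 ≤ Cs * nu ^ 3 := le_mul_of_one_le_left (by positivity) hCs1
    linarith
  · have : Cs ≤ Cs * nu ^ 3 := lemul _ _ (by linarith) hnu3
    linarith

theorem second_cost_le {Cm Cl nu mu C K y r x : ℝ} (hCm1 : 1 ≤ Cm) (hCl1 : 1 ≤ Cl)
    (hnu1 : 1 ≤ nu) (hmu : 1 ≤ mu) (hmunu : mu ≤ nu) (hK : 1 ≤ K) (hy0 : 0 ≤ y) (hr0 : 0 ≤ r)
    (hx0 : 0 ≤ x) (k4 : 2000 * (Cm * Cl * nu ^ 3) ≤ C) :
    2 * (K * (Cm * (y ^ 2 * r + x))) + 2 * (nu * (Cl * (mu * 4 * x))) ≤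
      C * (K * (y ^ 2 * r + x)) := by
  have hyx20 : 0 ≤ y ^ 2 * r + x := by positivity
  have hnu3 : 1 ≤ nu ^ 3 := one_le_pow₀ hnu1
  have h2 : nu * (Cl * (mu * 4 * x)) ≤ 4 * (Cm * Cl * nu ^ 3) * (K * (y ^ 2 * r + x)) := by
    have h3 : nu * (Cl * (mu * 4 * x)) = 4 * (Cl * (nu * mu)) * x := by ring
    have h4 : nu * mu ≤ nu ^ 3 := by
      calc nu * mu ≤ nu * nu := by gcongr
        _ = nu ^ 2 := by ring
        _ ≤ nu ^ 3 := pow_le_pow_right₀ hnu1 (by norm_num)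
    have h5 : Cl * (nu * mu) ≤ Cm * Cl * nu ^ 3 := by
      calc Cl * (nu * mu) ≤ Cl * nu ^ 3 := by gcongr
        _ ≤ Cm * (Cl * nu ^ 3) := le_mul_of_one_le_left (by positivity) hCm1
        _ = _ := by ring
    have h6 : x ≤ K * (y ^ 2 * r + x) := by
      have : 0 ≤ y ^ 2 * r := by positivity
      calc x ≤ y ^ 2 * r + x := by linarith
        _ ≤ K * (y ^ 2 * r + x) := le_mul_of_one_le_left hyx20 hK
    rw [h3]
    gcongr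
  have h7 : Cm ≤ Cm * Cl * nu ^ 3 := by
    calc Cm ≤ Cm * (Cl * nu ^ 3) := le_mul_of_one_le_right (by linarith)
          (one_le_mul_of_one_le_of_one_le hCl1 hnu3)
      _ = _ := by ring
  have h8 : 0 ≤ K * (y ^ 2 * r + x) := by positivity
  calc 2 * (K * (Cm * (y ^ 2 * r + x))) + 2 * (nu * (Cl * (mu * 4 * x)))
      ≤ 2 * (Cm * (K * (y ^ 2 * r + x))) +
        2 * (4 * (Cm * Cl * nu ^ 3) * (K * (y ^ 2 * r + x))) := by
        have e1 : K * (Cm * (y ^ 2 * r + x)) = Cm * (K * (y ^ 2 * r + x)) := by ring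
        rw [e1]
        linarith
    _ ≤ 2 * (Cm * Cl * nu ^ 3 * (K * (y ^ 2 * r + x))) +
        2 * (4 * (Cm * Cl * nu ^ 3) * (K * (y ^ 2 * r + x))) := by
        have := mul_le_mul_of_nonneg_right h7 h8
        linarith
    _ = 10 * (Cm * Cl * nu ^ 3) * (K * (y ^ 2 * r + x)) := by ring
    _ ≤ C * (K * (y ^ 2 * r + x)) := by
        apply mul_le_mul_of_nonneg_right _ h8
        have : 0 ≤ Cm * Cl * nu ^ 3 := by positivity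
        linarith

theorem second_half (m th : ℕ) {mu om Cf : ℝ} (hmu : 1 ≤ mu) (h0 : 0 < om) (h1 : om ≤ 1)
    (hCf : 1 ≤ Cf) : ∃ C : ℝ, 1 ≤ C ∧
    ∀ (V V1 C1 Dl Do : Al) (J J1 K g N1 g1 : ℕ) (x y e r : ℝ),
    Prb V → Prb V1 → Prb C1 → Slip V J om → Slip V1 J1 (1 / 2) →
    Le (V ^ g) (mu • V1) → Le (V ^ g) (mu • C1) → Le V1 (mu • C1) → Le C1 (mu • V1) →
    Cost (V1 - V ^ g) (V ^ g) (Cf * e) → Cost (C1 - V ^ g) (V ^ g) (Cf * e) →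
    Orth V (V1 - V ^ g) g Cf → C1 - V1 = Dl + Do → Cost Dl (V ^ g) (Cf * x) →
    Orth V Do g (Cf * y) → 1 ≤ K → x = 1 / (K : ℝ) ^ m → x ≤ e → y ≤ e → 0 ≤ y →
    N1 = K * (J1 + 1) → g1 = 2 * N1 + 2 ^ m → (J + 1) ^ 3 ≤ g * N1 →
    r = 1 / ((J : ℝ) + 1) + N1 * e → C * (g1 * e) ≤ 1 →
    C * (g1 * ((J1 : ℝ) + 1) * (K * (y * r + x))) ≤ 1 →
    C * (g1 * ((J1 : ℝ) + 1)) ≤ (K : ℝ) ^ th →
    ∀ V2 C2 : Al, V2 = V1 ^ N1 * cells V1 C1 (pat m true) * V1 ^ N1 →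
    C2 = V1 ^ N1 * cells V1 C1 (pat m false) * V1 ^ N1 →
    ∃ (A' : Al) (J2 : ℕ), Prb V2 ∧ Prb C2 ∧ Prb A' ∧ Le A' ((2 * mu ^ (2 * 2 ^ m)) • V2) ∧
      Le V2 ((2 * mu ^ (2 * 2 ^ m)) • A') ∧ Slip V2 J2 (1 / 2) ∧
      (J2 : ℝ) + 1 ≤ C * (g1 * ((J1 : ℝ) + 1)) ∧
      Cost (A' - V2) V2 (C * (K * (y ^ 2 * r + x))) ∧ nm (C2 - A') ≤ C / (K : ℝ) ^ th := by
  obtain ⟨Cm, hCm1, hCm⟩ := mid_costs m h0 h1 hCf
  obtain ⟨Cl, hCl1, hCl⟩ := lin_part m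
  obtain ⟨Cs, hCs1, hCs⟩ := slip_next
  set L : ℕ := 2 ^ m with hL
  have hL1 : 1 ≤ L := Nat.one_le_two_pow
  set nu : ℝ := mu ^ (2 * L) with hnu
  have hmu0 : 0 < mu := by linarith
  have hnu1 : 1 ≤ nu := one_le_pow₀ hmu
  have hnu0 : 0 < nu := by linarith
  have hmunu : mu ≤ nu := le_self_pow₀ hmu (by omega)
  set Th : ℝ := 1 + (th : ℝ) ^ 2 * mu ^ th with hTh
  have hth0 : 0 ≤ (th : ℝ) ^ 2 * mu ^ th := by positivity
  have hth1 : 1 ≤ Th := by rw [hTh]; linarith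
  obtain ⟨C, hCdef⟩ : ∃ C : ℝ, C = 2000 * (Cs * Cf * (Cm * Cl * nu ^ 3) * Th) := ⟨_, rfl⟩
  obtain ⟨k1, k2, k3, k4, k5, k6⟩ := second_const hCs1 hCf hCm1 hCl1 hnu1 hth1 hCdef
  have hCs0 : 0 < Cs := by linarith
  have hCf0 : 0 < Cf := by linarith
  have hCm0 : 0 < Cm := by linarith
  have hCl0 : 0 < Cl := by linarith
  have hTh0 : 0 < Th := by linarith
  have hnu3 : 1 ≤ nu ^ 3 := one_le_pow₀ hnu1
  have hnu23 : nu ^ 2 ≤ nu ^ 3 := pow_le_pow_right₀ hnu1 (by norm_num)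
  have hnu13 : nu ≤ nu ^ 3 := le_self_pow₀ hnu1 (by norm_num)
  have mulone : ∀ a b : ℝ, 1 ≤ a → 1 ≤ b → 1 ≤ a * b := fun a b =>
    one_le_mul_of_one_le_of_one_le
  have lemul : ∀ a b : ℝ, 0 ≤ a → 1 ≤ b → a ≤ a * b := fun a b ha hb =>
    le_mul_of_one_le_right ha hb
  have hC1 : 1 ≤ C := by linarith
  have hC0 : 0 < C := by linarith
  refine ⟨C, hC1, ?_⟩
  intro V V1 C1 Dl Do J J1 K g N1 g1 x y e r hV hV1 hC1p hsV hsV1 hle1 hle2 hle3 hle4 hcV1 hcC1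
    hoV1 hD hDl hDo hK hx hxe hye hy0 hN1 hg1 hJ3 hr hA hB hT V2 C2 hV2 hC2
  have hKr : (1 : ℝ) ≤ K := by exact_mod_cast hK
  have hK0 : (0 : ℝ) < K := by linarith
  have hx0 : 0 ≤ x := by rw [hx]; positivity
  have he0 : 0 ≤ e := hx0.trans hxe
  have hg1r : (1 : ℝ) ≤ g1 := by
    have : 1 ≤ g1 := by rw [hg1]; omega
    exact_mod_cast this
  have hJ1r : (1 : ℝ) ≤ (J1 : ℝ) + 1 := by
    have : (0 : ℝ) ≤ J1 := Nat.cast_nonneg _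
    linarith
  have hN1g1 : (N1 : ℝ) ≤ g1 := by
    have : N1 ≤ g1 := by rw [hg1]; omega
    exact_mod_cast this
  have hgJ : 1 ≤ (g1 : ℝ) * ((J1 : ℝ) + 1) := mulone _ _ hg1r hJ1r
  have hgJ0 : 0 < (g1 : ℝ) * ((J1 : ℝ) + 1) := by linarith
  have hr0 : 0 ≤ r := by
    rw [hr]
    have : 0 ≤ (J : ℝ) := Nat.cast_nonneg _
    positivity
  -- smallness
  have hge : (g1 : ℝ) * (Cf * e) * (2000 * Th) ≤ 1 := by
    calc (g1 : ℝ) * (Cf * e) * (2000 * Th) = 2000 * (Cf * Th) * (g1 * e) := by ring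
      _ ≤ C * (g1 * e) := by gcongr
      _ ≤ 1 := hA
  have hge0 : 0 ≤ (g1 : ℝ) * (Cf * e) := by positivity
  have hge1 : (g1 : ℝ) * (Cf * e) ≤ 1 := by
    have : (g1 : ℝ) * (Cf * e) ≤ (g1 : ℝ) * (Cf * e) * (2000 * Th) :=
      lemul _ _ hge0 (by linarith)
    linarith
  have hCfe : Cf * e ≤ 1 := by
    have : Cf * e ≤ (g1 : ℝ) * (Cf * e) := le_mul_of_one_le_left (by positivity) hg1r
    linarith
  have hCfx : Cf * x ≤ 1 := (mul_le_mul_of_nonneg_left hxe hCf0.le).trans hCfe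
  have hCfy : Cf * y ≤ 1 := (mul_le_mul_of_nonneg_left hye hCf0.le).trans hCfe
  have hN1e : (N1 : ℝ) * (Cf * e) ≤ 1 := by
    refine (mul_le_mul_of_nonneg_right hN1g1 (by positivity)).trans hge1
  -- basic elements
  have hV2p : Prb V2 := by
    rw [hV2]; exact ((hV1.pow _).mul (cells_prb hV1 hC1p _)).mul (hV1.pow _)
  have hC2p : Prb C2 := by
    rw [hC2]; exact ((hV1.pow _).mul (cells_prb hV1 hC1p _)).mul (hV1.pow _)
  obtain ⟨⟨hC2V2, hV2C2⟩, hPV2, hV2P⟩ := cmp_second hmu hV1 hC1p hle3 hle4 m N1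
  have hpw : V1 ^ g1 = V1 ^ N1 * V1 ^ L * V1 ^ N1 := by rw [hg1]; exact pow_split V1 N1 L
  have hVg : Prb (V ^ g) := hV.pow g
  have hbe1 : (g1 : ℝ) * ((th : ℝ) ^ 2 * mu ^ th * (Cf * e)) ≤ 1 := by
    have h2 : (g1 : ℝ) * ((th : ℝ) ^ 2 * mu ^ th * (Cf * e)) ≤
        (g1 : ℝ) * (Cf * e) * (2000 * Th) := by
      rw [hTh]
      have : 0 ≤ (g1 : ℝ) * (Cf * e) * ((th : ℝ) ^ 2 * mu ^ th) := by positivity
      calc (g1 : ℝ) * ((th : ℝ) ^ 2 * mu ^ th * (Cf * e))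
          = (g1 : ℝ) * (Cf * e) * ((th : ℝ) ^ 2 * mu ^ th) := by ring
        _ ≤ 2000 * ((g1 : ℝ) * (Cf * e) * ((th : ℝ) ^ 2 * mu ^ th)) := by linarith
        _ ≤ 2000 * ((g1 : ℝ) * (Cf * e) * ((th : ℝ) ^ 2 * mu ^ th)) + 2000 * ((g1 : ℝ) * (Cf * e)) := by
            linarith
        _ = _ := by ring
    linarith
  rw [hg1] at hbe1
  obtain ⟨hRV2, hRP⟩ := rn_second (th := th) hmu hV hV1 hC1p hle1 hle2 hcV1 hcC1 m N1 hbe1
  rw [← hg1] at hRV2 hRP hPV2 hV2P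
  rw [← hV2] at hRV2 hPV2 hV2P hC2V2 hV2C2
  rw [← hC2] at hC2V2 hV2C2
  have hRef : (V ^ g) ^ g1 = V ^ (g * (2 * N1) + g * L) := by
    rw [← pow_mul, hg1]
    congr 1
    ring
  -- truncation parameters
  obtain ⟨eta, heta⟩ : ∃ eta : ℝ, eta = 3 / (K : ℝ) ^ (th + 1) := ⟨_, rfl⟩
  have heta0 : 0 ≤ eta := by rw [heta]; positivity
  have hKth : C ≤ (K : ℝ) ^ th := (lemul C _ hC0.le hgJ).trans hT
  have hKth0 : 0 < (K : ℝ) ^ th := by positivity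
  have heta1 : eta ≤ 3 / (K : ℝ) ^ th := by
    rw [heta]
    have := pow_le_pow_right₀ hKr (Nat.le_succ th)
    gcongr
  have heta2 : 4 * nu ^ 2 * eta ≤ 1 := by
    have h2 : eta ≤ 3 / C := heta1.trans (by gcongr)
    have h3 : 4 * nu ^ 2 * (3 / C) ≤ 1 := by
      rw [← mul_div_assoc, div_le_one hC0]
      linarith
    have h4 : 4 * nu ^ 2 * eta ≤ 4 * nu ^ 2 * (3 / C) := by gcongr
    linarith
  have hb1 := bad_mass hV2p.pos (hVg.pow g1).pos (by norm_num) hK0 hRV2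
  have hb2 := bad_mass (hV1.pow g1).pos (hVg.pow g1).pos (by norm_num) hK0 hRP
  rw [← heta] at hb1 hb2
  -- costs
  have hC1e : C1 = V1 + (Dl + Do) := by rw [← hD]; abel
  obtain ⟨⟨X2, hX2, hX2c⟩, hdev⟩ := hCm V V1 Dl Do J g N1 x y e r hV hV1 hsV hcV1 hoV1 hDl hDo hCfx
    hCfy hN1e hJ3 hr hx0 hy0 he0
  rw [← hC1e] at hX2 hdev
  rw [← hRef] at hX2c hdev
  have hV2dev : V1 ^ N1 * (cells V1 C1 (pat m true) - V1 ^ L) * V1 ^ N1 = V2 - V1 ^ g1 := by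
    rw [hV2, hpw]
    noncomm_ring
  rw [hV2dev] at hdev
  have hdiff : C2 - V2 = X2 + V1 ^ N1 * lin V1 (Dl + Do) (L - 1) (sgp (pat m true)) * V1 ^ N1 := by
    rw [add_comm, ← hX2, hV2, hC2]
    noncomm_ring
  have hDcost : Cost (Dl + Do) V1 (mu * 4) := by
    have h2 : Cost (Dl + Do) (V ^ g) 4 :=
      (Cost.add hVg.pos hDl (Orth.cost hV hDo)).mono (by linarith)
    exact Cost.ref hVg.pos hV1.pos hmu0.le hle1 h2
  have hDmass : mass (Dl + Do) = 0 := by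
    rw [← hD, mass_sub, hC1p.mass, hV1.mass, sub_self]
  have hX1 := hCl V1 (Dl + Do) J1 K (mu * 4) hV1 hsV1 hDmass hDcost hK
  rw [← hN1, ← hg1, ← hx] at hX1
  have hX1' : Cost (V1 ^ N1 * lin V1 (Dl + Do) (L - 1) (sgp (pat m true)) * V1 ^ N1) V2
      (nu * (Cl * (mu * 4 * x))) :=
    Cost.ref (hV1.pow g1).pos hV2p.pos hnu0.le hPV2 hX1
  -- the truncated letter
  obtain ⟨t1, t2, t3, t4⟩ := trc_prb (S := {w | ((V ^ g) ^ g1).coeff w ≤ K * V2.coeff w}) hV2p hC2p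
    hnu1 hC2V2 (fun w _ => by have := hV2C2 w; rwa [coeff_smul'] at this) hb1 heta2
  have t5 := trc_cost (S := {w | ((V ^ g) ^ g1).coeff w ≤ K * V2.coeff w}) hV2p (hVg.pow g1).pos
    hK0.le (fun w hw => hw) hdiff hX2c hX1'
  -- the slip
  obtain ⟨s1, -, -, s4⟩ := trc_prb (S := {w | ((V ^ g) ^ g1).coeff w ≤ K * (V1 ^ g1).coeff w})
    (hV1.pow g1) hV2p hnu1 hV2P (fun w _ => by have := hPV2 w; rwa [coeff_smul'] at this) hb2 heta2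
  have s5 := trc_cost (S := {w | ((V ^ g) ^ g1).coeff w ≤ K * (V1 ^ g1).coeff w}) (hV1.pow g1)
    (hVg.pow g1).pos hK0.le (fun w hw => hw) (add_zero (V2 - V1 ^ g1)).symm hdev
    (Cost.zero (V1 ^ g1))
  obtain ⟨J2, hJ2⟩ : ∃ J2 : ℕ, J2 = ⌈2 * Cs * (g1 * ((J1 : ℝ) + 1))⌉₊ := ⟨_, rfl⟩
  have hJ2a : 2 * Cs * (g1 * ((J1 : ℝ) + 1)) ≤ J2 := by rw [hJ2]; exact Nat.le_ceil _
  have hJ2b : (J2 : ℝ) + 1 ≤ 4 * Cs * (g1 * ((J1 : ℝ) + 1)) := by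
    have h2 : (J2 : ℝ) < 2 * Cs * (g1 * ((J1 : ℝ) + 1)) + 1 := by
      rw [hJ2]; exact Nat.ceil_lt_add_one (by positivity)
    have h3 : 1 ≤ Cs * (g1 * ((J1 : ℝ) + 1)) := mulone _ _ hCs1 hgJ
    linarith
  have hJ20 : (0 : ℝ) ≤ (J2 : ℝ) + 1 := by positivity
  have hyx0 : 0 ≤ y * r + x := by positivity
  have hyx20 : 0 ≤ y ^ 2 * r + x := by positivity
  have slip2 : Slip V2 J2 (1 / 2) := by
    refine hCs V1 V2 _ J1 g1 J2 (1 / 2) _ (4 * nu * eta) hV1 hsV1 (by norm_num) (by norm_num) hV2p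
      s1.mass s4 s5 (by rw [hg1]; omega) ?_ ?_ ?_
    · calc Cs * g1 * ((J1 : ℝ) + 1) = 1 / 2 * (2 * Cs * (g1 * ((J1 : ℝ) + 1))) := by ring
        _ ≤ 1 / 2 * J2 := by gcongr
    · calc ((J2 : ℝ) + 1) * (2 * (K * (Cm * (y * r + x))) + 2 * 0)
          ≤ 4 * Cs * (g1 * ((J1 : ℝ) + 1)) * (2 * (K * (Cm * (y * r + x))) + 2 * 0) := by
            gcongr
        _ = 8 * (Cs * Cm) * (g1 * ((J1 : ℝ) + 1) * (K * (y * r + x))) := by ring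
        _ ≤ (C / 200) * (g1 * ((J1 : ℝ) + 1) * (K * (y * r + x))) := by
            gcongr
            linarith
        _ = (C * (g1 * ((J1 : ℝ) + 1) * (K * (y * r + x)))) / 200 := by ring
        _ ≤ 1 / 100 := by linarith
    · have h2 : 4 * nu * eta ≤ 12 * nu / (K : ℝ) ^ th := by
        calc 4 * nu * eta ≤ 4 * nu * (3 / (K : ℝ) ^ th) := by gcongr
          _ = _ := by ring
      have h3 : 48 * Cs * nu ≤ C / 40 := by
        have : Cs * nu ≤ Cs * nu ^ 3 := by gcongr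
        linarith
      calc ((J2 : ℝ) + 1) * (4 * nu * eta)
          ≤ (4 * Cs * (g1 * ((J1 : ℝ) + 1))) * (12 * nu / (K : ℝ) ^ th) := by gcongr
        _ = (48 * Cs * nu) * (g1 * ((J1 : ℝ) + 1)) / (K : ℝ) ^ th := by ring
        _ ≤ (C / 40) * (g1 * ((J1 : ℝ) + 1)) / (K : ℝ) ^ th := by gcongr
        _ = (C * (g1 * ((J1 : ℝ) + 1))) / (K : ℝ) ^ th / 40 := by ring
        _ ≤ 1 / 32 := by
            have : (C * (g1 * ((J1 : ℝ) + 1))) / (K : ℝ) ^ th ≤ 1 := by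
              rw [div_le_one hKth0]; exact hT
            linarith
  refine ⟨_, J2, hV2p, hC2p, t1, t2, t3, slip2, ?_, t5.mono ?_, t4.trans ?_⟩
  · refine hJ2b.trans ?_
    have : 4 * Cs ≤ C := by linarith
    gcongr
  · exact second_cost_le hCm1 hCl1 hnu1 hmu hmunu hKr hy0 hr0 hx0 k4
  · calc 4 * nu * eta ≤ 4 * nu * (3 / (K : ℝ) ^ th) := by gcongr
      _ = 12 * nu / (K : ℝ) ^ th := by ring
      _ ≤ C / (K : ℝ) ^ th := by
          gcongr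
          linarith

end Vale.Agent.P321.Sup
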