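import Vale.Agent.P321.Sup.DSSecond

/-!
Blueprint module DoubleStep.
-/

namespace Vale.Agent.P321.Sup

theorem cmp_first {V Ap Am : Al} {lam : ℝ} (hlam : 1 ≤ lam) (hV : Prb V) (hAp : Prb Ap)
    (hAm : Prb Am) (h1 : Le Ap (lam • V)) (h2 : Le V (lam • Ap)) (h3 : Le Am (lam • V))
    (h4 : Le V (lam • Am)) (m N : ℕ) (b b' : Bool) :
    Le (V ^ (2 * N + 2 ^ m)) (lam ^ (2 * 2 ^ m) • (V ^ N * cells Ap Am (pat m b) * V ^ N)) ∧
    Le (V ^ N * cells Ap Am (pat m b) * V ^ N)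
      (lam ^ (2 * 2 ^ m) • (V ^ N * cells Ap Am (pat m b') * V ^ N)) := by
  have hl0 : 0 < lam := by linarith
  have hl : lam ^ 2 ^ m ≤ lam ^ (2 * 2 ^ m) := pow_le_pow_right₀ hlam (by omega)
  have hdn : Le (V ^ 2 ^ m) (lam ^ 2 ^ m • cells Ap Am (pat m b)) := by
    have := cells_le hV.pos hV.pos hl0.le h2 h4 (pat m b)
    rwa [cells_self, pat_length] at this
  have hdn' : Le (V ^ 2 ^ m) (lam ^ 2 ^ m • cells Ap Am (pat m b')) := by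
    have := cells_le hV.pos hV.pos hl0.le h2 h4 (pat m b')
    rwa [cells_self, pat_length] at this
  have hup : Le (cells Ap Am (pat m b)) (lam ^ 2 ^ m • V ^ 2 ^ m) := by
    have := cells_le hAp.pos hAm.pos hl0.le h1 h3 (pat m b)
    rwa [cells_self, pat_length] at this
  constructor
  · rw [pow_split]
    apply wrap_le hV.pos
    exact hdn.trans (Le.smul_le hl (cells_prb hAp hAm _).pos)
  · apply wrap_le hV.pos
    refine hup.trans ?_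
    have h5 := Le.smul (r := lam ^ 2 ^ m) (by positivity) hdn'
    rw [smul_smul] at h5
    have e : lam ^ 2 ^ m * lam ^ 2 ^ m = lam ^ (2 * 2 ^ m) := by rw [← pow_add]; congr 1; omega
    rwa [e] at h5

/-- strings of the two levels -/
theorem strings_two {q : ℝ} (hq0 : 0 < q) (hq1 : q < 1) (m N N1 : ℕ) (sv sp sr : List Bool)
    (V Ap Am V1 C1 V2 C2 : Al) (t : ℝ) (hl1 : sv.length = sp.length)
    (hl2 : sp.length = sr.length) (hne : sp ≠ sr) (hV : Prb V) (hAp : Prb Ap) (hAm : Prb Am)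
    (htv : nm (Fl q sv - V) ≤ t) (htp : nm (Fl q sp - Ap) ≤ t) (htr : nm (Fl q sr - Am) ≤ t)
    (hV1 : V1 = V ^ N * cells Ap Am (pat m true) * V ^ N)
    (hC1 : C1 = V ^ N * cells Ap Am (pat m false) * V ^ N)
    (hV2 : V2 = V1 ^ N1 * cells V1 C1 (pat m true) * V1 ^ N1)
    (hC2 : C2 = V1 ^ N1 * cells V1 C1 (pat m false) * V1 ^ N1) :
    ∃ sv' sp' : List Bool, sv'.length = sp'.length ∧ sp' ≠ sv' ∧
      sv'.length = (2 * N1 + 2 ^ m) * ((2 * N + 2 ^ m) * sv.length) ∧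
      nm (Fl q sv' - V2) ≤ ((2 * N1 + 2 ^ m : ℕ) : ℝ) * (((2 * N + 2 ^ m : ℕ) : ℝ) * t) ∧
      nm (Fl q sp' - C2) ≤ ((2 * N1 + 2 ^ m : ℕ) : ℝ) * (((2 * N + 2 ^ m : ℕ) : ℝ) * t) := by
  have hFv := Fl_prb hq0 hq1 sv
  have hFp := Fl_prb hq0 hq1 sp
  have hFr := Fl_prb hq0 hq1 sr
  obtain ⟨s1, hs1⟩ : ∃ s, s = swrap N sv (scells sp sr (pat m true)) := ⟨_, rfl⟩
  obtain ⟨s2, hs2⟩ : ∃ s, s = swrap N sv (scells sp sr (pat m false)) := ⟨_, rfl⟩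
  have hlen1 : s1.length = (2 * N + 2 ^ m) * sv.length := by
    rw [hs1, swrap_length, scells_length _ _ _ hl2, pat_length, ← hl1]; ring
  have hlen2 : s2.length = (2 * N + 2 ^ m) * sv.length := by
    rw [hs2, swrap_length, scells_length _ _ _ hl2, pat_length, ← hl1]; ring
  have hne1 : s1 ≠ s2 := by
    rw [hs1, hs2]
    intro h
    exact scells_ne sp sr hl2 hne m (swrap_inj _ _ _ _ h)
  have hV1p : Prb V1 := by rw [hV1]; exact ((hV.pow _).mul (cells_prb hAp hAm _)).mul (hV.pow _)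
  have hC1p : Prb C1 := by rw [hC1]; exact ((hV.pow _).mul (cells_prb hAp hAm _)).mul (hV.pow _)
  have hn1 : nm (Fl q s1 - V1) ≤ ((2 * N + 2 ^ m : ℕ) : ℝ) * t := by
    rw [hs1, Fl_swrap, Fl_scells, hV1]
    have h1 := nm_cells_sub hFp hFr hAp hAm htp htr (pat m true)
    have h2 := nm_wrap_sub hFv hV (cells_prb hFp hFr (pat m true)) (cells_prb hAp hAm (pat m true))
      htv h1 N
    refine h2.trans (le_of_eq ?_)
    rw [pat_length]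
    push_cast
    ring
  have hn2 : nm (Fl q s2 - C1) ≤ ((2 * N + 2 ^ m : ℕ) : ℝ) * t := by
    rw [hs2, Fl_swrap, Fl_scells, hC1]
    have h1 := nm_cells_sub hFp hFr hAp hAm htp htr (pat m false)
    have h2 := nm_wrap_sub hFv hV (cells_prb hFp hFr (pat m false)) (cells_prb hAp hAm (pat m false))
      htv h1 N
    refine h2.trans (le_of_eq ?_)
    rw [pat_length]
    push_cast
    ring
  have hF1 := Fl_prb hq0 hq1 s1
  have hF2 := Fl_prb hq0 hq1 s2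
  have hl12 : s1.length = s2.length := hlen1.trans hlen2.symm
  refine ⟨swrap N1 s1 (scells s1 s2 (pat m true)), swrap N1 s1 (scells s1 s2 (pat m false)),
    ?_, ?_, ?_, ?_, ?_⟩
  · rw [swrap_length, swrap_length, scells_length _ _ _ hl12, scells_length _ _ _ hl12,
      pat_length, pat_length]
  · intro h
    exact scells_ne s1 s2 hl12 hne1 m (swrap_inj _ _ _ _ h).symm
  · rw [swrap_length, scells_length _ _ _ hl12, pat_length, hlen1]; ring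
  · rw [Fl_swrap, Fl_scells, hV2]
    have h1 := nm_cells_sub hF1 hF2 hV1p hC1p hn1 hn2 (pat m true)
    have h2 := nm_wrap_sub hF1 hV1p (cells_prb hF1 hF2 (pat m true))
      (cells_prb hV1p hC1p (pat m true)) hn1 h1 N1
    refine h2.trans (le_of_eq ?_)
    rw [pat_length]
    push_cast
    ring
  · rw [Fl_swrap, Fl_scells, hC2]
    have h1 := nm_cells_sub hF1 hF2 hV1p hC1p hn1 hn2 (pat m false)
    have h2 := nm_wrap_sub hF1 hV1p (cells_prb hF1 hF2 (pat m false))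
      (cells_prb hV1p hC1p (pat m false)) hn1 h1 N1
    refine h2.trans (le_of_eq ?_)
    rw [pat_length]
    push_cast
    ring

/-- sizes -/
theorem sizes_two {L Cs om K tau g J1 N1 g1 : ℝ} (hL : 1 ≤ L) (hCs : 1 ≤ Cs) (h0 : 0 < om)
    (h1 : om ≤ 1) (hK : 1 ≤ K) (ht : 1 ≤ tau) (hg : g = 2 * (K * tau) + L)
    (hJ : J1 + 1 ≤ Cs * g * tau / om + 2) (hN : N1 = K * (J1 + 1)) (hg1 : g1 = 2 * N1 + L)
    (hJ0 : 0 ≤ J1) :
    g ≤ (2 + L) * (K * tau) ∧ J1 + 1 ≤ (3 * Cs * (2 + L) / om) * (K * tau ^ 2) ∧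
      N1 ≤ (3 * Cs * (2 + L) / om) * (K ^ 2 * tau ^ 2) ∧
      g1 ≤ (7 * Cs * (2 + L) / om) * (K ^ 2 * tau ^ 2) := by
  have hKt : 1 ≤ K * tau := one_le_mul_of_one_le_of_one_le hK ht
  have a1 : g ≤ (2 + L) * (K * tau) := by rw [hg]; nlinarith
  have hg0 : 0 ≤ g := by rw [hg]; nlinarith
  have hgt : 1 ≤ Cs * g * tau / om := by
    rw [le_div_iff₀ h0, one_mul]
    have h2 : 1 ≤ g := by rw [hg]; nlinarith
    have h3 : 1 ≤ Cs * g := one_le_mul_of_one_le_of_one_le hCs h2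
    have h4 : 1 ≤ Cs * g * tau := one_le_mul_of_one_le_of_one_le h3 ht
    linarith
  have a2 : J1 + 1 ≤ (3 * Cs * (2 + L) / om) * (K * tau ^ 2) := by
    calc J1 + 1 ≤ 3 * (Cs * g * tau / om) := by linarith
      _ ≤ 3 * (Cs * ((2 + L) * (K * tau)) * tau / om) := by gcongr
      _ = _ := by ring
  have a3 : N1 ≤ (3 * Cs * (2 + L) / om) * (K ^ 2 * tau ^ 2) := by
    rw [hN]
    calc K * (J1 + 1) ≤ K * ((3 * Cs * (2 + L) / om) * (K * tau ^ 2)) := by gcongr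
      _ = _ := by ring
  refine ⟨a1, a2, a3, ?_⟩
  have h5 : L ≤ (Cs * (2 + L) / om) * (K ^ 2 * tau ^ 2) := by
    have h6 : L ≤ Cs * (2 + L) / om := by
      rw [le_div_iff₀ h0]
      nlinarith
    have h7 : 1 ≤ K ^ 2 * tau ^ 2 := by
      have := one_le_mul_of_one_le_of_one_le hKt hKt
      calc (1 : ℝ) ≤ K * tau * (K * tau) := this
        _ = _ := by ring
    have h8 : 0 ≤ Cs * (2 + L) / om := by positivity
    calc L ≤ Cs * (2 + L) / om := h6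
      _ ≤ _ := le_mul_of_one_le_right h8 h7
  rw [hg1]
  have e : (7 * Cs * (2 + L) / om) * (K ^ 2 * tau ^ 2) =
      2 * ((3 * Cs * (2 + L) / om) * (K ^ 2 * tau ^ 2)) + (Cs * (2 + L) / om) * (K ^ 2 * tau ^ 2) := by
    ring
  rw [e]
  linarith

theorem ds_const {Cd Cf a1 a2 L C : ℝ} (hCd1 : 1 ≤ Cd) (hCf1 : 1 ≤ Cf) (ha11 : 1 ≤ a1)
    (ha21 : 1 ≤ a2) (w1 : 1 ≤ 2 + L) (hC : C = 100 * (Cd * Cf * (a1 ^ 2 * a2 * (2 + L)))) :
    100 * (a1 * Cf) ≤ C ∧ Cd * (a1 ^ 2 * a2) ≤ C ∧ Cd * (a1 * a2) ≤ C ∧ Cd * a2 ≤ C ∧ Cd ≤ C ∧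
      a2 * (2 + L) ≤ C ∧ Cd * a1 ≤ C := by
  have b1 : 1 ≤ a1 ^ 2 := one_le_pow₀ ha11
  have mulone : ∀ a b : ℝ, 1 ≤ a → 1 ≤ b → 1 ≤ a * b := fun a b =>
    one_le_mul_of_one_le_of_one_le
  have q1 : Cd * Cf * (a1 ^ 2 * a2 * (2 + L)) * 100 = C := by rw [hC]; ring
  have k1 : 100 * (a1 * Cf) ≤ C := by
    rw [← q1]
    have e1 : a1 * Cf ≤ a1 * Cf * (Cd * (a1 * a2 * (2 + L))) :=
      le_mul_of_one_le_right (by positivity)
        (mulone _ _ hCd1 (mulone _ _ (mulone _ _ ha11 ha21) w1))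
    calc 100 * (a1 * Cf) ≤ 100 * (a1 * Cf * (Cd * (a1 * a2 * (2 + L)))) := by linarith
      _ = _ := by ring
  have k2 : Cd * (a1 ^ 2 * a2 * (2 + L)) ≤ C := by
    rw [← q1]
    have e1 : Cd * (a1 ^ 2 * a2 * (2 + L)) ≤ Cd * (a1 ^ 2 * a2 * (2 + L)) * (Cf * 100) :=
      le_mul_of_one_le_right (by positivity) (mulone _ _ hCf1 (by norm_num))
    calc Cd * (a1 ^ 2 * a2 * (2 + L)) ≤ _ := e1
      _ = _ := by ring
  have k3 : Cd * (a1 ^ 2 * a2) ≤ C := by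
    refine le_trans ?_ k2
    have : a1 ^ 2 * a2 ≤ a1 ^ 2 * a2 * (2 + L) := le_mul_of_one_le_right (by positivity) w1
    gcongr
  have k4 : Cd * (a1 * a2) ≤ C := by
    refine le_trans ?_ k3
    have : a1 ≤ a1 ^ 2 := le_self_pow₀ ha11 (by norm_num)
    gcongr
  have k5 : Cd * a2 ≤ C := by
    refine le_trans ?_ k4
    have : a2 ≤ a1 * a2 := le_mul_of_one_le_left (by positivity) ha11
    gcongr
  refine ⟨k1, k3, k4, k5, ?_, ?_, ?_⟩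
  · refine le_trans ?_ k5
    exact le_mul_of_one_le_right (by positivity) ha21
  · refine le_trans ?_ k2
    have e1 : a2 * (2 + L) ≤ a2 * (2 + L) * (Cd * a1 ^ 2) :=
      le_mul_of_one_le_right (by positivity) (mulone _ _ hCd1 b1)
    calc a2 * (2 + L) ≤ _ := e1
      _ = _ := by ring
  · refine le_trans ?_ k4
    have : a1 ≤ a1 * a2 := le_mul_of_one_le_right (by positivity) ha21
    gcongr

theorem ds_num {Cd a1 a2 C K tau g1 J1 y e r rho x : ℝ} (hCd : 0 ≤ Cd) (ha1 : 1 ≤ a1)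
    (ha2 : 1 ≤ a2) (hK : 1 ≤ K) (ht : 1 ≤ tau) (hx0 : 0 ≤ x) (hy0 : 0 ≤ y) (he0 : 0 ≤ e)
    (hrho : 0 ≤ rho) (hJ : 0 ≤ J1 + 1) (hg : 0 ≤ g1) (hr0 : 0 ≤ r)
    (z2 : J1 + 1 ≤ a1 * (K * tau ^ 2)) (z4 : g1 ≤ a2 * (K ^ 2 * tau ^ 2)) (hrr : r ≤ a1 * rho)
    (k3 : Cd * (a1 ^ 2 * a2) ≤ C) (k4 : Cd * (a1 * a2) ≤ C) (k5 : Cd * a2 ≤ C)
    (k8 : Cd * a1 ≤ C)
    (hA : C * (K ^ 2 * tau ^ 2 * e) ≤ 1) (hB : C * (K ^ 4 * tau ^ 4 * (y * rho + x)) ≤ 1) :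
    Cd * (g1 * e) ≤ 1 ∧ Cd * (g1 * (J1 + 1) * (K * (y * r + x))) ≤ 1 ∧
      Cd * (g1 * (J1 + 1)) ≤ C * (K ^ 3 * tau ^ 4) ∧
      Cd * (K * (y ^ 2 * r + x)) ≤ C * (K * (y ^ 2 * rho + x)) := by
  have e1 : y * r + x ≤ a1 * (y * rho + x) := by
    have e2 : y * r ≤ y * (a1 * rho) := by gcongr
    have e3 : x ≤ a1 * x := le_mul_of_one_le_left hx0 ha1
    calc y * r + x ≤ y * (a1 * rho) + a1 * x := add_le_add e2 e3
      _ = _ := by ring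
  have e1' : y ^ 2 * r + x ≤ a1 * (y ^ 2 * rho + x) := by
    have e2 : y ^ 2 * r ≤ y ^ 2 * (a1 * rho) := by gcongr
    have e3 : x ≤ a1 * x := le_mul_of_one_le_left hx0 ha1
    calc y ^ 2 * r + x ≤ y ^ 2 * (a1 * rho) + a1 * x := add_le_add e2 e3
      _ = _ := by ring
  have e4 : 0 ≤ y * rho + x := by positivity
  refine ⟨?_, ?_, ?_, ?_⟩
  · calc Cd * (g1 * e) ≤ Cd * (a2 * (K ^ 2 * tau ^ 2) * e) := by gcongr
      _ = (Cd * a2) * (K ^ 2 * tau ^ 2 * e) := by ring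
      _ ≤ C * (K ^ 2 * tau ^ 2 * e) := by gcongr
      _ ≤ 1 := hA
  · calc Cd * (g1 * (J1 + 1) * (K * (y * r + x)))
        ≤ Cd * ((a2 * (K ^ 2 * tau ^ 2)) * (a1 * (K * tau ^ 2)) *
          (K * (a1 * (y * rho + x)))) := by gcongr
      _ = (Cd * (a1 ^ 2 * a2)) * (K ^ 4 * tau ^ 4 * (y * rho + x)) := by ring
      _ ≤ C * (K ^ 4 * tau ^ 4 * (y * rho + x)) := by gcongr
      _ ≤ 1 := hB
  · calc Cd * (g1 * (J1 + 1)) ≤ Cd * ((a2 * (K ^ 2 * tau ^ 2)) * (a1 * (K * tau ^ 2))) := by gcongr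
      _ = (Cd * (a1 * a2)) * (K ^ 3 * tau ^ 4) := by ring
      _ ≤ C * (K ^ 3 * tau ^ 4) := by gcongr
  · calc Cd * (K * (y ^ 2 * r + x)) ≤ Cd * (K * (a1 * (y ^ 2 * rho + x))) := by gcongr
      _ = (Cd * a1) * (K * (y ^ 2 * rho + x)) := by ring
      _ ≤ C * (K * (y ^ 2 * rho + x)) := by gcongr

theorem double_step {q : ℝ} (hq0 : 0 < q) (hq1 : q < 1) (m th : ℕ) {lam om : ℝ}
    (hlam : 1 ≤ lam) (h0 : 0 < om) (h1 : om ≤ 1) : ∃ C lam' : ℝ, 1 ≤ C ∧ 1 ≤ lam' ∧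
    ∀ (sv sp sr : List Bool) (V Ap Am : Al) (J K : ℕ) (c1 c2 t tau e rho y : ℝ),
    sv.length = sp.length → sp.length = sr.length → sp ≠ sr →
    Prb V → Prb Ap → Prb Am → Le Ap (lam • V) → Le V (lam • Ap) → Le Am (lam • V) →
    Le V (lam • Am) → Slip V J om →
    Cost ((1 / 2 : ℝ) • (Ap - Am)) V c1 → Cost ((1 / 2 : ℝ) • (Ap + Am) - V) V c2 →
    c1 ≤ 1 → c2 ≤ 1 →
    nm (Fl q sv - V) ≤ t → nm (Fl q sp - Ap) ≤ t → nm (Fl q sr - Am) ≤ t → 1 ≤ K →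
    tau = (J : ℝ) + 1 → e = c2 + c1 ^ 2 + 1 / (K : ℝ) ^ m → y = c1 * c2 + c1 ^ 3 →
    rho = 1 / tau + K ^ 2 * tau ^ 2 * e →
    C * (K ^ 2 * tau ^ 2 * e) ≤ 1 →
    C * (K ^ 4 * tau ^ 4 * (y * rho + 1 / (K : ℝ) ^ m)) ≤ 1 →
    C * (K ^ 3 * tau ^ 4) ≤ (K : ℝ) ^ th →
    ∃ (sv' sp' : List Bool) (V' A' : Al) (J' : ℕ), sv'.length = sp'.length ∧ sp' ≠ sv' ∧
      (sv'.length : ℝ) ≤ C * (K ^ 3 * tau ^ 3 * sv.length) ∧
      (J' : ℝ) + 1 ≤ C * (K ^ 3 * tau ^ 4) ∧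
      Prb V' ∧ Prb A' ∧ Le A' (lam' • V') ∧ Le V' (lam' • A') ∧ Slip V' J' (1 / 2) ∧
      Cost (A' - V') V' (C * (K * (y ^ 2 * rho + 1 / (K : ℝ) ^ m))) ∧
      nm (Fl q sv' - V') ≤ C * (K ^ 3 * tau ^ 3 * t) ∧
      nm (Fl q sp' - A') ≤ C * (K ^ 3 * tau ^ 3 * t + 1 / (K : ℝ) ^ th) := by
  obtain ⟨Cf, hCf1, hCf⟩ := first_half m h0 h1
  obtain ⟨mu, hmu⟩ : ∃ mu : ℝ, mu = lam ^ (2 * 2 ^ m) := ⟨_, rfl⟩
  have hmu1 : 1 ≤ mu := by rw [hmu]; exact one_le_pow₀ hlam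
  obtain ⟨Cd, hCd1, hCd⟩ := second_half m th hmu1 h0 h1 hCf1
  obtain ⟨Cs, hCs1, hCs⟩ := slip_next
  have hCf0 : 0 < Cf := by linarith
  have hCd0 : 0 < Cd := by linarith
  have hCs0 : 0 < Cs := by linarith
  obtain ⟨L, hL⟩ : ∃ L : ℝ, L = ((2 ^ m : ℕ) : ℝ) := ⟨_, rfl⟩
  have hL1 : 1 ≤ L := by rw [hL]; exact_mod_cast Nat.one_le_two_pow
  obtain ⟨a1, ha1⟩ : ∃ a1 : ℝ, a1 = 3 * Cs * (2 + L) / om := ⟨_, rfl⟩
  obtain ⟨a2, ha2⟩ : ∃ a2 : ℝ, a2 = 7 * Cs * (2 + L) / om := ⟨_, rfl⟩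
  have ha11 : 1 ≤ a1 := by
    rw [ha1, le_div_iff₀ h0]
    nlinarith
  have ha21 : 1 ≤ a2 := by
    rw [ha2, le_div_iff₀ h0]
    nlinarith
  have ha10 : 0 < a1 := by linarith
  have ha20 : 0 < a2 := by linarith
  have mulone : ∀ a b : ℝ, 1 ≤ a → 1 ≤ b → 1 ≤ a * b := fun a b =>
    one_le_mul_of_one_le_of_one_le
  obtain ⟨C, hC⟩ : ∃ C : ℝ, C = 100 * (Cd * Cf * (a1 ^ 2 * a2 * (2 + L))) := ⟨_, rfl⟩
  have b1 : 1 ≤ a1 ^ 2 := one_le_pow₀ ha11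
  have hC1 : 1 ≤ C := by
    rw [hC]
    have := mulone _ _ (mulone _ _ hCd1 hCf1) (mulone _ _ (mulone _ _ b1 ha21)
      (show 1 ≤ 2 + L by linarith))
    linarith
  refine ⟨C, 2 * mu ^ (2 * 2 ^ m), hC1, ?_, ?_⟩
  · have : 1 ≤ mu ^ (2 * 2 ^ m) := one_le_pow₀ hmu1
    linarith
  intro sv sp sr V Ap Am J K c1 c2 t tau e rho y hl1 hl2 hne hV hAp hAm hle1 hle2 hle3 hle4 hs
    hc1 hc2 hc11 hc21 htv htp htr hK htau he hy hrho hA hB hT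
  have hV0 := hV.pos
  have hc10 : 0 ≤ c1 := hc1.nonneg hV0
  have hc20 : 0 ≤ c2 := hc2.nonneg hV0
  have hKr : (1 : ℝ) ≤ K := by exact_mod_cast hK
  have hK0 : (0 : ℝ) < K := by linarith
  have htau1 : 1 ≤ tau := by
    rw [htau]
    have : (0 : ℝ) ≤ J := Nat.cast_nonneg _
    linarith
  have htau0 : 0 < tau := by linarith
  have hx0 : 0 ≤ 1 / (K : ℝ) ^ m := by positivity
  have he0 : 0 ≤ e := by rw [he]; positivity
  have hxe : 1 / (K : ℝ) ^ m ≤ e := by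
    rw [he]
    have : 0 ≤ c2 + c1 ^ 2 := by positivity
    linarith
  have hy0 : 0 ≤ y := by rw [hy]; positivity
  have hye : y ≤ e := by
    rw [he, hy]
    have e1 : c1 * c2 ≤ c2 := mul_le_of_le_one_left hc20 hc11
    have e2 : c1 ^ 3 ≤ c1 ^ 2 := pow_le_pow_of_le_one hc10 hc11 (by norm_num)
    linarith
  have hrho0 : 0 ≤ rho := by rw [hrho]; positivity
  have ht0 : 0 ≤ t := (nm_nonneg _).trans htv
  -- first level
  obtain ⟨N, hN⟩ : ∃ N, N = K * (J + 1) := ⟨_, rfl⟩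
  obtain ⟨g, hg⟩ : ∃ g, g = 2 * N + 2 ^ m := ⟨_, rfl⟩
  obtain ⟨V1, hV1⟩ : ∃ V1, V1 = V ^ N * cells Ap Am (pat m true) * V ^ N := ⟨_, rfl⟩
  obtain ⟨C1, hC1d⟩ : ∃ C1, C1 = V ^ N * cells Ap Am (pat m false) * V ^ N := ⟨_, rfl⟩
  obtain ⟨hV1p, hC1p, hcV1, hcC1, hoV1, Dl, Do, hD, hDl, hDo⟩ :=
    hCf V Ap Am J K c1 c2 hV hAp hAm hs hc1 hc2 hc11 hc21 hK N g V1 C1 hN hg hV1 hC1d
  rw [← he] at hcV1 hcC1
  rw [← hy] at hDo
  have hgr : (g : ℝ) = 2 * (K * tau) + L := by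
    rw [hg, hN, hL, htau]
    push_cast
    ring
  have hKt : 1 ≤ (K : ℝ) * tau := mulone _ _ hKr htau1
  have hg1r : 1 ≤ (g : ℝ) := by rw [hgr]; linarith
  -- `J1`
  obtain ⟨J1, hJ1⟩ : ∃ J1 : ℕ, J1 = ⌈Cs * g * tau / om⌉₊ := ⟨_, rfl⟩
  have hJ1a : Cs * g * tau / om ≤ J1 := by rw [hJ1]; exact Nat.le_ceil _
  have hJ1b : (J1 : ℝ) + 1 ≤ Cs * g * tau / om + 2 := by
    have : (J1 : ℝ) < Cs * g * tau / om + 1 := by
      rw [hJ1]; exact Nat.ceil_lt_add_one (by positivity)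
    linarith
  obtain ⟨N1, hN1⟩ : ∃ N1, N1 = K * (J1 + 1) := ⟨_, rfl⟩
  obtain ⟨g1, hg1⟩ : ∃ g1, g1 = 2 * N1 + 2 ^ m := ⟨_, rfl⟩
  have hN1r : (N1 : ℝ) = K * ((J1 : ℝ) + 1) := by rw [hN1]; push_cast; ring
  have hg1r' : (g1 : ℝ) = 2 * N1 + L := by rw [hg1, hL]; push_cast; ring
  obtain ⟨z1, z2, z3, z4⟩ := sizes_two hL1 hCs1 h0 h1 hKr htau1 hgr hJ1b hN1r hg1r'
    (Nat.cast_nonneg _)
  rw [← ha1] at z2 z3
  rw [← ha2] at z4
  have hJ1p : (0 : ℝ) ≤ (J1 : ℝ) + 1 := by positivity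
  -- constants
  have w1 : 1 ≤ 2 + L := by linarith
  obtain ⟨k1, k3, k4, k5, k6, k7, k8⟩ := ds_const hCd1 hCf1 ha11 ha21 w1 hC
  have hC0 : 0 < C := by linarith
  -- slip of `V1`
  have hsV1 : Slip V1 J1 (1 / 2) := by
    refine hCs V V1 V1 J g J1 om (Cf * e) 0 hV hs h0 h1 hV1p hV1p.mass ?_ hcV1 ?_ ?_ ?_ ?_
    · rw [sub_self, nm_zero]
    · rw [hg]; have := Nat.one_le_two_pow (n := m); omega
    · have h2 := (div_le_iff₀ h0).mp hJ1a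
      rw [← htau]
      linarith
    · calc ((J1 : ℝ) + 1) * (Cf * e) ≤ (a1 * (K * tau ^ 2)) * (Cf * e) := by gcongr
        _ = (a1 * Cf) * (K * tau ^ 2 * e) := by ring
        _ ≤ (C / 100) * (K ^ 2 * tau ^ 2 * e) := by
            have e1 : a1 * Cf ≤ C / 100 := by linarith
            have e2 : (K : ℝ) ≤ K ^ 2 := le_self_pow₀ hKr (by norm_num)
            gcongr
        _ = (C * (K ^ 2 * tau ^ 2 * e)) / 100 := by ring
        _ ≤ 1 / 100 := by linarith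
    · rw [mul_zero]; norm_num
  -- comparisons
  obtain ⟨hcmp1, hcmp2⟩ := cmp_first hlam hV hAp hAm hle1 hle2 hle3 hle4 m N true false
  obtain ⟨hcmp3, hcmp4⟩ := cmp_first hlam hV hAp hAm hle1 hle2 hle3 hle4 m N false true
  rw [← hmu, ← hV1, ← hg] at hcmp1
  rw [← hmu, ← hV1, ← hC1d] at hcmp2
  rw [← hmu, ← hC1d, ← hg] at hcmp3
  rw [← hmu, ← hV1, ← hC1d] at hcmp4
  -- sizes
  have hJ3 : (J + 1) ^ 3 ≤ g * N1 := by
    have e1 : ((J : ℝ) + 1) ^ 3 ≤ (g : ℝ) * N1 := by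
      rw [← htau, hN1r]
      have e2 : tau ≤ g := by
        rw [hgr]
        have : tau ≤ K * tau := le_mul_of_one_le_left htau0.le hKr
        linarith
      have e3 : tau ^ 2 ≤ (J1 : ℝ) + 1 := by
        have e4 : tau ^ 2 ≤ Cs * g * tau / om := by
          rw [le_div_iff₀ h0]
          calc tau ^ 2 * om ≤ tau ^ 2 * 1 := by gcongr
            _ = 1 * tau * tau := by ring
            _ ≤ Cs * g * tau := by gcongr
        linarith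
      calc tau ^ 3 = tau * (1 * tau ^ 2) := by ring
        _ ≤ g * (K * ((J1 : ℝ) + 1)) := by gcongr
    exact_mod_cast e1
  obtain ⟨r, hr⟩ : ∃ r : ℝ, r = 1 / ((J : ℝ) + 1) + N1 * e := ⟨_, rfl⟩
  have hrr : r ≤ a1 * rho := by
    rw [hr, hrho, ← htau]
    have e1 : 1 / tau ≤ a1 * (1 / tau) := le_mul_of_one_le_left (by positivity) ha11
    have e2 : (N1 : ℝ) * e ≤ a1 * (K ^ 2 * tau ^ 2) * e := by gcongr
    calc 1 / tau + N1 * e ≤ a1 * (1 / tau) + a1 * (K ^ 2 * tau ^ 2) * e := add_le_add e1 e2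
      _ = _ := by ring
  have hr0 : 0 ≤ r := by rw [hr]; positivity
  obtain ⟨s1, s2, s3, s4⟩ := ds_num hCd0.le ha11 ha21 hKr htau1 hx0 hy0 he0 hrho0 hJ1p
    (Nat.cast_nonneg g1) hr0 z2 z4 hrr k3 k4 k5 k8 hA hB
  obtain ⟨V2, hV2⟩ : ∃ V2, V2 = V1 ^ N1 * cells V1 C1 (pat m true) * V1 ^ N1 := ⟨_, rfl⟩
  obtain ⟨C2, hC2⟩ : ∃ C2, C2 = V1 ^ N1 * cells V1 C1 (pat m false) * V1 ^ N1 := ⟨_, rfl⟩
  obtain ⟨A', J2, u1, -, u3, u4, u5, u6, u7, u8, u9⟩ := hCd V V1 C1 Dl Do J J1 K g N1 g1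
    (1 / (K : ℝ) ^ m) y e r hV hV1p hC1p hs hsV1 hcmp1 hcmp3 hcmp2 hcmp4 hcV1 hcC1 hoV1 hD hDl hDo
    hK rfl hxe hye hy0 hN1 hg1 hJ3 hr s1 s2 (s3.trans hT) V2 C2 hV2 hC2
  obtain ⟨sv', sp', v1, v2, v3, v4, v5⟩ := strings_two hq0 hq1 m N N1 sv sp sr V Ap Am V1 C1 V2 C2
    t hl1 hl2 hne hV hAp hAm htv htp htr hV1 hC1d hV2 hC2
  rw [← hg, ← hg1] at v3 v4 v5
  have hgg : (g1 : ℝ) * g ≤ (a2 * (2 + L)) * (K ^ 3 * tau ^ 3) := by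
    calc (g1 : ℝ) * g ≤ (a2 * (K ^ 2 * tau ^ 2)) * ((2 + L) * (K * tau)) := by gcongr
      _ = _ := by ring
  have hggt : (g1 : ℝ) * (g * t) ≤ C * (K ^ 3 * tau ^ 3 * t) := by
    calc (g1 : ℝ) * (g * t) = (g1 * g) * t := by ring
      _ ≤ ((a2 * (2 + L)) * (K ^ 3 * tau ^ 3)) * t := by gcongr
      _ ≤ (C * (K ^ 3 * tau ^ 3)) * t := by gcongr
      _ = _ := by ring
  refine ⟨sv', sp', V2, A', J2, v1, v2, ?_, u7.trans s3, u1, u3, u4, u5, u6, u8.mono ?_,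
    v4.trans hggt, ?_⟩
  · rw [v3]
    push_cast
    calc (g1 : ℝ) * (g * sv.length) = (g1 * g) * sv.length := by ring
      _ ≤ ((a2 * (2 + L)) * (K ^ 3 * tau ^ 3)) * sv.length := by gcongr
      _ ≤ (C * (K ^ 3 * tau ^ 3)) * sv.length := by gcongr
      _ = _ := by ring
  · exact s4
  · have e1 := nm_triangle (Fl q sp') C2 A'
    have e2 : Cd / (K : ℝ) ^ th ≤ C * (1 / (K : ℝ) ^ th) := by
      rw [mul_one_div]
      gcongr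
    calc nm (Fl q sp' - A') ≤ _ := e1
      _ ≤ C * (K ^ 3 * tau ^ 3 * t) + C * (1 / (K : ℝ) ^ th) := by
          have := v5.trans hggt
          linarith
      _ = _ := by ring

end Vale.Agent.P321.Sup
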