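import Vale.Agent.P321.Sup.LevStep

/-!
Module LevB: growth of the exponents and the final bound.
-/

namespace Vale.Agent.P321.Sup

open Filter

theorem Slip.succ_pf {V : Al} {J : ℕ} {om : ℝ} (hV : Prb V) (h : Slip V J om) :
    Slip V (J + 1) om := by
  obtain ⟨U, h1, h2, h3, h4⟩ := h
  refine ⟨V * U, hV.pos.mul h1, ?_, ?_, ?_⟩
  · rw [pow_succ']
    exact h2.mul_left hV.pos
  · rw [pow_succ' V (J + 1)]
    exact h3.mul_left hV.pos
  · rw [mass_mul, hV.mass, one_mul, h4]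

theorem T_pos_h67 {q : ℝ} (hq0 : 0 < q) (hq1 : q < 1) {n : ℕ} (hn : 1 ≤ n) :
    (1 : ℝ) ≤ (T q n : ℝ) := by
  have h := T_ge hq0 hq1 [true] [false] rfl (by simp) (n := n) (by simpa using hn)
  have hne : T q n ≠ 0 := by
    intro h0
    rw [h0] at h
    norm_num at h
  exact_mod_cast Nat.one_le_iff_ne_zero.mpr hne

theorem lev_grow_pf {q : ℝ} (hq0 : 0 < q) (hq1 : q < 1) {a b : ℝ} (ha : 1 ≤ a)
    (hb : 2 * a < b) (h : Lev q a b b) (R : ℝ) :
    ∃ a' b' : ℝ, 1 ≤ a' ∧ R * a' ≤ b' ∧ Lev q a' b' b' := by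
  have ha0 : 0 < a := by linarith
  set y : ℝ := b / a with hy
  have hy2 : 2 < y := by rw [hy, lt_div_iff₀ ha0]; exact hb
  have hya : y * a = b := by rw [hy]; field_simp
  set mu : ℝ := min 1 (y - 2) / 4 with hmu
  have hmu0 : 0 < mu := by
    rw [hmu]
    have : 0 < min 1 (y - 2) := lt_min one_pos (by linarith)
    linarith
  have hmu1 : 4 * mu ≤ 1 := by
    have := min_le_left 1 (y - 2)
    rw [hmu]; linarith
  have hmu2 : 4 * mu ≤ y - 2 := by
    have := min_le_right 1 (y - 2)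
    rw [hmu]; linarith
  have key : ∀ k : ℕ, ∃ a' b' : ℝ, 1 ≤ a' ∧ (y + k * mu) * a' ≤ b' ∧ Lev q a' b' b' := by
    intro k
    induction k with
    | zero => exact ⟨a, b, ha, by simp [hya], h⟩
    | succ k ih =>
      obtain ⟨a', b', ha', hb', hL⟩ := ih
      have ha'0 : 0 < a' := by linarith
      have hkm : 0 ≤ (k : ℝ) * mu := by positivity
      have hyb : y * a' ≤ b' := by nlinarith
      have h2b : 2 * a' < b' := by nlinarith
      have hb'0 : 0 < b' := by linarith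
      have hga : min b' (2 * b') = b' := min_eq_left (by linarith)
      have hdl : min (b' + b') (3 * b') = b' + b' := min_eq_left (by linarith)
      have hrh0 : 0 < min a' (b' - 2 * a') := lt_min ha'0 (by linarith)
      have hstep := lev_step_pf hq0 hq1 (a := a') (b1 := b') (b2 := b') (ga := b')
        (rh := min a' (b' - 2 * a')) (dl := b' + b') ha' hb'0 hb'0 hga.symm h2b rfl hdl.symm
        (by linarith) hL
      refine ⟨4 * a', 2 * (b' + b') + min a' (b' - 2 * a'), by linarith, ?_, hstep⟩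
      have h3 : 4 * mu * a' ≤ min a' (b' - 2 * a') := by
        refine le_min ?_ ?_
        · nlinarith
        · nlinarith
      push_cast
      nlinarith
  obtain ⟨k, hk⟩ := exists_nat_ge ((R - y) / mu)
  obtain ⟨a', b', ha', hb', hL⟩ := key k
  refine ⟨a', b', ha', le_trans ?_ hb', hL⟩
  have : R - y ≤ k * mu := by rwa [div_le_iff₀ hmu0] at hk
  have ha'0 : 0 < a' := by linarith
  exact mul_le_mul_of_nonneg_right (by linarith) ha'0.le

theorem lev_lower_pf {q : ℝ} (hq0 : 0 < q) (hq1 : q < 1) {a b C : ℝ} (ha : 1 ≤ a) (hC : 0 ≤ C)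
    (hb : 2 * (C + 1) * a ≤ b) (h : Lev q a b b) :
    ∃ c : ℝ, 0 < c ∧ ∀ n : ℕ, 1 ≤ n → c * (n : ℝ) ^ C ≤ (T q n : ℝ) := by
  set d : ℝ := 1 / (1 + 2 * C) with hd
  have hd0 : 0 < d := by positivity
  have hd1 : d ≤ 1 := by
    rw [hd, div_le_one (by positivity)]; linarith
  have hdC : d * (1 + 2 * C) = 1 := by
    rw [hd]; field_simp
  obtain ⟨lam, om, -, -, -, hev⟩ := h d (b / 2) hd0
  obtain ⟨h0, hh0⟩ := eventually_atTop.mp hev
  have hbd : 2 * C * (a + d) ≤ b - d := by nlinarith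
  have hbd0 : 0 < b - d := by nlinarith
  set s : ℝ := (b - d) / 2 with hs
  have hs0 : 0 < s := by rw [hs]; linarith
  have had : 0 < a + d := by linarith
  have hsC : C ≤ s / (a + d) := by
    rw [le_div_iff₀ had, hs]; linarith
  refine ⟨min ((2 : ℝ) ^ (-s) / 36) (((h0 : ℝ) + 2) ^ (-((a + d) * C))), by positivity, ?_⟩
  intro n hn
  have hn1 : (1 : ℝ) ≤ (n : ℝ) := by exact_mod_cast hn
  have hn0 : (0 : ℝ) < (n : ℝ) := by linarith
  have hT := T_pos_h67 hq0 hq1 hn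
  set x : ℝ := (n : ℝ) ^ (1 / (a + d)) with hx
  have hx1 : 1 ≤ x := Real.one_le_rpow hn1 (by positivity)
  have hx0 : 0 < x := by linarith
  have hxn : x ^ (a + d) = (n : ℝ) := by
    rw [hx, ← Real.rpow_mul hn0.le, one_div_mul_cancel had.ne', Real.rpow_one]
  set k : ℕ := ⌊x⌋₊ with hk
  have hkx : (k : ℝ) ≤ x := Nat.floor_le hx0.le
  have hxk : x < k + 1 := Nat.lt_floor_add_one x
  have hk1 : 1 ≤ k := by
    rw [hk]
    exact (Nat.one_le_floor_iff x).mpr hx1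
  have hk1' : (1 : ℝ) ≤ (k : ℝ) := by exact_mod_cast hk1
  have hk0 : (0 : ℝ) < (k : ℝ) := by linarith
  by_cases hbig : h0 ≤ k
  · obtain ⟨sv, sp, sr, V, Ap, Am, J, hl1, hl2, hne, hlen, -, -, hV, hAp, hAm, -, -, -, -, -,
      hc1, -, -, hp, hr⟩ := hh0 k hbig
    have hlen' : sp.length ≤ n := by
      have h1 : (sv.length : ℝ) ≤ (n : ℝ) := by
        refine hlen.trans ?_
        rw [← hxn]
        exact Real.rpow_le_rpow hk0.le hkx had.le
      rw [← hl1]
      exact_mod_cast h1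
    have hTge := T_ge hq0 hq1 sp sr hl2 hne (n := n) hlen'
    have hks : (k : ℝ) ^ (-(b / 2)) ≤ (k : ℝ) ^ (-s) := by
      refine Real.rpow_le_rpow_of_exponent_le hk1' ?_
      rw [hs]; linarith
    have hpos : 0 < (k : ℝ) ^ (-s) := Real.rpow_pos_of_pos hk0 _
    have hnm1 : nm ((1 / 2 : ℝ) • (Ap - Am)) ≤ (k : ℝ) ^ (-s) := by
      have h2 := Cost.nm_sq hV hc1
      have h3 : (k : ℝ) ^ (-(b - d)) = ((k : ℝ) ^ (-s)) ^ 2 := by
        rw [← Real.rpow_natCast, ← Real.rpow_mul hk0.le]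
        congr 1
        rw [hs]; push_cast; ring
      rw [h3] at h2
      exact (pow_le_pow_iff_left₀ (nm_nonneg _) hpos.le (by norm_num)).mp h2
    have hnm2 : nm (Ap - Am) ≤ 2 * (k : ℝ) ^ (-s) := by
      rw [nm_smul] at hnm1
      rw [abs_of_pos (by norm_num : (0 : ℝ) < 1 / 2)] at hnm1
      linarith
    have hnm3 : nm (Fl q sp - Fl q sr) ≤ 4 * (k : ℝ) ^ (-s) := by
      have h2 := nm_triangle (Fl q sp) Ap (Fl q sr)
      have h3 := nm_triangle Ap Am (Fl q sr)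
      have h4 := nm_sub_comm Am (Fl q sr)
      linarith
    have h5 : 1 / 9 ≤ (T q n : ℝ) * (4 * (k : ℝ) ^ (-s)) :=
      hTge.trans (mul_le_mul_of_nonneg_left hnm3 (by linarith))
    have h6 : (k : ℝ) ^ s ≤ 36 * (T q n : ℝ) := by
      have h7 : (k : ℝ) ^ s * (k : ℝ) ^ (-s) = 1 := by
        rw [← Real.rpow_add hk0]; simp
      have h8 : 0 < (k : ℝ) ^ s := Real.rpow_pos_of_pos hk0 _
      nlinarith
    have h9 : (2 : ℝ) ^ (-s) * (n : ℝ) ^ C ≤ (k : ℝ) ^ s := by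
      have h10 : (n : ℝ) ^ C ≤ x ^ s := by
        rw [hx, ← Real.rpow_mul hn0.le]
        refine Real.rpow_le_rpow_of_exponent_le hn1 ?_
        rw [one_div_mul_eq_div]
        exact hsC
      have h11 : (2 : ℝ) ^ (-s) * x ^ s = (x / 2) ^ s := by
        rw [Real.div_rpow hx0.le (by norm_num), Real.rpow_neg (by norm_num)]
        field_simp
      calc (2 : ℝ) ^ (-s) * (n : ℝ) ^ C ≤ (2 : ℝ) ^ (-s) * x ^ s :=
            mul_le_mul_of_nonneg_left h10 (by positivity)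
        _ = (x / 2) ^ s := h11
        _ ≤ (k : ℝ) ^ s := Real.rpow_le_rpow (by positivity) (by linarith) hs0.le
    have h12 : min ((2 : ℝ) ^ (-s) / 36) (((h0 : ℝ) + 2) ^ (-((a + d) * C))) * (n : ℝ) ^ C ≤
        (2 : ℝ) ^ (-s) / 36 * (n : ℝ) ^ C :=
      mul_le_mul_of_nonneg_right (min_le_left _ _) (by positivity)
    linarith
  · have hk2 : (k : ℝ) + 1 ≤ (h0 : ℝ) := by
      have : k + 1 ≤ h0 := by omega
      exact_mod_cast this
    have h13 : (n : ℝ) ^ C ≤ ((h0 : ℝ) + 2) ^ ((a + d) * C) := by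
      rw [← hxn, ← Real.rpow_mul hx0.le]
      exact Real.rpow_le_rpow hx0.le (by linarith) (by positivity)
    have h14 : ((h0 : ℝ) + 2) ^ (-((a + d) * C)) * ((h0 : ℝ) + 2) ^ ((a + d) * C) = 1 := by
      rw [← Real.rpow_add (by positivity)]; simp
    have h15 : min ((2 : ℝ) ^ (-s) / 36) (((h0 : ℝ) + 2) ^ (-((a + d) * C))) * (n : ℝ) ^ C ≤
        ((h0 : ℝ) + 2) ^ (-((a + d) * C)) * ((h0 : ℝ) + 2) ^ ((a + d) * C) :=
      mul_le_mul (min_le_right _ _) h13 (by positivity) (by positivity)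
    linarith

theorem super_of_base_pf {q : ℝ} (hq0 : 0 < q) (hq1 : q < 1)
    (hbase : Lev q 1 (3 / 2) (5 / 2)) {C : ℝ} (hC : 0 ≤ C) :
    ∃ c : ℝ, 0 < c ∧ ∀ n : ℕ, 1 ≤ n → c * (n : ℝ) ^ C ≤ (T q n : ℝ) := by
  have h1 := lev_step_pf hq0 hq1 (a := 1) (b1 := 3 / 2) (b2 := 5 / 2) (ga := 5 / 2)
    (rh := 1 / 2) (dl := 4) le_rfl (by norm_num) (by norm_num)
    (by rw [min_def]; norm_num) (by norm_num) (by rw [min_def]; norm_num)
    (by rw [min_def]; norm_num) (by norm_num) hbase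
  norm_num at h1
  obtain ⟨a', b', ha', hb', hL⟩ := lev_grow_pf hq0 hq1 (by norm_num) (by norm_num) h1
    (2 * (C + 1))
  exact lev_lower_pf hq0 hq1 ha' hC hb' hL

end Vale.Agent.P321.Sup
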