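import Vale.Agent.P321.Sup.LevDef

/-!
Blueprint module LevStep: one double step on exponents.
-/

namespace Vale.Agent.P321.Sup

open Filter

theorem Slip.add_lvs {V : Al} {J : ℕ} {om : ℝ} (hV : Prb V) (h : Slip V J om) (i : ℕ) :
    Slip V (J + i) om := by
  induction i with
  | zero => exact h
  | succ i ih => exact Slip.succ hV ih

section num

variable {x ε C tau a : ℝ} {K : ℕ}

theorem pm_lvs (hx1 : 1 ≤ x) {s t : ℝ} (hst : s ≤ t) : x ^ s ≤ x ^ t :=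
  Real.rpow_le_rpow_of_exponent_le hx1 hst

theorem pa_lvs (hx1 : 1 ≤ x) (s t : ℝ) : x ^ s * x ^ t = x ^ (s + t) :=
  (Real.rpow_add (by linarith) s t).symm

theorem pp_lvs (hx1 : 1 ≤ x) (s : ℝ) : 0 < x ^ s := Real.rpow_pos_of_pos (by linarith) s

theorem pn_lvs (hx1 : 1 ≤ x) (s : ℝ) (k : ℕ) : (x ^ s) ^ k = x ^ (s * k) := by
  rw [← Real.rpow_natCast, ← Real.rpow_mul (by linarith)]

theorem one_le_lvs (hx1 : 1 ≤ x) {s : ℝ} (hs : 0 ≤ s) : 1 ≤ x ^ s := by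
  have := pm_lvs hx1 hs
  rwa [Real.rpow_zero] at this

theorem le_one_lvs (hx1 : 1 ≤ x) {s : ℝ} (hs : s ≤ 0) : x ^ s ≤ 1 := by
  have := pm_lvs hx1 hs
  rwa [Real.rpow_zero] at this

theorem fin2_lvs (hx1 : 1 ≤ x) (hM : 1000 * C ≤ x ^ ε) {A s t : ℝ} (hA : A ≤ 1000 * C)
    (hst : s + ε ≤ t) : A * x ^ s ≤ x ^ t := by
  calc A * x ^ s ≤ x ^ ε * x ^ s := mul_le_mul_of_nonneg_right (hA.trans hM) (pp_lvs hx1 s).le
    _ = x ^ (ε + s) := pa_lvs hx1 _ _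
    _ ≤ x ^ t := pm_lvs hx1 (by linarith)

theorem fin1_lvs (hx1 : 1 ≤ x) (hM : 1000 * C ≤ x ^ ε) {A s : ℝ} (hA : A ≤ 1000 * C)
    (hst : s + ε ≤ 0) : A * x ^ s ≤ 1 := by
  have := fin2_lvs (t := 0) hx1 hM hA hst
  rwa [Real.rpow_zero] at this

theorem Kinv_lvs (hx1 : 1 ≤ x) (hKl : x ^ ε ≤ (K : ℝ)) (k : ℕ) :
    1 / (K : ℝ) ^ k ≤ x ^ (-(ε * k)) := by
  rw [Real.rpow_neg (by linarith), ← pn_lvs hx1, ← one_div]
  exact one_div_le_one_div_of_le (pow_pos (pp_lvs hx1 ε) k)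
    (pow_le_pow_left₀ (pp_lvs hx1 ε).le hKl k)

/-- powers of `K` and `tau` -/
theorem Kt_lvs (hx1 : 1 ≤ x) (hK0 : (0 : ℝ) < K) (hKu : (K : ℝ) ≤ 2 * x ^ ε)
    (htau0 : 0 < tau) (hJ1 : tau ≤ x ^ (a + ε)) (k l : ℕ) :
    (K : ℝ) ^ k * tau ^ l ≤ 2 ^ k * x ^ (ε * k + (a + ε) * l) := by
  have h1 : (K : ℝ) ^ k ≤ 2 ^ k * x ^ (ε * k) := by
    calc (K : ℝ) ^ k ≤ (2 * x ^ ε) ^ k := pow_le_pow_left₀ hK0.le hKu k
      _ = 2 ^ k * x ^ (ε * k) := by rw [mul_pow, pn_lvs hx1]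
  have h2 : tau ^ l ≤ x ^ ((a + ε) * l) := by
    rw [← pn_lvs hx1]
    exact pow_le_pow_left₀ htau0.le hJ1 l
  calc (K : ℝ) ^ k * tau ^ l ≤ (2 ^ k * x ^ (ε * k)) * x ^ ((a + ε) * l) :=
        mul_le_mul h1 h2 (by positivity) (mul_nonneg (by positivity) (pp_lvs hx1 _).le)
    _ = 2 ^ k * x ^ (ε * k + (a + ε) * l) := by rw [mul_assoc, pa_lvs hx1]

/-- the bound of the small parameters -/
theorem small_lvs {b1 b2 ga rh dl e y rho : ℝ} {m : ℕ} (hx1 : 1 ≤ x) (hε0 : 0 < ε)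
    (hK0 : (0 : ℝ) < K) (hKu : (K : ℝ) ≤ 2 * x ^ ε)
    (hKm : 1 / (K : ℝ) ^ m ≤ x ^ (-(2 * dl + rh + ga + 1)))
    (htau0 : 0 < tau) (hJ0 : x ^ (a - ε) ≤ tau) (hJ1 : tau ≤ x ^ (a + ε))
    (hga_b2 : ga ≤ b2) (hga_b1 : ga ≤ 2 * b1) (hrh_a : rh ≤ a) (hrh_g : rh ≤ ga - 2 * a)
    (hdl_1 : dl ≤ b1 + b2) (hdl_3 : dl ≤ 3 * b1) (hrh0 : 0 < rh) (hdl0 : 0 < dl)
    (he : e = x ^ (-(b2 - ε)) + (x ^ (-(b1 - ε))) ^ 2 + 1 / (K : ℝ) ^ m)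
    (hy : y = x ^ (-(b1 - ε)) * x ^ (-(b2 - ε)) + (x ^ (-(b1 - ε))) ^ 3)
    (hrho : rho = 1 / tau + (K : ℝ) ^ 2 * tau ^ 2 * e) (ha : 1 ≤ a) (hga0 : 0 < ga) :
    0 < rho ∧ 0 < y ∧ (K : ℝ) ^ 2 * tau ^ 2 * e ≤ 12 * x ^ (-(ga - 2 * a - 6 * ε)) ∧
      y * rho ≤ 26 * x ^ (-(dl + rh - 9 * ε)) ∧
      y ^ 2 * rho ≤ 52 * x ^ (-(2 * dl + rh - 12 * ε)) := by
  have pp : ∀ s : ℝ, 0 < x ^ s := pp_lvs hx1
  have hKmp : 0 < 1 / (K : ℝ) ^ m := by positivity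
  have p1 := pp (-(b1 - ε))
  have p2 := pp (-(b2 - ε))
  have he0 : 0 < e := by rw [he]; positivity
  have hy0 : 0 < y := by rw [hy]; positivity
  have hrho0 : 0 < rho := by rw [hrho]; positivity
  have heb : e ≤ 3 * x ^ (-(ga - 2 * ε)) := by
    have e1 : x ^ (-(b2 - ε)) ≤ x ^ (-(ga - 2 * ε)) := pm_lvs hx1 (by linarith)
    have e2 : (x ^ (-(b1 - ε))) ^ 2 ≤ x ^ (-(ga - 2 * ε)) := by
      rw [pn_lvs hx1]; push_cast; exact pm_lvs hx1 (by linarith)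
    have e3 : 1 / (K : ℝ) ^ m ≤ x ^ (-(ga - 2 * ε)) := hKm.trans (pm_lvs hx1 (by linarith))
    rw [he]; linarith
  have hyb : y ≤ 2 * x ^ (-(dl - 3 * ε)) := by
    have e1 : x ^ (-(b1 - ε)) * x ^ (-(b2 - ε)) ≤ x ^ (-(dl - 3 * ε)) := by
      rw [pa_lvs hx1]; exact pm_lvs hx1 (by linarith)
    have e2 : (x ^ (-(b1 - ε))) ^ 3 ≤ x ^ (-(dl - 3 * ε)) := by
      rw [pn_lvs hx1]; push_cast; exact pm_lvs hx1 (by linarith)
    rw [hy]; linarith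
  have hKte : (K : ℝ) ^ 2 * tau ^ 2 * e ≤ 12 * x ^ (-(ga - 2 * a - 6 * ε)) := by
    have h1 := Kt_lvs hx1 hK0 hKu htau0 hJ1 2 2
    calc (K : ℝ) ^ 2 * tau ^ 2 * e ≤
        (2 ^ 2 * x ^ (ε * (2 : ℕ) + (a + ε) * (2 : ℕ))) * (3 * x ^ (-(ga - 2 * ε))) :=
          mul_le_mul h1 heb he0.le (mul_nonneg (by positivity) (pp _).le)
      _ = 12 * (x ^ (ε * (2 : ℕ) + (a + ε) * (2 : ℕ)) * x ^ (-(ga - 2 * ε))) := by ring
      _ = 12 * x ^ (-(ga - 2 * a - 6 * ε)) := by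
          rw [pa_lvs hx1]; congr 2; push_cast; ring
  have hrhob : rho ≤ 13 * x ^ (-(rh - 6 * ε)) := by
    have e1 : 1 / tau ≤ x ^ (-(rh - 6 * ε)) := by
      have : 1 / tau ≤ 1 / x ^ (a - ε) := one_div_le_one_div_of_le (pp _) hJ0
      refine this.trans ?_
      rw [one_div, ← Real.rpow_neg (by linarith)]
      exact pm_lvs hx1 (by linarith)
    have e2 : (K : ℝ) ^ 2 * tau ^ 2 * e ≤ 12 * x ^ (-(rh - 6 * ε)) :=
      hKte.trans (mul_le_mul_of_nonneg_left (pm_lvs hx1 (by linarith)) (by norm_num))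
    rw [hrho]; linarith
  have hyr : y * rho ≤ 26 * x ^ (-(dl + rh - 9 * ε)) := by
    calc y * rho ≤ (2 * x ^ (-(dl - 3 * ε))) * (13 * x ^ (-(rh - 6 * ε))) :=
          mul_le_mul hyb hrhob hrho0.le (mul_nonneg (by norm_num) (pp _).le)
      _ = 26 * (x ^ (-(dl - 3 * ε)) * x ^ (-(rh - 6 * ε))) := by ring
      _ = 26 * x ^ (-(dl + rh - 9 * ε)) := by rw [pa_lvs hx1]; congr 2; ring
  refine ⟨hrho0, hy0, hKte, hyr, ?_⟩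
  calc y ^ 2 * rho = y * (y * rho) := by ring
    _ ≤ (2 * x ^ (-(dl - 3 * ε))) * (26 * x ^ (-(dl + rh - 9 * ε))) :=
        mul_le_mul hyb hyr (mul_nonneg hy0.le hrho0.le) (mul_nonneg (by norm_num) (pp _).le)
    _ = 52 * (x ^ (-(dl - 3 * ε)) * x ^ (-(dl + rh - 9 * ε))) := by ring
    _ = 52 * x ^ (-(2 * dl + rh - 12 * ε)) := by rw [pa_lvs hx1]; congr 2; ring

/-- the three conditions of the double step -/
theorem conds_lvs {ga rh dl e y rho : ℝ} {m th : ℕ} (hx1 : 1 ≤ x) (hC : 1 ≤ C)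
    (hM : 1000 * C ≤ x ^ ε) (hε0 : 0 < ε)
    (hKl : x ^ ε ≤ (K : ℝ)) (hK0 : (0 : ℝ) < K) (hKu : (K : ℝ) ≤ 2 * x ^ ε)
    (hKm : 1 / (K : ℝ) ^ m ≤ x ^ (-(2 * dl + rh + ga + 1)))
    (htau0 : 0 < tau) (hJ1 : tau ≤ x ^ (a + ε)) (hy0 : 0 < y) (hrho0 : 0 < rho)
    (hKte : (K : ℝ) ^ 2 * tau ^ 2 * e ≤ 12 * x ^ (-(ga - 2 * a - 6 * ε)))
    (hyr : y * rho ≤ 26 * x ^ (-(dl + rh - 9 * ε)))
    (hε1 : 18 * ε ≤ dl + rh - 4 * a) (hε2 : 7 * ε ≤ ga - 2 * a)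
    (hth : 4 * a + 8 * ε ≤ ε * th) (hrh0 : 0 < rh) (hdl0 : 0 < dl) (hga0 : 0 < ga) :
    C * ((K : ℝ) ^ 2 * tau ^ 2 * e) ≤ 1 ∧
    C * ((K : ℝ) ^ 4 * tau ^ 4 * (y * rho + 1 / (K : ℝ) ^ m)) ≤ 1 ∧
    C * ((K : ℝ) ^ 3 * tau ^ 4) ≤ (K : ℝ) ^ th := by
  have pp : ∀ s : ℝ, 0 < x ^ s := pp_lvs hx1
  refine ⟨?_, ?_, ?_⟩
  · calc C * ((K : ℝ) ^ 2 * tau ^ 2 * e) ≤ C * (12 * x ^ (-(ga - 2 * a - 6 * ε))) :=
          mul_le_mul_of_nonneg_left hKte (by linarith)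
      _ = (12 * C) * x ^ (-(ga - 2 * a - 6 * ε)) := by ring
      _ ≤ 1 := fin1_lvs hx1 hM (by linarith) (by linarith)
  · have hK4 := Kt_lvs hx1 hK0 hKu htau0 hJ1 4 4
    have e1 : y * rho + 1 / (K : ℝ) ^ m ≤ 27 * x ^ (-(dl + rh - 9 * ε)) := by
      have : 1 / (K : ℝ) ^ m ≤ x ^ (-(dl + rh - 9 * ε)) := hKm.trans (pm_lvs hx1 (by linarith))
      linarith
    calc C * ((K : ℝ) ^ 4 * tau ^ 4 * (y * rho + 1 / (K : ℝ) ^ m)) ≤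
        C * ((2 ^ 4 * x ^ (ε * (4 : ℕ) + (a + ε) * (4 : ℕ))) *
          (27 * x ^ (-(dl + rh - 9 * ε)))) := by
          apply mul_le_mul_of_nonneg_left _ (by linarith)
          exact mul_le_mul hK4 e1 (by positivity) (mul_nonneg (by norm_num) (pp _).le)
      _ = (432 * C) * (x ^ (ε * (4 : ℕ) + (a + ε) * (4 : ℕ)) * x ^ (-(dl + rh - 9 * ε))) := by
          ring
      _ = (432 * C) * x ^ (-(dl + rh - 4 * a - 17 * ε)) := by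
          rw [pa_lvs hx1]; congr 2; push_cast; ring
      _ ≤ 1 := fin1_lvs hx1 hM (by linarith) (by linarith)
  · have hK3 := Kt_lvs hx1 hK0 hKu htau0 hJ1 3 4
    calc C * ((K : ℝ) ^ 3 * tau ^ 4) ≤ C * (2 ^ 3 * x ^ (ε * (3 : ℕ) + (a + ε) * (4 : ℕ))) :=
          mul_le_mul_of_nonneg_left hK3 (by linarith)
      _ = (8 * C) * x ^ (ε * (3 : ℕ) + (a + ε) * (4 : ℕ)) := by ring
      _ ≤ x ^ (ε * th) := fin2_lvs hx1 hM (by linarith) (by push_cast; linarith)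
      _ = (x ^ ε) ^ th := (pn_lvs hx1 _ _).symm
      _ ≤ (K : ℝ) ^ th := pow_le_pow_left₀ (pp ε).le hKl th

/-- the output bounds -/
theorem outs_lvs {ga rh dl y rho D B B' len : ℝ} {m th : ℕ} (hx1 : 1 ≤ x) (hC : 1 ≤ C)
    (hM : 1000 * C ≤ x ^ ε) (hε0 : 0 < ε)
    (hKl : x ^ ε ≤ (K : ℝ)) (hK0 : (0 : ℝ) < K) (hKu : (K : ℝ) ≤ 2 * x ^ ε)
    (hKm : 1 / (K : ℝ) ^ m ≤ x ^ (-(2 * dl + rh + ga + 1)))
    (htau0 : 0 < tau) (hJ1 : tau ≤ x ^ (a + ε)) (hy0 : 0 < y) (hrho0 : 0 < rho)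
    (hyyr : y ^ 2 * rho ≤ 52 * x ^ (-(2 * dl + rh - 12 * ε)))
    (hlen0 : 0 ≤ len) (hlen : len ≤ x ^ (a + ε))
    (hD : 14 * ε ≤ D) (hth : 4 * a + 8 * ε + |B'| + 1 + ε ≤ ε * th) (ha : 1 ≤ a)
    (hB : B = B' + 3 * a + 7 * ε + 1) (hga0 : 0 < ga) :
    C * ((K : ℝ) ^ 3 * tau ^ 3 * len) ≤ x ^ (4 * a + D) ∧
    C * ((K : ℝ) ^ 3 * tau ^ 4) ≤ (8 * C) * x ^ (4 * a + 7 * ε) ∧
    (1 / 2 : ℝ) ^ 2 * (C * ((K : ℝ) * (y ^ 2 * rho + 1 / (K : ℝ) ^ m))) ≤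
      x ^ (-(2 * dl + rh - D)) ∧
    C * ((K : ℝ) ^ 3 * tau ^ 3 * x ^ (-B)) ≤ x ^ (-B') ∧
    C * ((K : ℝ) ^ 3 * tau ^ 3 * x ^ (-B) + 1 / (K : ℝ) ^ th) ≤ x ^ (-B') := by
  have pp : ∀ s : ℝ, 0 < x ^ s := pp_lvs hx1
  have hK3 := Kt_lvs hx1 hK0 hKu htau0 hJ1 3 3
  have hnm1 : C * ((K : ℝ) ^ 3 * tau ^ 3 * x ^ (-B)) ≤ (8 * C) * x ^ (-(B' + ε + 1)) := by
    calc C * ((K : ℝ) ^ 3 * tau ^ 3 * x ^ (-B)) ≤
        C * ((2 ^ 3 * x ^ (ε * (3 : ℕ) + (a + ε) * (3 : ℕ))) * x ^ (-B)) := by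
          apply mul_le_mul_of_nonneg_left _ (by linarith)
          exact mul_le_mul_of_nonneg_right hK3 (pp _).le
      _ = (8 * C) * (x ^ (ε * (3 : ℕ) + (a + ε) * (3 : ℕ)) * x ^ (-B)) := by ring
      _ = (8 * C) * x ^ (-(B' + ε + 1)) := by
          rw [pa_lvs hx1]; congr 2; rw [hB]; push_cast; ring
  refine ⟨?_, ?_, ?_, ?_, ?_⟩
  · calc C * ((K : ℝ) ^ 3 * tau ^ 3 * len) ≤
        C * ((2 ^ 3 * x ^ (ε * (3 : ℕ) + (a + ε) * (3 : ℕ))) * x ^ (a + ε)) := by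
          apply mul_le_mul_of_nonneg_left _ (by linarith)
          exact mul_le_mul hK3 hlen hlen0 (mul_nonneg (by norm_num) (pp _).le)
      _ = (8 * C) * (x ^ (ε * (3 : ℕ) + (a + ε) * (3 : ℕ)) * x ^ (a + ε)) := by ring
      _ = (8 * C) * x ^ (4 * a + 7 * ε) := by rw [pa_lvs hx1]; congr 2; push_cast; ring
      _ ≤ x ^ (4 * a + D) := fin2_lvs hx1 hM (by linarith) (by linarith)
  · have h34 := Kt_lvs hx1 hK0 hKu htau0 hJ1 3 4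
    calc C * ((K : ℝ) ^ 3 * tau ^ 4) ≤ C * (2 ^ 3 * x ^ (ε * (3 : ℕ) + (a + ε) * (4 : ℕ))) :=
          mul_le_mul_of_nonneg_left h34 (by linarith)
      _ = (8 * C) * x ^ (ε * (3 : ℕ) + (a + ε) * (4 : ℕ)) := by ring
      _ = (8 * C) * x ^ (4 * a + 7 * ε) := by congr 2; push_cast; ring
  · have e1 : y ^ 2 * rho + 1 / (K : ℝ) ^ m ≤ 53 * x ^ (-(2 * dl + rh - 12 * ε)) := by
      have : 1 / (K : ℝ) ^ m ≤ x ^ (-(2 * dl + rh - 12 * ε)) :=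
        hKm.trans (pm_lvs hx1 (by linarith))
      linarith
    have e2 : (K : ℝ) * (y ^ 2 * rho + 1 / (K : ℝ) ^ m) ≤
        106 * x ^ (-(2 * dl + rh - 13 * ε)) := by
      calc (K : ℝ) * (y ^ 2 * rho + 1 / (K : ℝ) ^ m) ≤
          (2 * x ^ ε) * (53 * x ^ (-(2 * dl + rh - 12 * ε))) :=
            mul_le_mul hKu e1 (by positivity) (mul_nonneg (by norm_num) (pp _).le)
        _ = 106 * (x ^ ε * x ^ (-(2 * dl + rh - 12 * ε))) := by ring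
        _ = 106 * x ^ (-(2 * dl + rh - 13 * ε)) := by rw [pa_lvs hx1]; congr 2; ring
    have e3 : 0 ≤ C * ((K : ℝ) * (y ^ 2 * rho + 1 / (K : ℝ) ^ m)) := by positivity
    calc (1 / 2 : ℝ) ^ 2 * (C * ((K : ℝ) * (y ^ 2 * rho + 1 / (K : ℝ) ^ m))) ≤
        1 * (C * ((K : ℝ) * (y ^ 2 * rho + 1 / (K : ℝ) ^ m))) :=
          mul_le_mul_of_nonneg_right (by norm_num) e3
      _ ≤ C * (106 * x ^ (-(2 * dl + rh - 13 * ε))) := by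
          rw [one_mul]; exact mul_le_mul_of_nonneg_left e2 (by linarith)
      _ = (106 * C) * x ^ (-(2 * dl + rh - 13 * ε)) := by ring
      _ ≤ x ^ (-(2 * dl + rh - D)) := fin2_lvs hx1 hM (by linarith) (by linarith)
  · exact hnm1.trans (fin2_lvs hx1 hM (by linarith) (by linarith))
  · have e1 : 1 / (K : ℝ) ^ th ≤ x ^ (-(B' + ε + 1)) := by
      refine (Kinv_lvs hx1 hKl th).trans (pm_lvs hx1 ?_)
      have := le_abs_self B'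
      linarith
    have e2 : C * ((K : ℝ) ^ 3 * tau ^ 3 * x ^ (-B) + 1 / (K : ℝ) ^ th) ≤
        (9 * C) * x ^ (-(B' + ε + 1)) := by
      have e3 : C * (1 / (K : ℝ) ^ th) ≤ C * x ^ (-(B' + ε + 1)) :=
        mul_le_mul_of_nonneg_left e1 (by linarith)
      rw [mul_add]; linarith
    exact e2.trans (fin2_lvs hx1 hM (by linarith) (by linarith))

end num

theorem half_lvs (A V : Al) : (1 / 2 : ℝ) • (A + V) - V = (1 / 2 : ℝ) • (A - V) := by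
  rw [smul_add, smul_sub]
  have : V = (1 / 2 : ℝ) • V + (1 / 2 : ℝ) • V := by
    rw [← add_smul]; norm_num
  nth_rewrite 2 [this]
  abel

theorem exists_eps_lvs {a ga rh dl b1 b2 D : ℝ} (h1 : 4 * a < dl + rh) (h2 : 2 * a < ga)
    (hD : 0 < D) (hb1 : 0 < b1) (hb2 : 0 < b2) : ∃ ε : ℝ, 0 < ε ∧ 18 * ε ≤ dl + rh - 4 * a ∧
      7 * ε ≤ ga - 2 * a ∧ 14 * ε ≤ D ∧ ε ≤ b1 ∧ ε ≤ b2 := by
  refine ⟨min (min ((dl + rh - 4 * a) / 18) ((ga - 2 * a) / 7)) (min (D / 14) (min b1 b2)),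
      ?_, ?_, ?_, ?_, ?_, ?_⟩
  · refine lt_min (lt_min ?_ ?_) (lt_min ?_ (lt_min hb1 hb2))
    · apply div_pos <;> linarith
    · apply div_pos <;> linarith
    · apply div_pos <;> linarith
  · have := (min_le_left (min ((dl + rh - 4 * a) / 18) ((ga - 2 * a) / 7))
      (min (D / 14) (min b1 b2))).trans (min_le_left _ _)
    linarith
  · have := (min_le_left (min ((dl + rh - 4 * a) / 18) ((ga - 2 * a) / 7))
      (min (D / 14) (min b1 b2))).trans (min_le_right _ _)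
    linarith
  · have := (min_le_right (min ((dl + rh - 4 * a) / 18) ((ga - 2 * a) / 7))
      (min (D / 14) (min b1 b2))).trans (min_le_left _ _)
    linarith
  · exact (min_le_right _ _).trans ((min_le_right _ _).trans (min_le_left _ _))
  · exact (min_le_right _ _).trans ((min_le_right _ _).trans (min_le_right _ _))

theorem lev_step_pf {q : ℝ} (hq0 : 0 < q) (hq1 : q < 1) {a b1 b2 ga rh dl : ℝ} (ha : 1 ≤ a)
    (hb1 : 0 < b1) (hb2 : 0 < b2) (hga : ga = min b2 (2 * b1)) (hga2 : 2 * a < ga)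
    (hrh : rh = min a (ga - 2 * a)) (hdl : dl = min (b1 + b2) (3 * b1)) (hc : 4 * a < dl + rh)
    (h : Lev q a b1 b2) : Lev q (4 * a) (2 * dl + rh) (2 * dl + rh) := by
  intro D B' hD
  have hga_b2 : ga ≤ b2 := by rw [hga]; exact min_le_left _ _
  have hga_b1 : ga ≤ 2 * b1 := by rw [hga]; exact min_le_right _ _
  have hrh_a : rh ≤ a := by rw [hrh]; exact min_le_left _ _
  have hrh_g : rh ≤ ga - 2 * a := by rw [hrh]; exact min_le_right _ _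
  have hdl_1 : dl ≤ b1 + b2 := by rw [hdl]; exact min_le_left _ _
  have hdl_3 : dl ≤ 3 * b1 := by rw [hdl]; exact min_le_right _ _
  have hrh0 : 0 < rh := by rw [hrh]; exact lt_min (by linarith) (by linarith)
  have hdl0 : 0 < dl := by rw [hdl]; exact lt_min (by linarith) (by linarith)
  have hga0 : 0 < ga := by linarith
  clear hga hrh hdl
  obtain ⟨ε, hε0, hε1, hε2, hε3, hε4, hε5⟩ := exists_eps_lvs hc hga2 hD hb1 hb2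
  obtain ⟨m, hm⟩ : ∃ m : ℕ, 2 * dl + rh + ga + 1 ≤ ε * m := by
    obtain ⟨m, hm⟩ := exists_nat_ge ((2 * dl + rh + ga + 1) / ε)
    exact ⟨m, by rw [div_le_iff₀ hε0] at hm; linarith⟩
  obtain ⟨th, hth⟩ : ∃ th : ℕ, 4 * a + 8 * ε + |B'| + 1 + ε ≤ ε * th := by
    obtain ⟨m, hm⟩ := exists_nat_ge ((4 * a + 8 * ε + |B'| + 1 + ε) / ε)
    exact ⟨m, by rw [div_le_iff₀ hε0] at hm; linarith⟩
  have hth' : 4 * a + 8 * ε ≤ ε * th := by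
    have := abs_nonneg B'
    linarith
  obtain ⟨lam, om, hlam, hom0, hom1, hdat⟩ := h ε (B' + 3 * a + 7 * ε + 1) hε0
  obtain ⟨C, lam', hC, hlam', hstep⟩ := double_step hq0 hq1 m th hlam hom0 hom1
  refine ⟨lam', 1 / 2, hlam', by norm_num, by norm_num, ?_⟩
  have hlarge : ∀ᶠ h : ℕ in atTop, 1000 * C ≤ ((h : ℕ) : ℝ) ^ ε := by
    have := (tendsto_rpow_atTop hε0).comp (tendsto_natCast_atTop_atTop (R := ℝ))
    exact this.eventually_ge_atTop (1000 * C)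
  filter_upwards [hdat, hlarge, eventually_ge_atTop 1] with n hn hM hn1
  obtain ⟨sv, sp, sr, V, Ap, Am, J, hl1, hl2, hne, hlen, hJ0, hJ1, hV, hAp, hAm, h1, h2, h3, h4,
    hslip, hc1, hc2, ht1, ht2, ht3⟩ := hn
  set x : ℝ := (n : ℝ) with hx
  have hx1 : 1 ≤ x := by rw [hx]; exact_mod_cast hn1
  obtain ⟨K, hKl, hKu⟩ : ∃ K : ℕ, x ^ ε ≤ (K : ℝ) ∧ (K : ℝ) ≤ 2 * x ^ ε := by
    refine ⟨⌈x ^ ε⌉₊, Nat.le_ceil _, ?_⟩
    have := Nat.ceil_lt_add_one (pp_lvs hx1 ε).le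
    have h1 := one_le_lvs hx1 hε0.le
    linarith
  have hK1' : (1 : ℝ) ≤ K := (one_le_lvs hx1 hε0.le).trans hKl
  have hK1 : 1 ≤ K := by exact_mod_cast hK1'
  have hK0 : (0 : ℝ) < K := by linarith
  have hKm : 1 / (K : ℝ) ^ m ≤ x ^ (-(2 * dl + rh + ga + 1)) :=
    (Kinv_lvs hx1 hKl m).trans (pm_lvs hx1 (by linarith))
  have htau0 : (0 : ℝ) < (J : ℝ) + 1 := by positivity
  obtain ⟨hrho0, hy0, hKte, hyr, hyyr⟩ := small_lvs (b1 := b1) (b2 := b2) (m := m) hx1 hε0 hK0 hKu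
    hKm htau0 hJ0 hJ1 hga_b2 hga_b1 hrh_a hrh_g hdl_1 hdl_3 hrh0 hdl0 rfl rfl rfl ha hga0
  obtain ⟨cond1, cond2, cond3⟩ := conds_lvs (th := th) hx1 hC hM hε0 hKl hK0 hKu hKm htau0 hJ1
    hy0 hrho0 hKte hyr hε1 hε2 hth' hrh0 hdl0 hga0
  obtain ⟨o1, o2, o3, o4, o5⟩ := outs_lvs (th := th) hx1 hC hM hε0 hKl hK0 hKu hKm htau0 hJ1
    hy0 hrho0 hyyr (Nat.cast_nonneg sv.length) hlen hε3 hth ha rfl hga0
  have hc1le : x ^ (-(b1 - ε)) ≤ 1 := le_one_lvs hx1 (by linarith)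
  have hc2le : x ^ (-(b2 - ε)) ≤ 1 := le_one_lvs hx1 (by linarith)
  obtain ⟨sv', sp', V', A', J', hl, hne', hlen', hJ', hV', hA', hle1, hle2, hslip', hcost, hn1',
    hn2'⟩ := hstep sv sp sr V Ap Am J K _ _ _ _ _ _ _ hl1 hl2 hne hV hAp hAm h1 h2
      h3 h4 hslip hc1 hc2 hc1le hc2le ht1 ht2 ht3 hK1 rfl rfl rfl rfl cond1 cond2 cond3
  have hslip2 : Slip V' (J' + ⌈x ^ (4 * a - D)⌉₊) (1 / 2) := Slip.add_lvs hV' hslip' _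
  have hJ2l : x ^ (4 * a - D) ≤ ((J' + ⌈x ^ (4 * a - D)⌉₊ : ℕ) : ℝ) + 1 := by
    have := Nat.le_ceil (x ^ (4 * a - D))
    push_cast
    have h0 : (0 : ℝ) ≤ (J' : ℝ) := Nat.cast_nonneg _
    linarith
  have hJ2u : ((J' + ⌈x ^ (4 * a - D)⌉₊ : ℕ) : ℝ) + 1 ≤ x ^ (4 * a + D) := by
    have e1 := Nat.ceil_lt_add_one (pp_lvs hx1 (4 * a - D)).le
    have e2 : x ^ (4 * a - D) ≤ x ^ (4 * a + 7 * ε) := pm_lvs hx1 (by linarith)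
    have e3 : (1 : ℝ) ≤ x ^ (4 * a + 7 * ε) := one_le_lvs hx1 (by linarith)
    have e4 : (J' : ℝ) + 1 ≤ 8 * C * x ^ (4 * a + 7 * ε) := hJ'.trans o2
    have e5 : ((J' + ⌈x ^ (4 * a - D)⌉₊ : ℕ) : ℝ) + 1 ≤ (8 * C + 2) * x ^ (4 * a + 7 * ε) := by
      push_cast
      linarith
    exact e5.trans (fin2_lvs hx1 hM (by linarith) (by linarith))
  have hself : Le V' (lam' • V') := by
    have := Le.smul_le (a := V') hlam' hV'.pos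
    rwa [one_smul] at this
  have hcost2 : Cost ((1 / 2 : ℝ) • (A' - V')) V' (x ^ (-(2 * dl + rh - D))) :=
    Cost.mono (Cost.smul (1 / 2) hcost) o3
  refine ⟨sv', sp', sv', V', A', V', J' + ⌈x ^ (4 * a - D)⌉₊, hl, hl.symm, hne',
    hlen'.trans o1, hJ2l, hJ2u, hV', hA', hV', hle1, hle2, hself, hself, hslip2, hcost2, ?_,
    hn1'.trans o4, hn2'.trans o5, hn1'.trans o4⟩
  rw [half_lvs]; exact hcost2

end Vale.Agent.P321.Sup
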