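import Vale.Agent.P321.Sup.Coins

/-!
Blueprint module Pat: words in two letters, Thue-Morse, first half of the double step.
-/

namespace Vale.Agent.P321.Sup

open Polynomial

/-- product of letters: `A` for `true`, `B` for `false` -/
noncomputable def cells (A B : Al) (l : List Bool) : Al :=
  (l.map (fun b => if b then A else B)).prod

/-- signed generating polynomial -/
noncomputable def sgp : List Bool → ℝ[X]
  | [] => 0
  | b :: l => C (if b then 1 else -1) + X * sgp l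

/-- generating polynomial of the positions of `false` -/
noncomputable def fgp : List Bool → ℝ[X]
  | [] => 0
  | b :: l => C (if b then 0 else 1) + X * fgp l

theorem pat_length (m : ℕ) (b : Bool) : (pat m b).length = 2 ^ m := by
  induction m generalizing b with
  | zero => simp [pat]
  | succ m ih =>
    rw [pat, List.length_append, ih, ih, pow_succ]
    ring

theorem pat_not (m : ℕ) (b : Bool) : pat m (!b) = (pat m b).map not := by
  induction m generalizing b with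
  | zero => simp [pat]
  | succ m ih =>
    rw [pat, pat, List.map_append, ih b, ih (!b), ih b]

theorem natDegree_cons_45 (c : ℝ) (p : ℝ[X]) (n : ℕ) (h : p.natDegree ≤ n - 1) (h0 : n = 0 → p = 0) :
    (C c + X * p).natDegree ≤ n := by
  refine (natDegree_add_le _ _).trans ?_
  rw [natDegree_C]
  apply max_le (Nat.zero_le _)
  rcases Nat.eq_zero_or_pos n with hn | hn
  · rw [h0 hn, mul_zero, natDegree_zero]
    exact Nat.zero_le _
  · refine natDegree_mul_le.trans ?_
    rw [natDegree_X]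
    omega

theorem sgp_natDegree (l : List Bool) : (sgp l).natDegree ≤ l.length - 1 := by
  induction l with
  | nil => simp [sgp]
  | cons b l ih =>
    rw [sgp, List.length_cons, Nat.add_sub_cancel]
    apply natDegree_cons_45 _ _ _ ih
    intro h
    rw [List.length_eq_zero_iff] at h
    rw [h, sgp]

theorem fgp_natDegree (l : List Bool) : (fgp l).natDegree ≤ l.length - 1 := by
  induction l with
  | nil => simp [fgp]
  | cons b l ih =>
    rw [fgp, List.length_cons, Nat.add_sub_cancel]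
    apply natDegree_cons_45 _ _ _ ih
    intro h
    rw [List.length_eq_zero_iff] at h
    rw [h, fgp]

theorem fgp_not (l : List Bool) : fgp (l.map not) - fgp l = sgp l := by
  induction l with
  | nil => simp [fgp, sgp]
  | cons b l ih =>
    rw [List.map_cons, fgp, fgp, sgp, ← ih]
    cases b <;> simp <;> ring

theorem sgp_append_45 (l l' : List Bool) : sgp (l ++ l') = sgp l + X ^ l.length * sgp l' := by
  induction l with
  | nil => simp [sgp]
  | cons b l ih =>
    rw [List.cons_append, sgp, sgp, ih, List.length_cons, pow_succ]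
    ring

theorem sgp_map_not_45 (l : List Bool) : sgp (l.map not) = - sgp l := by
  induction l with
  | nil => simp [sgp]
  | cons b l ih =>
    rw [List.map_cons, sgp, sgp, ih]
    cases b <;> simp <;> ring

theorem one_sub_X_pow_45 (n : ℕ) : ∃ R : ℝ[X], (1 : ℝ[X]) - X ^ n = (1 - X) * R := by
  refine ⟨∑ i ∈ Finset.range n, X ^ i, ?_⟩
  have := mul_neg_geom_sum (X : ℝ[X]) n
  rw [this]

theorem sgp_pat (m : ℕ) (b : Bool) : ∃ R : ℝ[X], sgp (pat m b) = (1 - X) ^ m * R := by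
  induction m generalizing b with
  | zero => exact ⟨sgp (pat 0 b), by rw [pow_zero, one_mul]⟩
  | succ m ih =>
    obtain ⟨R, hR⟩ := ih b
    obtain ⟨S, hS⟩ := one_sub_X_pow_45 (2 ^ m)
    refine ⟨R * S, ?_⟩
    rw [pat, sgp_append_45, pat_length, pat_not, sgp_map_not_45]
    have : sgp (pat m b) + X ^ 2 ^ m * -sgp (pat m b) = sgp (pat m b) * (1 - X ^ 2 ^ m) := by ring
    rw [this, hS, hR, pow_succ]
    ring

theorem lin_cons_45 (V x : Al) (n : ℕ) (c : ℝ) (p : ℝ[X]) (h : p.natDegree ≤ n - 1)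
    (h0 : n = 0 → p = 0) :
    lin V x n (C c + X * p) = c • (x * V ^ n) + V * lin V x (n - 1) p := by
  have hco : ∀ i, (C c + X * p).coeff (i + 1) = p.coeff i := by
    intro i
    rw [coeff_add, coeff_C_succ, zero_add, coeff_X_mul]
  have hco0 : (C c + X * p).coeff 0 = c := by
    simp
  rcases Nat.eq_zero_or_pos n with hn | hn
  · subst hn
    rw [h0 rfl]
    simp [lin]
  · obtain ⟨k, rfl⟩ : ∃ k, n = k + 1 := ⟨n - 1, by omega⟩
    rw [Nat.add_sub_cancel]
    unfold lin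
    rw [Finset.sum_range_succ', hco0, pow_zero, one_mul, Nat.sub_zero, add_comm, Finset.mul_sum]
    congr 1
    apply Finset.sum_congr rfl
    intro i hi
    rw [hco, mul_smul_comm, pow_succ']
    have : k + 1 - (i + 1) = k - i := by omega
    rw [this]
    simp only [mul_assoc]

theorem cells_nil_45 (A B : Al) : cells A B [] = 1 := by
  simp [cells]

theorem cells_cons_45 (A B : Al) (b : Bool) (l : List Bool) :
    cells A B (b :: l) = (if b then A else B) * cells A B l := by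
  simp [cells]

theorem cells_prb_45 {A B : Al} (hA : Prb A) (hB : Prb B) (l : List Bool) : Prb (cells A B l) := by
  apply Prb.list_prod
  intro a ha
  rw [List.mem_map] at ha
  obtain ⟨b, _, rfl⟩ := ha
  cases b
  · simpa using hB
  · simpa using hA


theorem even_odd_step_45 {V D1 D2 : Al} {c1 c2 M : ℝ} {n : ℕ} {E L O : Al} (s : ℝ) (hs : s ^ 2 = 1)
    (hM : 1 ≤ M) (hV : Prb V) (h1 : mass D1 = 0) (h2 : mass D2 = 0) (hc1 : Cost D1 V c1)
    (hc2 : Cost D2 V c2) (hc1' : c1 ≤ 1) (hc2' : c2 ≤ 1)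
    (hE : Orth V E n (M * (c2 + c1 ^ 2))) (hO : Orth V O n (M * (c1 * c2 + c1 ^ 3)))
    (hL : Orth V L n (M * c1)) :
    Orth V (V * E + D2 * (V ^ n + E) + s • (D1 * (L + O))) (n + 1) (40 * M * (c2 + c1 ^ 2)) ∧
    Orth V (V * O + D2 * (L + O) + s • (D1 * E)) (n + 1) (40 * M * (c1 * c2 + c1 ^ 3)) ∧
    Orth V (s • (D1 * V ^ n) + V * L) (n + 1) (40 * M * c1) := by
  have p1 : 0 ≤ c1 := hc1.nonneg hV.pos
  have p2 : 0 ≤ c2 := hc2.nonneg hV.pos
  have hVn : Cost (V ^ n) (V ^ n) 1 := Cost.self (hV.pow n)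
  have hD1 : Orth V D1 1 c1 := Orth.base hV h1 hc1
  have hD2 : Orth V D2 1 c2 := Orth.base hV h2 hc2
  have q1 : c1 ^ 2 ≤ c1 := by nlinarith
  have q3 : c1 ^ 3 ≤ c1 := by nlinarith [mul_nonneg p1 p1]
  have q12 : c1 * c2 ≤ c1 := by nlinarith
  have q0 : 0 ≤ c1 * c2 := mul_nonneg p1 p2
  have q30 : 0 ≤ c1 ^ 3 := pow_nonneg p1 3
  have q20 : 0 ≤ c1 ^ 2 := pow_nonneg p1 2
  have hMp : 0 ≤ M := by linarith
  have eE : Cost E (V ^ n) (2 * M) := by
    refine (hE.cost hV).mono ?_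
    nlinarith
  have eLO : Cost (L + O) (V ^ n) (6 * M * c1) := by
    refine (Cost.add (hV.pow n).pos (hL.cost hV) (hO.cost hV)).mono ?_
    have : M * (c1 * c2 + c1 ^ 3) ≤ M * (2 * c1) := mul_le_mul_of_nonneg_left (by linarith) hMp
    nlinarith
  have eVE : Cost (V ^ n + E) (V ^ n) (2 + 4 * M) := by
    refine (Cost.add (hV.pow n).pos hVn eE).mono ?_
    linarith
  have hl : ∀ {x : Al} {b : ℝ}, Orth V x n b → Orth V (V * x) (n + 1) b := by
    intro x b h
    have := h.pow_left hV 1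
    rwa [pow_one, add_comm] at this
  have hr : ∀ {x z : Al} {b b' : ℝ}, Orth V x 1 b → Cost z (V ^ n) b' →
      Orth V (x * z) (n + 1) (b * b') := by
    intro x z b b' h h'
    have := h.mul_right hV h'
    rwa [add_comm] at this
  have hsm : ∀ {x : Al} {b : ℝ}, Orth V x (n + 1) b → Orth V (s • x) (n + 1) b := by
    intro x b h
    have := h.smul hV s
    rwa [hs, one_mul] at this
  have hM1 : ∀ t : ℝ, 0 ≤ t → t ≤ M * t := fun t ht => by nlinarith
  refine ⟨?_, ?_, ?_⟩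
  · refine (((hl hE).add hV (hr hD2 eVE)).add hV (hsm (hr hD1 eLO))).mono hV ?_
    have t1 := hM1 c2 p2
    have t2 : 0 ≤ M * c1 ^ 2 := by positivity
    have t3 : 0 ≤ M * c2 := by positivity
    nlinarith
  · refine (((hl hO).add hV (hr hD2 eLO)).add hV (hsm (hr hD1 (hE.cost hV)))).mono hV ?_
    have t2 : 0 ≤ M * c1 ^ 3 := by positivity
    have t3 : 0 ≤ M * (c1 * c2) := by positivity
    nlinarith
  · refine ((hsm (hr hD1 hVn)).add hV (hl hL)).mono hV ?_
    have t1 := hM1 c1 p1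
    nlinarith

theorem even_odd_alg_45 (V D1 D2 P E L O : Al) (b : Bool) :
    (if b then V + D2 + D1 else V + D2 - D1) * (P + E + (L + O)) =
      V * P + (V * E + D2 * (P + E) + (if b then (1 : ℝ) else -1) • (D1 * (L + O))) +
        ((if b then (1 : ℝ) else -1) • (D1 * P) + V * L +
          (V * O + D2 * (L + O) + (if b then (1 : ℝ) else -1) • (D1 * E))) := by
  cases b
  · simp only [Bool.false_eq_true, if_false, neg_smul, one_smul]
    noncomm_ring
  · simp only [if_true, one_smul]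
    noncomm_ring

theorem even_odd_alg_45' (V D1 D2 P E L O : Al) (b : Bool) :
    (if (!b) then V + D2 + D1 else V + D2 - D1) * (P + E - (L + O)) =
      V * P + (V * E + D2 * (P + E) + (if b then (1 : ℝ) else -1) • (D1 * (L + O))) -
        ((if b then (1 : ℝ) else -1) • (D1 * P) + V * L +
          (V * O + D2 * (L + O) + (if b then (1 : ℝ) else -1) • (D1 * E))) := by
  cases b
  · simp only [Bool.not_false, if_true, Bool.false_eq_true, if_false, neg_smul, one_smul]
    noncomm_ring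
  · simp only [Bool.not_true, if_true, Bool.false_eq_true, if_false, one_smul]
    noncomm_ring

/-- even and odd parts of a word in `V + D2 ± D1` -/
theorem even_odd (n : ℕ) : ∃ C : ℝ, 1 ≤ C ∧ ∀ (V D1 D2 : Al) (c1 c2 : ℝ) (l : List Bool),
    l.length = n → Prb V → mass D1 = 0 → mass D2 = 0 → Cost D1 V c1 → Cost D2 V c2 → c1 ≤ 1 →
    c2 ≤ 1 → ∃ E O : Al,
      cells (V + D2 + D1) (V + D2 - D1) l = V ^ n + E + (lin V D1 (n - 1) (sgp l) + O) ∧
      cells (V + D2 + D1) (V + D2 - D1) (l.map not) = V ^ n + E - (lin V D1 (n - 1) (sgp l) + O) ∧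
      Orth V E n (C * (c2 + c1 ^ 2)) ∧ Orth V O n (C * (c1 * c2 + c1 ^ 3)) ∧
      Orth V (lin V D1 (n - 1) (sgp l)) n (C * c1) := by
  induction n with
  | zero =>
    refine ⟨1, le_rfl, ?_⟩
    intro V D1 D2 c1 c2 l hl hV h1 h2 hc1 hc2 hc1' hc2'
    have p1 : 0 ≤ c1 := hc1.nonneg hV.pos
    have p2 : 0 ≤ c2 := hc2.nonneg hV.pos
    rw [List.length_eq_zero_iff] at hl
    subst hl
    have hlin : lin V D1 (0 - 1) (sgp []) = 0 := by
      simp [lin, sgp]
    refine ⟨0, 0, ?_, ?_, ?_, ?_, ?_⟩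
    · rw [hlin, cells_nil_45, pow_zero]
      simp
    · rw [hlin, List.map_nil, cells_nil_45, pow_zero]
      simp
    · exact (Orth.zero V 0).mono hV (by positivity)
    · exact (Orth.zero V 0).mono hV (by positivity)
    · rw [hlin]
      exact (Orth.zero V 0).mono hV (by positivity)
  | succ n ih =>
    obtain ⟨M, hM, ih⟩ := ih
    refine ⟨40 * M, by linarith, ?_⟩
    intro V D1 D2 c1 c2 l hl hV h1 h2 hc1 hc2 hc1' hc2'
    rcases l with _ | ⟨b, l⟩
    · simp at hl
    rw [List.length_cons] at hl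
    have hln : l.length = n := by omega
    obtain ⟨E, O, e1, e2, hE, hO, hL⟩ := ih V D1 D2 c1 c2 l hln hV h1 h2 hc1 hc2 hc1' hc2'
    have hdeg : (sgp l).natDegree ≤ n - 1 := by
      have := sgp_natDegree l
      rwa [hln] at this
    have hz : n = 0 → sgp l = 0 := by
      intro h
      have : l = [] := by
        rw [← List.length_eq_zero_iff]
        omega
      rw [this, sgp]
    have hs : (if b then (1 : ℝ) else -1) ^ 2 = 1 := by
      cases b <;> simp
    have key := even_odd_step_45 (if b then (1 : ℝ) else -1) hs hM hV h1 h2 hc1 hc2 hc1' hc2' hE hO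
      hL
    have hlin : lin V D1 (n + 1 - 1) (sgp (b :: l)) =
        (if b then (1 : ℝ) else -1) • (D1 * V ^ n) + V * lin V D1 (n - 1) (sgp l) := by
      rw [Nat.add_sub_cancel, sgp]
      exact lin_cons_45 V D1 n _ _ hdeg hz
    rw [hlin]
    refine ⟨_, _, ?_, ?_, key.1, key.2.1, key.2.2⟩
    · rw [cells_cons_45, e1, pow_succ']
      exact even_odd_alg_45 V D1 D2 _ _ _ _ b
    · rw [List.map_cons, cells_cons_45, e2, pow_succ']
      exact even_odd_alg_45' V D1 D2 _ _ _ _ b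

theorem first_half (m : ℕ) {om : ℝ} (h0 : 0 < om) (h1 : om ≤ 1) : ∃ C : ℝ, 1 ≤ C ∧
    ∀ (V Ap Am : Al) (J K : ℕ) (c1 c2 : ℝ), Prb V → Prb Ap → Prb Am → Slip V J om →
    Cost ((1 / 2 : ℝ) • (Ap - Am)) V c1 → Cost ((1 / 2 : ℝ) • (Ap + Am) - V) V c2 →
    c1 ≤ 1 → c2 ≤ 1 → 1 ≤ K →
    ∀ (N g : ℕ) (V1 C1 : Al), N = K * (J + 1) → g = 2 * N + 2 ^ m →
    V1 = V ^ N * cells Ap Am (pat m true) * V ^ N →
    C1 = V ^ N * cells Ap Am (pat m false) * V ^ N →
    Prb V1 ∧ Prb C1 ∧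
    Cost (V1 - V ^ g) (V ^ g) (C * (c2 + c1 ^ 2 + 1 / (K : ℝ) ^ m)) ∧
    Cost (C1 - V ^ g) (V ^ g) (C * (c2 + c1 ^ 2 + 1 / (K : ℝ) ^ m)) ∧
    Orth V (V1 - V ^ g) g C ∧
    ∃ Dl Do : Al, C1 - V1 = Dl + Do ∧ Cost Dl (V ^ g) (C * (1 / (K : ℝ) ^ m)) ∧
      Orth V Do g (C * (c1 * c2 + c1 ^ 3)) := by
  obtain ⟨R, hR⟩ := sgp_pat m true
  obtain ⟨Ce, hCe, heo⟩ := even_odd (2 ^ m)
  obtain ⟨Ck, hCk, hkill⟩ := kill m R
  have hB0 : 0 ≤ Ck / (om ^ (2 * m) * om) := by positivity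
  obtain ⟨B, hB⟩ : ∃ B : ℝ, B = Ck / (om ^ (2 * m) * om) := ⟨_, rfl⟩
  rw [← hB] at hB0
  refine ⟨20 * Ce + 20 * B, by linarith, ?_⟩
  intro V Ap Am J K c1 c2 hV hAp hAm hs hc1 hc2 hc1' hc2' hK N g V1 C1 hN hg hV1 hC1
  have p1 : 0 ≤ c1 := hc1.nonneg hV.pos
  have p2 : 0 ≤ c2 := hc2.nonneg hV.pos
  set D1 : Al := (1 / 2 : ℝ) • (Ap - Am) with hD1
  set D2 : Al := (1 / 2 : ℝ) • (Ap + Am) - V with hD2
  have m1 : mass D1 = 0 := by
    rw [hD1, mass_smul, mass_sub, hAp.mass, hAm.mass]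
    ring
  have m2 : mass D2 = 0 := by
    rw [hD2, mass_sub, mass_smul, mass_add, hAp.mass, hAm.mass, hV.mass]
    ring
  have eAp : V + D2 + D1 = Ap := by
    rw [hD2, hD1]
    module
  have eAm : V + D2 - D1 = Am := by
    rw [hD2, hD1]
    module
  obtain ⟨E, O, e1, e2, hE, hO, hL⟩ := heo V D1 D2 c1 c2 (pat m true) (pat_length m true) hV m1 m2
    hc1 hc2 hc1' hc2'
  rw [eAp, eAm] at e1 e2
  rw [← pat_not, Bool.not_true] at e2
  set L : Al := lin V D1 (2 ^ m - 1) (sgp (pat m true)) with hLdef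
  have hpos2 : 0 < 2 ^ m := by positivity
  have hgV : V ^ g = V ^ N * V ^ (2 ^ m) * V ^ N := by
    rw [← pow_add, ← pow_add, hg]
    congr 1
    ring
  have eV1 : V1 - V ^ g = V ^ N * E * V ^ N + V ^ N * L * V ^ N + V ^ N * O * V ^ N := by
    rw [hV1, e1, hgV]
    noncomm_ring
  have eC1 : C1 - V ^ g = V ^ N * E * V ^ N - V ^ N * L * V ^ N - V ^ N * O * V ^ N := by
    rw [hC1, e2, hgV]
    noncomm_ring
  have hVN : Cost (V ^ N) (V ^ N) 1 := Cost.self (hV.pow N)
  have hor : ∀ {x : Al} {b : ℝ}, Orth V x (2 ^ m) b → Orth V (V ^ N * x * V ^ N) g b := by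
    intro x b h
    have := (h.pow_left hV N).mul_right hV hVN
    rw [mul_one] at this
    have e : N + 2 ^ m + N = g := by
      rw [hg]
      ring
    rwa [e] at this
  have oE := hor hE
  have oO := hor hO
  have oL := hor hL
  have hdeg : ((1 - X : ℝ[X]) ^ m * R).natDegree ≤ 2 ^ m - 1 := by
    rw [← hR]
    have := sgp_natDegree (pat m true)
    rwa [pat_length] at this
  have kL : Cost (V ^ N * L * V ^ N) (V ^ g) (B * (1 / (K : ℝ) ^ m)) := by
    have h := hkill V D1 J 1 (2 ^ m - 1) K om c1 hV hs h0 h1 (Orth.base hV m1 hc1) hdeg hK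
    rw [← hR, ← hLdef, ← hN] at h
    have e : 2 * N + (2 ^ m - 1 + 1) = g := by
      rw [hg]
      omega
    rw [e] at h
    refine h.mono ?_
    have hKr : (1 : ℝ) ≤ K := by exact_mod_cast hK
    have hK0 : (0 : ℝ) < K := by linarith
    have hsq : om ≤ √(om ^ 2 * K) := by
      apply Real.le_sqrt_of_sq_le
      nlinarith [sq_nonneg om]
    have h2 : Ck / ((om ^ 2 * K) ^ m * √(om ^ 2 * K)) ≤ Ck / ((om ^ 2 * K) ^ m * om) := by
      apply div_le_div_of_nonneg_left hCk (by positivity)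
      exact mul_le_mul_of_nonneg_left hsq (by positivity)
    have h3 : Ck / ((om ^ 2 * K) ^ m * om) = B * (1 / (K : ℝ) ^ m) := by
      rw [hB, mul_pow, ← pow_mul]
      field_simp
    have h4 : 0 ≤ Ck / ((om ^ 2 * K) ^ m * om) := by positivity
    calc c1 * (Ck / ((om ^ 2 * K) ^ m * √(om ^ 2 * K)))
        ≤ 1 * (Ck / ((om ^ 2 * K) ^ m * om)) :=
          mul_le_mul hc1' h2 (by positivity) (by norm_num)
      _ = B * (1 / (K : ℝ) ^ m) := by rw [one_mul, h3]
  have q1 : c1 ^ 2 ≤ 1 := by nlinarith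
  have q3 : c1 ^ 3 ≤ c1 ^ 2 := by nlinarith [sq_nonneg c1]
  have q12 : c1 * c2 ≤ c2 := by nlinarith
  have qm : (0 : ℝ) ≤ 1 / (K : ℝ) ^ m := by positivity
  have q0 : 0 ≤ c1 * c2 := mul_nonneg p1 p2
  have q30 : 0 ≤ c1 ^ 3 := pow_nonneg p1 3
  have hCe0 : 0 ≤ Ce := by linarith
  have r1 : Ce * (c1 * c2 + c1 ^ 3) ≤ Ce * (c2 + c1 ^ 2) :=
    mul_le_mul_of_nonneg_left (by linarith) hCe0
  have r2 : 0 ≤ Ce * (c2 + c1 ^ 2) := by positivity
  have r3 : 0 ≤ B * (1 / (K : ℝ) ^ m) := by positivity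
  have r4 : 0 ≤ Ce * (1 / (K : ℝ) ^ m) := by positivity
  have r5 : 0 ≤ B * (c2 + c1 ^ 2) := by positivity
  have r6 : 0 ≤ Ce * (c1 * c2 + c1 ^ 3) := by positivity
  have r7 : 0 ≤ B * (c1 * c2 + c1 ^ 3) := by positivity
  have cE := oE.cost hV
  have cO := oO.cost hV
  have hVg : Pos (V ^ g) := (hV.pow g).pos
  refine ⟨?_, ?_, ?_, ?_, ?_, ?_⟩
  · rw [hV1]
    exact ((hV.pow N).mul (cells_prb_45 hAp hAm _)).mul (hV.pow N)
  · rw [hC1]
    exact ((hV.pow N).mul (cells_prb_45 hAp hAm _)).mul (hV.pow N)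
  · rw [eV1]
    refine (Cost.add3 hVg cE kL cO).mono ?_
    nlinarith
  · rw [eC1, sub_eq_add_neg, sub_eq_add_neg]
    refine (Cost.add3 hVg cE kL.neg cO.neg).mono ?_
    nlinarith
  · rw [eV1]
    refine ((oE.add hV oL).add hV oO).mono hV ?_
    have t1 : Ce * (c2 + c1 ^ 2) ≤ Ce * 2 := mul_le_mul_of_nonneg_left (by linarith) hCe0
    have t2 : Ce * c1 ≤ Ce * 1 := mul_le_mul_of_nonneg_left (by linarith) hCe0
    nlinarith
  · refine ⟨(-2 : ℝ) • (V ^ N * L * V ^ N), (-2 : ℝ) • (V ^ N * O * V ^ N), ?_, ?_, ?_⟩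
    · have : C1 - V1 = (C1 - V ^ g) - (V1 - V ^ g) := by abel
      rw [this, eC1, eV1]
      module
    · refine (kL.smul (-2)).mono ?_
      nlinarith
    · refine (oO.smul hV (-2)).mono hV ?_
      nlinarith

end Vale.Agent.P321.Sup
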