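import Vale.Agent.P321.Sup.BaseLev
import Vale.Agent.P321.Sup.LevB

namespace Vale.Agent.P321.Sup

/-- the sample complexity of trace reconstruction is superpolynomial -/
theorem superpoly {q : ℝ} (hq0 : 0 < q) (hq1 : q < 1) {C : ℝ} (hC : 0 ≤ C) :
    ∃ c : ℝ, 0 < c ∧ ∀ n : ℕ, 1 ≤ n → c * (n : ℝ) ^ C ≤ (T q n : ℝ) :=
  super_of_base_pf hq0 hq1 (base_lev hq0 hq1) hC

end Vale.Agent.P321.Sup
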