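import Vale.Agent.P321.Sup.Pat

/-!
Blueprint module Words2: words of the second half of the double step.
-/

namespace Vale.Agent.P321.Sup

open Polynomial

theorem Orth.congr_len_45 {V x : Al} {l l' : ℕ} {b : ℝ} (h : Orth V x l b) (e : l = l') :
    Orth V x l' b := e ▸ h

theorem Cost.congr_pow_45 {V x : Al} {l l' : ℕ} {b : ℝ} (h : Cost x (V ^ l) b) (e : l = l') :
    Cost x (V ^ l') b := e ▸ h

/-- cost of `V1` relative to `V ^ g` -/
theorem cost_V1_45 {V V1 : Al} {g : ℕ} {C0 : ℝ} (hV : Prb V) (hV1 : Prb V1)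
    (h : Cost (V1 - V ^ g) (V ^ g) C0) : Cost V1 (V ^ g) (1 + C0) :=
  Cost.one_add (hV.pow g) hV1.mass h

theorem cost_V1_pow_45 {V V1 : Al} {g : ℕ} {C0 : ℝ} (hV : Prb V) (hV1 : Prb V1)
    (h : Cost (V1 - V ^ g) (V ^ g) C0) (n : ℕ) : Cost (V1 ^ n) (V ^ (g * n)) ((1 + C0) ^ n) := by
  have := (cost_V1_45 hV hV1 h).pow (hV.pow g).pos n
  rwa [← pow_mul] at this

/-- words in `V1` and `V1 + Dl + Do` with at least one mark, and with at least two marks -/
theorem words_two (n : ℕ) {C0 : ℝ} (hC0 : 1 ≤ C0) : ∃ C : ℝ, 1 ≤ C ∧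
    ∀ (V V1 Dl Do : Al) (g : ℕ) (x y : ℝ) (l : List Bool), l.length = n → Prb V → Prb V1 →
    Orth V (V1 - V ^ g) g C0 → Cost Dl (V ^ g) x → x ≤ 1 → Orth V Do g y → y ≤ 1 →
    (∃ Tl To : Al, cells V1 (V1 + (Dl + Do)) l - V1 ^ n = Tl + To ∧
      Cost Tl (V ^ (g * n)) (C * x) ∧ Orth V To (g * n) (C * y)) ∧
    (∃ Pl Po : Al, cells V1 (V1 + (Dl + Do)) l - V1 ^ n - lin V1 (Dl + Do) (n - 1) (fgp l)
        = Pl + Po ∧
      Cost Pl (V ^ (g * n)) (C * x) ∧ Orth V Po (g * n) (C * y ^ 2)) := by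
  induction n with
  | zero =>
    refine ⟨1, le_rfl, ?_⟩
    intro V V1 Dl Do g x y l hl hV hV1 hD hx hx1 hy hy1
    have p1 : 0 ≤ x := hx.nonneg (hV.pow g).pos
    have p2 : 0 ≤ y := hy.nonneg hV
    rw [List.length_eq_zero_iff] at hl
    subst hl
    refine ⟨⟨0, 0, ?_, ?_, ?_⟩, 0, 0, ?_, ?_, ?_⟩
    · simp [cells_nil_45]
    · exact (Cost.zero _).mono (by positivity)
    · exact (Orth.zero V _).mono hV (by positivity)
    · simp [cells_nil_45, lin, fgp]
    · exact (Cost.zero _).mono (by positivity)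
    · exact (Orth.zero V _).mono hV (by positivity)
  | succ n ih =>
    obtain ⟨M, hM, ih⟩ := ih
    have hP : (0 : ℝ) ≤ (1 + C0) ^ n := by positivity
    refine ⟨20 * M * C0 + 20 * (1 + C0) ^ n + 20 * M, ?_, ?_⟩
    · nlinarith
    intro V V1 Dl Do g x y l hl hV hV1 hD hx hx1 hy hy1
    have p1 : 0 ≤ x := hx.nonneg (hV.pow g).pos
    have p2 : 0 ≤ y := hy.nonneg hV
    rcases l with _ | ⟨b, l⟩
    · simp at hl
    rw [List.length_cons] at hl
    have hln : l.length = n := by omega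
    obtain ⟨⟨Tl, To, e1, hTl, hTo⟩, Pl, Po, e2, hPl, hPo⟩ :=
      ih V V1 Dl Do g x y l hln hV hV1 hD hx hx1 hy hy1
    have hdeg : (fgp l).natDegree ≤ n - 1 := by
      have := fgp_natDegree l
      rwa [hln] at this
    have hz : n = 0 → fgp l = 0 := by
      intro h
      have : l = [] := by
        rw [← List.length_eq_zero_iff]
        omega
      rw [this, fgp]
    have hlin : lin V1 (Dl + Do) (n + 1 - 1) (fgp (b :: l)) =
        (if b then (0 : ℝ) else 1) • ((Dl + Do) * V1 ^ n) +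
          V1 * lin V1 (Dl + Do) (n - 1) (fgp l) := by
      rw [Nat.add_sub_cancel, fgp]
      exact lin_cons_45 V1 (Dl + Do) n _ _ hdeg hz
    have hn1 : g * n + g = g * (n + 1) := by ring
    have hn2 : g + g * n = g * (n + 1) := by ring
    have hVV : V ^ g * V ^ (g * n) = V ^ (g * (n + 1)) := by
      rw [← pow_add, hn2]
    have cD := hD.cost hV
    have cV1 := cost_V1_45 hV hV1 cD
    have cV1n := cost_V1_pow_45 hV hV1 cD n
    have hgp : Pos (V ^ g) := (hV.pow g).pos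
    have hgnp : Pos (V ^ (g * n)) := (hV.pow _).pos
    have hgn1p : Pos (V ^ (g * (n + 1))) := (hV.pow _).pos
    have hmul : ∀ {a c : Al} {k k' : ℝ}, Cost a (V ^ g) k → Cost c (V ^ (g * n)) k' →
        Cost (a * c) (V ^ (g * (n + 1))) (k * k') := by
      intro a c k k' ha hc
      have := Cost.mul hgp hgnp ha hc
      rwa [hVV] at this
    have hmr : ∀ {a c : Al} {k k' : ℝ}, Orth V a g k → Cost c (V ^ (g * n)) k' →
        Orth V (a * c) (g * (n + 1)) (k * k') := by
      intro a c k k' ha hc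
      exact (ha.mul_right hV hc).congr_len_45 hn2
    have hml : ∀ {c : Al} {k : ℝ}, Orth V c (g * n) k →
        Orth V (V1 * c) (g * (n + 1)) (2 * k + 2 * (C0 * k)) := by
      intro c k hc
      exact (Orth.mul_left hV hD hc).congr_len_45 hn2
    have hM0 : 0 ≤ M := by linarith
    have hC00 : 0 ≤ C0 := by linarith
    have hy2 : y ^ 2 ≤ y := by nlinarith
    have hy20 : 0 ≤ y ^ 2 := by positivity
    have hMx : 0 ≤ M * x := by positivity
    have hMy : 0 ≤ M * y := by positivity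
    have hMCx : 0 ≤ M * C0 * x := by positivity
    have hMCy : 0 ≤ M * C0 * y := by positivity
    have hPx : 0 ≤ (1 + C0) ^ n * x := by positivity
    have hPy : 0 ≤ (1 + C0) ^ n * y := by positivity
    have hMy2 : 0 ≤ M * y ^ 2 := by positivity
    have hMCy2 : 0 ≤ M * C0 * y ^ 2 := by positivity
    have hPy2 : 0 ≤ (1 + C0) ^ n * y ^ 2 := by positivity
    have hxy : x * y ≤ x := by nlinarith
    have hxx : x * x ≤ x := by nlinarith
    have hxxM : M * (x * x) ≤ M * x := mul_le_mul_of_nonneg_left hxx hM0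
    have hxyM : M * (x * y) ≤ M * x := mul_le_mul_of_nonneg_left hxy hM0
    have hMC1 : M * x ≤ M * C0 * x := by nlinarith
    have aT : Cost (V1 * Tl) (V ^ (g * (n + 1))) ((1 + C0) * (M * x)) := hmul cV1 hTl
    have aTo : Orth V (V1 * To) (g * (n + 1)) (2 * (M * y) + 2 * (C0 * (M * y))) := hml hTo
    have aP : Cost (V1 * Pl) (V ^ (g * (n + 1))) ((1 + C0) * (M * x)) := hmul cV1 hPl
    have aPo : Orth V (V1 * Po) (g * (n + 1)) (2 * (M * y ^ 2) + 2 * (C0 * (M * y ^ 2))) := hml hPo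
    have s1 : V1 ^ (n + 1) = V1 * V1 ^ n := pow_succ' _ _
    cases b
    · have ecell : cells V1 (V1 + (Dl + Do)) l = V1 ^ n + Tl + To := by
        rw [← sub_eq_iff_eq_add'] at e1
        have : cells V1 (V1 + (Dl + Do)) l = V1 ^ n + (cells V1 (V1 + (Dl + Do)) l - V1 ^ n) := by
          abel
        rw [this]
        rw [sub_eq_iff_eq_add'] at e1
        rw [e1]
        abel
      have cc : Cost (V1 ^ n + Tl + To) (V ^ (g * n))
          (3 * (1 + C0) ^ n + 3 * (M * x) + 3 * (M * y)) := Cost.add3 hgnp cV1n hTl (hTo.cost hV)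
      have cc' : Cost (V1 ^ n + Tl + To) (V ^ (g * n)) (3 * (1 + C0) ^ n + 6 * M) :=
        cc.mono (by nlinarith)
      refine ⟨⟨V1 * Tl + Dl * (V1 ^ n + Tl + To), V1 * To + Do * (V1 ^ n + Tl + To), ?_, ?_, ?_⟩,
        V1 * Pl + Dl * (Tl + To) + Do * Tl, V1 * Po + Do * To, ?_, ?_, ?_⟩
      · rw [cells_cons_45, ecell, s1]
        simp only [Bool.false_eq_true, if_false]
        noncomm_ring
      · refine (Cost.add hgn1p aT (hmul hx cc')).mono ?_
        nlinarith
      · refine (aTo.add hV (hmr hy cc')).mono hV ?_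
        nlinarith
      · have e3 : cells V1 (V1 + (Dl + Do)) l =
            V1 ^ n + lin V1 (Dl + Do) (n - 1) (fgp l) + (Pl + Po) := by
          rw [← e2]
          abel
        have e4 : V1 ^ n + Tl + To = V1 ^ n + lin V1 (Dl + Do) (n - 1) (fgp l) + (Pl + Po) := by
          rw [← ecell, e3]
        have e5 : Tl + To = lin V1 (Dl + Do) (n - 1) (fgp l) + (Pl + Po) := by
          have := congrArg (fun t => t - V1 ^ n) e4
          have h1 : V1 ^ n + Tl + To - V1 ^ n = Tl + To := by abel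
          have h2 : V1 ^ n + lin V1 (Dl + Do) (n - 1) (fgp l) + (Pl + Po) - V1 ^ n =
            lin V1 (Dl + Do) (n - 1) (fgp l) + (Pl + Po) := by abel
          rw [← h1, ← h2]
          exact this
        rw [hlin, cells_cons_45, s1, e3]
        simp only [Bool.false_eq_true, if_false, one_smul]
        have e6 : V1 * Pl + Dl * (Tl + To) + Do * Tl + (V1 * Po + Do * To) =
            V1 * (Pl + Po) + (Dl + Do) * (Tl + To) := by noncomm_ring
        rw [e6, e5]
        noncomm_ring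
      · have cTT : Cost (Tl + To) (V ^ (g * n)) (2 * (M * x) + 2 * (M * y)) :=
          Cost.add hgnp hTl (hTo.cost hV)
        have c1 := hmul hx cTT
        have c2 := hmul (hy.cost hV) hTl
        refine (Cost.add3 hgn1p aP c1 c2).mono ?_
        nlinarith
      · have c1 := hmr hy (hTo.cost hV)
        refine (aPo.add hV c1).mono hV ?_
        nlinarith
    · refine ⟨⟨V1 * Tl, V1 * To, ?_, ?_, ?_⟩, V1 * Pl, V1 * Po, ?_, ?_, ?_⟩
      · rw [cells_cons_45, s1, ← mul_add, ← e1]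
        simp only [if_true]
        noncomm_ring
      · refine aT.mono ?_
        nlinarith
      · refine aTo.mono hV ?_
        nlinarith
      · rw [hlin, cells_cons_45, s1, ← mul_add, ← e2]
        simp only [if_true, zero_smul]
        noncomm_ring
      · refine aP.mono ?_
        nlinarith
      · refine aPo.mono hV ?_
        nlinarith

theorem one_add_pow_le_45 {e : ℝ} (he : 0 ≤ e) {n : ℕ} (h : (n : ℝ) * e ≤ 1) :
    (1 + e) ^ n ≤ 1 + 2 * (n * e) := by
  have h1 : (1 + e) ^ n ≤ Real.exp (n * e) := by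
    rw [Real.exp_nat_mul]
    apply pow_le_pow_left₀ (by positivity)
    have := Real.add_one_le_exp e
    linarith
  have h0 : 0 ≤ (n : ℝ) * e := by positivity
  have h2 : Real.exp (n * e) ≤ 1 + n * e + (n * e) ^ 2 := by
    have := Real.abs_exp_sub_one_sub_id_le (x := n * e) (by rw [abs_of_nonneg h0]; exact h)
    have := (abs_le.mp this).2
    linarith
  nlinarith

/-- environment `V1^N1`, almost orthogonal part -/
theorem env_orth {om : ℝ} (h0 : 0 < om) (h1 : om ≤ 1) : ∃ C : ℝ, 1 ≤ C ∧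
    ∀ (V V1 x : Al) (J g l N1 : ℕ) (b e : ℝ), Prb V → Slip V J om → Prb V1 →
    Cost (V1 - V ^ g) (V ^ g) e → (N1 : ℝ) * e ≤ 1 → Orth V x l b → (J + 1) ^ 3 ≤ g * N1 →
    Cost (V1 ^ N1 * x * V1 ^ N1) (V ^ (g * (2 * N1) + l))
      (C * (b * (1 / ((J : ℝ) + 1) + N1 * e))) := by
  obtain ⟨Cg, hCg, hgain⟩ := gain
  refine ⟨24 + 3 * (Cg / om), ?_, ?_⟩
  · have : 0 ≤ Cg / om := by positivity
    linarith
  intro V V1 x J g l N1 b e hV hs hV1 hcost hNe hx hJ
  have hb : 0 ≤ b := hx.nonneg hV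
  have he : 0 ≤ e := hcost.nonneg (hV.pow g).pos
  have hN0 : 0 ≤ (N1 : ℝ) * e := by positivity
  set M : ℕ := g * N1 with hM
  have hten : Cost (V1 ^ N1 - V ^ M) (V ^ M) (2 * (N1 * e)) := by
    have := Cost.tensor (hV.pow g) hV1.mass hcost N1
    rw [← pow_mul] at this
    refine this.mono ?_
    have := one_add_pow_le_45 he hNe
    linarith
  set D : Al := V1 ^ N1 - V ^ M with hD
  have hVM : Cost (V ^ M) (V ^ M) 1 := Cost.self (hV.pow M)
  have hV1M : Cost (V1 ^ N1) (V ^ M) (1 + 2 * (N1 * e)) :=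
    Cost.one_add (hV.pow M) (hV1.pow N1).mass hten
  have hxc := hx.cost hV
  have hMp : Pos (V ^ M) := (hV.pow M).pos
  have hlp : Pos (V ^ l) := (hV.pow l).pos
  have hMlp : Pos (V ^ M * V ^ l) := hMp.mul hlp
  have hlen : V ^ M * V ^ l * V ^ M = V ^ (g * (2 * N1) + l) := by
    rw [← pow_add, ← pow_add, hM]
    congr 1
    ring
  have e1 : V1 ^ N1 * x * V1 ^ N1 = V ^ M * x * V ^ M + D * x * V ^ M + V1 ^ N1 * x * D := by
    rw [hD]
    noncomm_ring
  have c2 : Cost (D * x * V ^ M) (V ^ (g * (2 * N1) + l)) (2 * (N1 * e) * b * 1) := by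
    rw [← hlen]
    exact Cost.mul hMlp hMp (Cost.mul hMp hlp hten hxc) hVM
  have c3 : Cost (V1 ^ N1 * x * D) (V ^ (g * (2 * N1) + l))
      ((1 + 2 * (N1 * e)) * b * (2 * (N1 * e))) := by
    rw [← hlen]
    exact Cost.mul hMlp hMp (Cost.mul hMp hlp hV1M hxc) hten
  set K : ℕ := M / (J + 1) with hK
  set r : ℕ := M % (J + 1) with hr
  have hMK : M = r + K * (J + 1) := by
    rw [hK, hr]
    have := Nat.mod_add_div M (J + 1)
    rw [mul_comm (J + 1)] at this
    exact this.symm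
  have hKJ : (J + 1) ^ 2 ≤ K := by
    rw [hK, Nat.le_div_iff_mul_le (by omega)]
    calc (J + 1) ^ 2 * (J + 1) = (J + 1) ^ 3 := by ring
      _ ≤ M := hJ
  have hK1 : 1 ≤ K := le_trans (Nat.one_le_pow _ _ (by omega)) hKJ
  have hg := hgain V x J l K om b hV hs h0 h1 hx hK1
  have c1 : Cost (V ^ M * x * V ^ M) (V ^ (g * (2 * N1) + l)) (1 * (b * (Cg / √(om ^ 2 * K))) * 1) := by
    have hVr : Cost (V ^ r) (V ^ r) 1 := Cost.self (hV.pow r)
    have hrp : Pos (V ^ r) := (hV.pow r).pos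
    have h := Cost.mul (hrp.mul (hV.pow (2 * (K * (J + 1)) + l)).pos) hrp
      (Cost.mul hrp (hV.pow (2 * (K * (J + 1)) + l)).pos hVr hg) hVr
    have ea : V ^ r * (V ^ (K * (J + 1)) * x * V ^ (K * (J + 1))) * V ^ r = V ^ M * x * V ^ M := by
      have h1 : V ^ M = V ^ r * V ^ (K * (J + 1)) := by rw [← pow_add, ← hMK]
      have h2 : V ^ M = V ^ (K * (J + 1)) * V ^ r := by rw [← pow_add, add_comm, ← hMK]
      calc V ^ r * (V ^ (K * (J + 1)) * x * V ^ (K * (J + 1))) * V ^ r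
          = (V ^ r * V ^ (K * (J + 1))) * x * (V ^ (K * (J + 1)) * V ^ r) := by
            simp only [mul_assoc]
        _ = V ^ M * x * V ^ M := by rw [← h1, ← h2]
    have eb : V ^ r * V ^ (2 * (K * (J + 1)) + l) * V ^ r = V ^ (g * (2 * N1) + l) := by
      rw [← pow_add, ← pow_add]
      congr 1
      have : g * (2 * N1) = 2 * M := by rw [hM]; ring
      rw [this, hMK]
      ring
    rwa [ea, eb] at h
  have hJr : (0 : ℝ) < (J : ℝ) + 1 := by positivity
  have hsq : om * ((J : ℝ) + 1) ≤ √(om ^ 2 * K) := by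
    apply Real.le_sqrt_of_sq_le
    rw [mul_pow]
    apply mul_le_mul_of_nonneg_left _ (by positivity)
    exact_mod_cast hKJ
  have hgb : Cg / √(om ^ 2 * K) ≤ (Cg / om) * (1 / ((J : ℝ) + 1)) := by
    have : Cg / √(om ^ 2 * K) ≤ Cg / (om * ((J : ℝ) + 1)) :=
      div_le_div_of_nonneg_left hCg (by positivity) hsq
    refine this.trans (le_of_eq ?_)
    field_simp
  rw [e1]
  refine (Cost.add3 (hV.pow _).pos c1 c2 c3).mono ?_
  have hi : 0 ≤ 1 / ((J : ℝ) + 1) := by positivity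
  have hco : 0 ≤ Cg / om := by positivity
  have t1 : b * (Cg / √(om ^ 2 * K)) ≤ b * ((Cg / om) * (1 / ((J : ℝ) + 1))) :=
    mul_le_mul_of_nonneg_left hgb hb
  have t2 : b * (N1 * e) * (N1 * e) ≤ b * (N1 * e) * 1 :=
    mul_le_mul_of_nonneg_left hNe (by positivity)
  have t3 : 0 ≤ b * (N1 * e) := by positivity
  have t4 : 0 ≤ b * (1 / ((J : ℝ) + 1)) := by positivity
  have t5 : 0 ≤ (Cg / om) * (b * (N1 * e)) := by positivity
  have t6 : 0 ≤ (Cg / om) * (b * (1 / ((J : ℝ) + 1))) := by positivity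
  nlinarith

/-- environment `V1^N1`, crude version -/
theorem env_cost (V V1 x : Al) (g l N1 : ℕ) (b e : ℝ) (hV : Prb V) (hV1 : Prb V1)
    (h : Cost (V1 - V ^ g) (V ^ g) e) (hN : (N1 : ℝ) * e ≤ 1) (hx : Cost x (V ^ l) b) :
    Cost (V1 ^ N1 * x * V1 ^ N1) (V ^ (g * (2 * N1) + l)) (9 * b) := by
  have hb : 0 ≤ b := hx.nonneg (hV.pow l).pos
  have he : 0 ≤ e := h.nonneg (hV.pow g).pos
  have hc : Cost (V1 ^ N1) (V ^ (g * N1)) 3 := by
    refine (cost_V1_pow_45 hV hV1 h N1).mono ?_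
    have := one_add_pow_le_45 he hN
    linarith
  have hMp : Pos (V ^ (g * N1)) := (hV.pow _).pos
  have hlp : Pos (V ^ l) := (hV.pow l).pos
  have hlen : V ^ (g * N1) * V ^ l * V ^ (g * N1) = V ^ (g * (2 * N1) + l) := by
    rw [← pow_add, ← pow_add]
    congr 1
    ring
  rw [← hlen]
  refine (Cost.mul (hMp.mul hlp) hMp (Cost.mul hMp hlp hc hx) hc).mono ?_
  linarith

end Vale.Agent.P321.Sup
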